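import Vale.Agent.P255.Defs

/-! Basic calculus of the Levi-Civita connection in global coordinates. -/

set_option maxSynthPendingDepth 3
set_option linter.deprecated false

namespace Vale.Agent.P255

open scoped ContDiff Topology
open Set Filter

variable {V : Type} [NormedAddCommGroup V] [NormedSpace ℝ V]
  {g : V → V →L[ℝ] V →L[ℝ] ℝ}

/-- the Christoffel map as a continuous bilinear map -/
noncomputable def chrL (g : V → V →L[ℝ] V →L[ℝ] ℝ) (x : V) : V →L[ℝ] V →L[ℝ] V :=
  (ContinuousLinearMap.compL ℝ V (V →L[ℝ] ℝ) V (g x).inverse).comp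
    ((1 / 2 : ℝ) • (fderiv ℝ g x + (fderiv ℝ g x).flip -
      ((ContinuousLinearMap.flipₗᵢ ℝ V V ℝ).toContinuousLinearEquiv :
        (V →L[ℝ] V →L[ℝ] ℝ) →L[ℝ] V →L[ℝ] V →L[ℝ] ℝ).comp (fderiv ℝ g x).flip))

theorem chrL_apply (x v w : V) : chrL g x v w = chr g x v w := rfl

/-- geodesic equation and linearised geodesic equation at time `s` -/
def Sys (g : V → V →L[ℝ] V →L[ℝ] ℝ) (c v J w : ℝ → V) (s : ℝ) : Prop :=
  HasDerivAt c (v s) s ∧ HasDerivAt v (-chrL g (c s) (v s) (v s)) s ∧ HasDerivAt J (w s) s ∧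
    HasDerivAt w (-((2 : ℝ) • chrL g (c s) (v s) (w s))
      - fderiv ℝ (chrL g) (c s) (J s) (v s) (v s)) s

/-- the quantity `g (J, D J)` -/
noncomputable def Qlc (g : V → V →L[ℝ] V →L[ℝ] ℝ) (x v J w : V) : ℝ :=
  g x J w + 1 / 2 * fderiv ℝ g x v J J

theorem two_le_inf : minSmoothness ℝ 2 ≤ ∞ := by
  rw [minSmoothness_of_isRCLikeNormedField]
  exact WithTop.coe_le_coe.2 (le_top : (2 : ℕ∞) ≤ ⊤)

theorem IsMetric.diff (hg : IsMetric g) : Differentiable ℝ g :=
  hg.smooth.differentiable (by simp)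

theorem IsMetric.smooth_fderiv (hg : IsMetric g) : ContDiff ℝ ∞ (fderiv ℝ g) :=
  hg.smooth.fderiv_right (m := ∞) (by simp)

theorem IsMetric.nonneg (hg : IsMetric g) (x v : V) : 0 ≤ g x v v := by
  by_cases h : v = 0
  · simp [h]
  · exact (hg.pos x v h).le

theorem IsMetric.eq_of (hg : IsMetric g) (x : V) {a b : V} (h : ∀ u, g x a u = g x b u) :
    a = b := by
  by_contra hne
  have := hg.pos x (a - b) (sub_ne_zero.2 hne)
  rw [map_sub (g x), ContinuousLinearMap.sub_apply, h, sub_self] at this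
  exact lt_irrefl _ this

/-- Cauchy-Schwarz -/
theorem IsMetric.sq_le (hg : IsMetric g) (x a b : V) : g x a b ^ 2 ≤ g x a a * g x b b := by
  have h : ∀ t : ℝ, 0 ≤ g x a a * (t * t) + 2 * g x a b * t + g x b b := fun t => by
    have := hg.nonneg x (t • a + b)
    simp only [map_add, map_smul, ContinuousLinearMap.add_apply, ContinuousLinearMap.smul_apply,
      smul_eq_mul, hg.symm x b a] at this
    linarith
  have := discrim_le_zero h
  rw [discrim] at this
  nlinarith

theorem hasFDerivAt_apply₂ {W : Type} [NormedAddCommGroup W] [NormedSpace ℝ W]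
    {F : V → V →L[ℝ] V →L[ℝ] W} {x : V} (hF : DifferentiableAt ℝ F x) (a b u : V) :
    fderiv ℝ (fun y => F y a b) x u = fderiv ℝ F x u a b := by
  have h1 := (hF.hasFDerivAt.clm_apply (hasFDerivAt_const a x)).clm_apply (hasFDerivAt_const b x)
  rw [h1.fderiv]
  simp

theorem IsMetric.fderiv_symm (hg : IsMetric g) (x u v w : V) :
    fderiv ℝ g x u v w = fderiv ℝ g x u w v := by
  rw [← hasFDerivAt_apply₂ (hg.diff x), ← hasFDerivAt_apply₂ (hg.diff x)]
  simp only [hg.symm _ v w]

variable [FiniteDimensional ℝ V]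

theorem IsMetric.invertible (hg : IsMetric g) (x : V) : (g x).IsInvertible := by
  have hi : Function.Injective (g x) := fun a b h => hg.eq_of x fun u => by rw [h]
  have hd : Module.finrank ℝ V = Module.finrank ℝ (V →L[ℝ] ℝ) := by
    rw [← (LinearMap.toContinuousLinearMap (𝕜 := ℝ) (E := V) (F' := ℝ)).finrank_eq]
    exact Subspace.dual_finrank_eq.symm
  exact ⟨((g x).toLinearMap.linearEquivOfInjective hi hd).toContinuousLinearEquiv, by
    ext a b; rfl⟩

theorem IsMetric.chr_spec (hg : IsMetric g) (x v w u : V) :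
    g x (chrL g x v w) u =
      1 / 2 * (fderiv ℝ g x v w u + fderiv ℝ g x w v u - fderiv ℝ g x u v w) := by
  rw [chrL_apply, chr, (hg.invertible x).self_apply_inverse]
  simp

theorem IsMetric.chr_symm (hg : IsMetric g) (x v w : V) : chrL g x v w = chrL g x w v :=
  hg.eq_of x fun u => by rw [hg.chr_spec, hg.chr_spec, hg.fderiv_symm x u v w]; ring

theorem IsMetric.compat (hg : IsMetric g) (x u v w : V) :
    fderiv ℝ g x u v w = g x (chrL g x u v) w + g x v (chrL g x u w) := by
  rw [hg.symm x v, hg.chr_spec, hg.chr_spec, hg.fderiv_symm x u w v, hg.fderiv_symm x v u w,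
    hg.fderiv_symm x w u v]
  ring

theorem IsMetric.smooth_chr (hg : IsMetric g) : ContDiff ℝ ∞ (chrL g) := by
  have : CompleteSpace V := FiniteDimensional.complete ℝ V
  have h1 : ContDiff ℝ ∞ fun x => (g x).inverse := contDiff_iff_contDiffAt.2 fun x =>
    (hg.invertible x).contDiffAt_map_inverse.comp x hg.smooth.contDiffAt
  have h2 := hg.smooth_fderiv
  refine contDiff_clm_apply_iff.2 fun v => contDiff_clm_apply_iff.2 fun w => ?_
  simp only [chrL_apply, chr]
  refine h1.clm_apply (ContDiff.const_smul _ (ContDiff.sub (ContDiff.add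
    ((h2.clm_apply contDiff_const).clm_apply contDiff_const)
    ((h2.clm_apply contDiff_const).clm_apply contDiff_const)) ?_))
  refine contDiff_clm_apply_iff.2 fun u => ?_
  simp only [ContinuousLinearMap.flip_apply]
  exact ((h2.clm_apply contDiff_const).clm_apply contDiff_const).clm_apply contDiff_const

theorem IsMetric.diff_chr (hg : IsMetric g) : Differentiable ℝ (chrL g) :=
  hg.smooth_chr.differentiable (by simp)

theorem IsMetric.fderiv_chr_symm (hg : IsMetric g) (x u v w : V) :
    fderiv ℝ (chrL g) x u v w = fderiv ℝ (chrL g) x u w v := by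
  rw [← hasFDerivAt_apply₂ (hg.diff_chr x), ← hasFDerivAt_apply₂ (hg.diff_chr x)]
  simp only [hg.chr_symm _ v w]

theorem IsMetric.curv_eq (hg : IsMetric g) (x X Y Z : V) :
    curv g x X Y Z = fderiv ℝ (chrL g) x X Y Z - fderiv ℝ (chrL g) x Y X Z
      + chrL g x X (chrL g x Y Z) - chrL g x Y (chrL g x X Z) := by
  rw [← hasFDerivAt_apply₂ (hg.diff_chr x), ← hasFDerivAt_apply₂ (hg.diff_chr x)]
  rfl

omit [FiniteDimensional ℝ V] in
theorem hasDerivAt_apply₂ {W : Type} [NormedAddCommGroup W] [NormedSpace ℝ W]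
    {F : V → V →L[ℝ] V →L[ℝ] W} {c a b : ℝ → V} {s : ℝ} {v a' b' : V}
    (hF : DifferentiableAt ℝ F (c s)) (hc : HasDerivAt c v s) (ha : HasDerivAt a a' s)
    (hb : HasDerivAt b b' s) :
    HasDerivAt (fun s => F (c s) (a s) (b s))
      (fderiv ℝ F (c s) v (a s) (b s) + F (c s) a' (b s) + F (c s) (a s) b') s := by
  have h1 : HasDerivAt (fun s => F (c s)) (fderiv ℝ F (c s) v) s :=
    hF.hasFDerivAt.comp_hasDerivAt s hc
  exact (h1.clm_apply ha).clm_apply hb

/-- metric compatibility along a curve -/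
theorem IsMetric.hasDerivAt_g (hg : IsMetric g) {c a b : ℝ → V} {s : ℝ} {v a' b' : V}
    (hc : HasDerivAt c v s) (ha : HasDerivAt a a' s) (hb : HasDerivAt b b' s) :
    HasDerivAt (fun s => g (c s) (a s) (b s))
      (g (c s) (a' + chrL g (c s) v (a s)) (b s) + g (c s) (a s) (b' + chrL g (c s) v (b s))) s := by
  refine (hasDerivAt_apply₂ (hg.diff _) hc ha hb).congr_deriv ?_
  rw [hg.compat]
  simp only [map_add, ContinuousLinearMap.add_apply]
  ring

theorem IsMetric.Qlc_eq (hg : IsMetric g) (x v J w : V) :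
    Qlc g x v J w = g x J (w + chrL g x v J) := by
  rw [Qlc, hg.compat, map_add, hg.symm x (chrL g x v J)]
  ring

/-- derivative of `D J` along a solution of the system -/
theorem Sys.hasDerivAt_cov (hg : IsMetric g) {c v J w : ℝ → V} {s : ℝ} (h : Sys g c v J w s) :
    HasDerivAt (fun s => w s + chrL g (c s) (v s) (J s))
      (-curv g (c s) (J s) (v s) (v s)
        - chrL g (c s) (v s) (w s + chrL g (c s) (v s) (J s))) s := by
  obtain ⟨h1, h2, h3, h4⟩ := h
  refine (h4.add (hasDerivAt_apply₂ (hg.diff_chr _) h1 h2 h3)).congr_deriv ?_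
  rw [hg.curv_eq, hg.fderiv_chr_symm _ (v s) (J s) (v s), hg.chr_symm _ (J s) (v s),
    hg.chr_symm _ (J s), two_smul]
  simp only [map_add, map_neg, ContinuousLinearMap.neg_apply]
  abel

/-- the Riccati-type identity -/
theorem Sys.hasDerivAt_Q (hg : IsMetric g) {c v J w : ℝ → V} {s : ℝ} (h : Sys g c v J w s) :
    HasDerivAt (fun s => g (c s) (J s) (w s + chrL g (c s) (v s) (J s)))
      (g (c s) (w s + chrL g (c s) (v s) (J s)) (w s + chrL g (c s) (v s) (J s))
        - g (c s) (curv g (c s) (J s) (v s) (v s)) (J s)) s := by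
  refine (hg.hasDerivAt_g h.1 h.2.2.1 (h.hasDerivAt_cov hg)).congr_deriv ?_
  rw [sub_add_cancel, map_neg, hg.symm _ (J s) (curv _ _ _ _ _)]
  ring

/-- geodesics with Jacobi fields solve the system -/
theorem sys_of_jacobi (hg : IsMetric g) {c J : ℝ → V} (hc : IsGeodesic g c)
    (hJ : IsJacobi g c J) (s : ℝ) : Sys g c (deriv c) J (deriv J) s := by
  have d1 : ∀ {f : ℝ → V}, ContDiff ℝ 2 f → ∀ s, HasDerivAt f (deriv f s) s := fun hf s =>
    (hf.differentiable (by simp) s).hasDerivAt
  have d2 : ∀ {f : ℝ → V}, ContDiff ℝ 2 f → ∀ s, HasDerivAt (deriv f) (deriv (deriv f) s) s :=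
    fun hf s => ((hf.differentiable_deriv_two) s).hasDerivAt
  have e1 : deriv (deriv c) s = -chrL g (c s) (deriv c s) (deriv c s) :=
    eq_neg_of_add_eq_zero_left (hc.2 s)
  have h2 := d2 hc.1 s
  rw [e1] at h2
  refine ⟨d1 hc.1 s, h2, d1 hJ.1 s, ?_⟩
  have h3 := (d2 hJ.1 s).add (hasDerivAt_apply₂ (hg.diff_chr _) (d1 hc.1 s) h2 (d1 hJ.1 s))
  have h4 := hJ.2 s
  rw [cov, show cov g c J = fun s => deriv J s + chrL g (c s) (deriv c s) (J s) from rfl] at h4
  erw [h3.deriv] at h4
  refine (d2 hJ.1 s).congr_deriv ?_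
  rw [← sub_eq_zero, ← h4, hg.curv_eq, ← chrL_apply,
    hg.fderiv_chr_symm _ (deriv c s) (J s) (deriv c s), hg.chr_symm _ (J s) (deriv c s),
    hg.chr_symm _ (J s), two_smul]
  simp only [map_add, map_neg, ContinuousLinearMap.neg_apply]
  abel

/-- Euler-Lagrange form of the system -/
theorem Sys.euler (hg : IsMetric g) {c v J w : ℝ → V} {s : ℝ} (h : Sys g c v J w s) (u : V) :
    HasDerivAt (fun s => g (c s) (v s) u) (1 / 2 * fderiv ℝ g (c s) u (v s) (v s)) s ∧
    HasDerivAt (fun s => g (c s) (w s) u + fderiv ℝ g (c s) (J s) (v s) u)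
      (fderiv ℝ g (c s) u (v s) (w s)
        + 1 / 2 * fderiv ℝ (fderiv ℝ g) (c s) (J s) u (v s) (v s)) s := by
  obtain ⟨h1, h2, h3, h4⟩ := h
  have hd := hg.smooth_fderiv.differentiable (by simp)
  constructor
  · refine (hasDerivAt_apply₂ (hg.diff _) h1 h2 (hasDerivAt_const s u)).congr_deriv ?_
    rw [map_neg, ContinuousLinearMap.neg_apply, hg.chr_spec, map_zero]
    ring
  · have a1 := hasDerivAt_apply₂ (hg.diff _) h1 h4 (hasDerivAt_const s u)
    have a2 := (hasDerivAt_apply₂ (hd _) h1 h3 h2).clm_apply (hasDerivAt_const s u)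
    have b1 : HasFDerivAt (fun x => g x (chrL g x (v s) (v s)) u) _ (c s) :=
      ((hg.diff (c s)).hasFDerivAt.clm_apply (((hg.diff_chr (c s)).hasFDerivAt.clm_apply
        (hasFDerivAt_const (v s) _)).clm_apply (hasFDerivAt_const (v s) _))).clm_apply
        (hasFDerivAt_const u _)
    have b0 : ∀ a b e : V, HasFDerivAt (fun x => fderiv ℝ g x a b e) _ (c s) := fun a b e =>
      (((hd (c s)).hasFDerivAt.clm_apply (hasFDerivAt_const a _)).clm_apply
        (hasFDerivAt_const b _)).clm_apply (hasFDerivAt_const e _)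
    have b2 := (((b0 (v s) (v s) u).add (b0 (v s) (v s) u)).sub (b0 u (v s) (v s))).const_mul
      (1 / 2 : ℝ)
    have b3 := congrArg (fun L => L (J s)) (b1.unique (b2.congr_of_eventuallyEq
      (Eventually.of_forall fun x => hg.chr_spec x _ _ _)))
    have b4 := congrArg (fun L => L (v s) u) (hg.smooth.contDiffAt.isSymmSndFDerivAt
      (x := c s) two_le_inf (v s) (J s))
    refine (a1.add a2).congr_deriv ?_
    have b5 := hg.chr_spec (c s) (v s) (w s) u
    simp only [ContinuousLinearMap.add_apply, ContinuousLinearMap.comp_apply,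
      ContinuousLinearMap.flip_apply, map_zero, zero_add,
      ContinuousLinearMap.smul_apply, ContinuousLinearMap.sub_apply, smul_eq_mul, map_sub,
      map_neg, map_smul, ContinuousLinearMap.neg_apply, add_zero,
      ContinuousLinearMap.comp_zero] at b3 b4 ⊢
    linarith

/-- uniqueness for the linearised equation -/
theorem sys_unique (hg : IsMetric g) {c v J w : ℝ → V} (h : ∀ s, Sys g c v J w s) {a : ℝ}
    (hJ : J a = 0) (hw : w a = 0) : J = 0 := by
  have hc : Continuous c := continuous_iff_continuousAt.2 fun s => (h s).1.continuousAt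
  have hv : Continuous v := continuous_iff_continuousAt.2 fun s => (h s).2.1.continuousAt
  let L : ℝ → (V × V) →L[ℝ] V × V := fun s => (ContinuousLinearMap.snd ℝ V V).prod
    (-((2 : ℝ) • (chrL g (c s) (v s)).comp (ContinuousLinearMap.snd ℝ V V))
      - (((fderiv ℝ (chrL g) (c s)).flip (v s)).flip (v s)).comp (ContinuousLinearMap.fst ℝ V V))
  have h1 : Continuous fun s => chrL g (c s) := hg.smooth_chr.continuous.comp hc
  have h2 : Continuous fun s => fderiv ℝ (chrL g) (c s) :=
    (hg.smooth_chr.continuous_fderiv (by simp)).comp hc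
  have hL : Continuous L := by
    refine continuous_clm_apply.2 fun y => ?_
    simp only [L, ContinuousLinearMap.prod_apply, ContinuousLinearMap.sub_apply,
      ContinuousLinearMap.neg_apply, ContinuousLinearMap.smul_apply,
      ContinuousLinearMap.comp_apply, ContinuousLinearMap.flip_apply]
    exact continuous_const.prodMk ((((h1.clm_apply hv).clm_apply continuous_const).const_smul
      _).neg.sub (((h2.clm_apply continuous_const).clm_apply hv).clm_apply hv))
  funext s
  obtain ⟨C, hC⟩ := (isCompact_Icc (a := a - |s - a| - 1) (b := a + |s - a| + 1)).exists_bound_of_continuousOn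
    hL.continuousOn
  have := ODE_solution_unique_of_mem_Ioo (v := fun s y => L s y) (s := fun _ => univ)
    (K := C.toNNReal) (f := fun s => (J s, w s)) (g := fun _ => 0) (a := a - |s - a| - 1)
    (b := a + |s - a| + 1) (t₀ := a)
    (fun t ht => ((L t).lipschitz.weaken (by
      rw [← NNReal.coe_le_coe]
      exact (hC t (Ioo_subset_Icc_self ht)).trans (Real.le_coe_toNNReal C))).lipschitzOnWith)
    ⟨by linarith [abs_nonneg (s - a)], by linarith [abs_nonneg (s - a)]⟩
    (fun t _ => ⟨(h t).2.2.1.prodMk (h t).2.2.2, trivial⟩)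
    (fun t _ => ⟨by simpa using hasDerivAt_const t (0 : V × V), trivial⟩) (by simp [hJ, hw])
    (show s ∈ _ from ⟨by linarith [neg_abs_le (s - a)], by linarith [le_abs_self (s - a)]⟩)
  exact congrArg Prod.fst this

end Vale.Agent.P255
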