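import Vale.Agent.P255.Mod

set_option maxSynthPendingDepth 3
set_option linter.deprecated false

namespace Vale.Agent.P255

open scoped ContDiff Topology
open Set Filter

variable {V : Type} [NormedAddCommGroup V] [NormedSpace ℝ V] [FiniteDimensional ℝ V]
  {g : V → V →L[ℝ] V →L[ℝ] ℝ}

omit [FiniteDimensional ℝ V] in
theorem nat_s1 {φ : V → V} (hφ : ContDiff ℝ ∞ φ) : ContDiff ℝ ∞ (fderiv ℝ φ) :=
  hφ.fderiv_right (m := ∞) (by simp)

omit [FiniteDimensional ℝ V] in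
theorem nat_s2 {φ : V → V} (hφ : ContDiff ℝ ∞ φ) : ContDiff ℝ ∞ (fderiv ℝ (fderiv ℝ φ)) :=
  (nat_s1 hφ).fderiv_right (m := ∞) (by simp)

omit [FiniteDimensional ℝ V] in
theorem nat_H {φ : V → V} (hφ : ContDiff ℝ ∞ φ) (x a b : V) :
    fderiv ℝ (fderiv ℝ φ) x a b = fderiv ℝ (fderiv ℝ φ) x b a :=
  hφ.contDiffAt.isSymmSndFDerivAt (x := x) two_le_inf a b

omit [FiniteDimensional ℝ V] in
theorem nat_T {φ : V → V} (hφ : ContDiff ℝ ∞ φ) (x v J : V) :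
    fderiv ℝ (fderiv ℝ (fderiv ℝ φ)) x v v J = fderiv ℝ (fderiv ℝ (fderiv ℝ φ)) x J v v := by
  have hd := (nat_s2 hφ).differentiable (by simp) x
  have h1 : fderiv ℝ (fderiv ℝ (fderiv ℝ φ)) x v v J
      = fderiv ℝ (fderiv ℝ (fderiv ℝ φ)) x v J v := by
    rw [← hasFDerivAt_apply₂ hd, ← hasFDerivAt_apply₂ hd]
    simp only [nat_H hφ _ v J]
  rw [h1]
  exact congrArg (fun L => L v)
    ((nat_s1 hφ).contDiffAt.isSymmSndFDerivAt (x := x) two_le_inf v J)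

omit [FiniteDimensional ℝ V] in
theorem nat_d {g' : V → V →L[ℝ] V →L[ℝ] ℝ} (hg : IsMetric g) (hg' : IsMetric g') {φ : V → V}
    (hφ : ContDiff ℝ ∞ φ) {y : V} (hiso : ∀ᶠ x in 𝓝 y, IsoAt g g' φ x) (u a b : V) :
    fderiv ℝ g y u a b = fderiv ℝ g' (φ y) (fderiv ℝ φ y u) (fderiv ℝ φ y a) (fderiv ℝ φ y b)
      + g' (φ y) (fderiv ℝ (fderiv ℝ φ) y u a) (fderiv ℝ φ y b)
      + g' (φ y) (fderiv ℝ φ y a) (fderiv ℝ (fderiv ℝ φ) y u b) := by
  have hl : HasDerivAt (fun s : ℝ => y + s • u) u 0 := by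
    simpa using ((hasDerivAt_id (0 : ℝ)).smul_const u).const_add y
  have h0 : y + (0 : ℝ) • u = y := by simp
  have hφd := hφ.differentiable (by simp)
  have hLd := (nat_s1 hφ).differentiable (by simp)
  have c1 : HasDerivAt (fun s : ℝ => φ (y + s • u)) (fderiv ℝ φ (y + (0 : ℝ) • u) u) 0 :=
    (hφd _).hasFDerivAt.comp_hasDerivAt (0 : ℝ) hl
  have c2 : HasDerivAt (fun s : ℝ => fderiv ℝ φ (y + s • u))
      (fderiv ℝ (fderiv ℝ φ) (y + (0 : ℝ) • u) u) 0 :=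
    (hLd _).hasFDerivAt.comp_hasDerivAt (0 : ℝ) hl
  have c3 := hasDerivAt_apply₂ (hg'.diff _) c1 (c2.clm_apply (hasDerivAt_const _ a))
    (c2.clm_apply (hasDerivAt_const _ b))
  have c4 := hasDerivAt_apply₂ (hg.diff _) hl (hasDerivAt_const (0 : ℝ) a)
    (hasDerivAt_const (0 : ℝ) b)
  have ht : Tendsto (fun s : ℝ => y + s • u) (𝓝 0) (𝓝 y) := by
    have := hl.continuousAt.tendsto
    rwa [h0] at this
  have c5 := c4.unique (c3.congr_of_eventuallyEq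
    ((ht.eventually hiso).mono fun s hs => (hs a b).symm))
  simpa only [h0, map_zero, add_zero, ContinuousLinearMap.zero_apply] using c5

theorem nat_law {g' : V → V →L[ℝ] V →L[ℝ] ℝ} (hg : IsMetric g) (hg' : IsMetric g') {φ : V → V}
    (hφ : ContDiff ℝ ∞ φ) {y : V} (hiso : ∀ᶠ x in 𝓝 y, IsoAt g g' φ x) (a b : V) :
    fderiv ℝ φ y (chrL g y a b) = fderiv ℝ (fderiv ℝ φ) y a b
      + chrL g' (φ y) (fderiv ℝ φ y a) (fderiv ℝ φ y b) := by
  have h0 : IsoAt g g' φ y := hiso.self_of_nhds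
  have hinj : Function.Injective (fderiv ℝ φ y).toLinearMap := by
    refine (injective_iff_map_eq_zero _).2 fun v hv => ?_
    by_contra hne
    have h1 := hg.pos y v hne
    have h2 : fderiv ℝ φ y v = 0 := hv
    rw [← h0 v v, h2] at h1
    simp at h1
  have hsurj := LinearMap.injective_iff_surjective.1 hinj
  refine hg'.eq_of (φ y) fun u' => ?_
  obtain ⟨u, hu⟩ := hsurj u'
  have hu' : fderiv ℝ φ y u = u' := hu
  rw [← hu', h0, hg.chr_spec, map_add, ContinuousLinearMap.add_apply, hg'.chr_spec,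
    nat_d hg hg' hφ hiso a b u, nat_d hg hg' hφ hiso b a u, nat_d hg hg' hφ hiso u a b,
    nat_H hφ y b a, nat_H hφ y u a, nat_H hφ y u b,
    hg'.symm _ (fderiv ℝ φ y b) (fderiv ℝ (fderiv ℝ φ) y a u)]
  ring

theorem nat_law' {g' : V → V →L[ℝ] V →L[ℝ] ℝ} (hg : IsMetric g) (hg' : IsMetric g') {φ : V → V}
    (hφ : ContDiff ℝ ∞ φ) {y : V} (hiso : ∀ᶠ x in 𝓝 y, IsoAt g g' φ x) (u a : V) :
    fderiv ℝ (fderiv ℝ φ) y u (chrL g y a a) + fderiv ℝ φ y (fderiv ℝ (chrL g) y u a a)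
      = fderiv ℝ (fderiv ℝ (fderiv ℝ φ)) y u a a
        + (fderiv ℝ (chrL g') (φ y) (fderiv ℝ φ y u) (fderiv ℝ φ y a) (fderiv ℝ φ y a)
        + chrL g' (φ y) (fderiv ℝ (fderiv ℝ φ) y u a) (fderiv ℝ φ y a)
        + chrL g' (φ y) (fderiv ℝ φ y a) (fderiv ℝ (fderiv ℝ φ) y u a)) := by
  have hl : HasDerivAt (fun s : ℝ => y + s • u) u 0 := by
    simpa using ((hasDerivAt_id (0 : ℝ)).smul_const u).const_add y
  have h0 : y + (0 : ℝ) • u = y := by simp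
  have hφd := hφ.differentiable (by simp)
  have hLd := (nat_s1 hφ).differentiable (by simp)
  have hHd := (nat_s2 hφ).differentiable (by simp)
  have c1 : HasDerivAt (fun s : ℝ => φ (y + s • u)) (fderiv ℝ φ (y + (0 : ℝ) • u) u) 0 :=
    (hφd _).hasFDerivAt.comp_hasDerivAt (0 : ℝ) hl
  have c2 : HasDerivAt (fun s : ℝ => fderiv ℝ φ (y + s • u))
      (fderiv ℝ (fderiv ℝ φ) (y + (0 : ℝ) • u) u) 0 :=
    (hLd _).hasFDerivAt.comp_hasDerivAt (0 : ℝ) hl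
  have c3 := (hasDerivAt_apply₂ (hHd _) hl (hasDerivAt_const (0 : ℝ) a)
    (hasDerivAt_const (0 : ℝ) a)).add (hasDerivAt_apply₂ (hg'.diff_chr _) c1
    (c2.clm_apply (hasDerivAt_const _ a)) (c2.clm_apply (hasDerivAt_const _ a)))
  have c4 := c2.clm_apply (hasDerivAt_apply₂ (hg.diff_chr _) hl (hasDerivAt_const (0 : ℝ) a)
    (hasDerivAt_const (0 : ℝ) a))
  have ht : Tendsto (fun s : ℝ => y + s • u) (𝓝 0) (𝓝 y) := by
    have := hl.continuousAt.tendsto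
    rwa [h0] at this
  have c5 := c4.unique (c3.congr_of_eventuallyEq
    ((ht.eventually hiso.eventually_nhds).mono fun s hs => nat_law hg hg' hφ hs a a))
  simpa only [h0, map_zero, add_zero, ContinuousLinearMap.zero_apply] using c5

theorem Sys.map {g' : V → V →L[ℝ] V →L[ℝ] ℝ} (hg : IsMetric g) (hg' : IsMetric g') {φ : V → V}
    (hφ : ContDiff ℝ ∞ φ) {c v J w : ℝ → V} {s : ℝ} (hiso : ∀ᶠ x in 𝓝 (c s), IsoAt g g' φ x)
    (h : Sys g c v J w s) :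
    Sys g' (fun s => φ (c s)) (fun s => fderiv ℝ φ (c s) (v s)) (fun s => fderiv ℝ φ (c s) (J s))
      (fun s => fderiv ℝ (fderiv ℝ φ) (c s) (v s) (J s) + fderiv ℝ φ (c s) (w s)) s := by
  obtain ⟨h1, h2, h3, h4⟩ := h
  have hφd := hφ.differentiable (by simp)
  have hLd := (nat_s1 hφ).differentiable (by simp)
  have hHd := (nat_s2 hφ).differentiable (by simp)
  have c2 : HasDerivAt (fun s : ℝ => fderiv ℝ φ (c s))
      (fderiv ℝ (fderiv ℝ φ) (c s) (v s)) s := (hLd _).hasFDerivAt.comp_hasDerivAt s h1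
  refine ⟨(hφd _).hasFDerivAt.comp_hasDerivAt s h1, (c2.clm_apply h2).congr_deriv ?_,
    c2.clm_apply h3, ((hasDerivAt_apply₂ (hHd _) h1 h2 h3).add (c2.clm_apply h4)).congr_deriv ?_⟩
  · rw [map_neg, nat_law hg hg' hφ hiso]
    abel
  · have e1 := nat_law' hg hg' hφ hiso (J s) (v s)
    have e2 := nat_law hg hg' hφ hiso (v s) (w s)
    rw [nat_H hφ _ (J s) (v s), hg'.chr_symm _ (fderiv ℝ (fderiv ℝ φ) (c s) (v s) (J s)),
      nat_H hφ _ (J s), ← nat_T hφ] at e1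
    simp only [map_neg, map_sub, map_add, two_smul, ContinuousLinearMap.neg_apply]
    rw [e2, eq_sub_of_add_eq' e1]
    abel

theorem Qlc_map {g' : V → V →L[ℝ] V →L[ℝ] ℝ} (hg : IsMetric g) (hg' : IsMetric g') {φ : V → V}
    (hφ : ContDiff ℝ ∞ φ) {x : V} (hiso : ∀ᶠ y in 𝓝 x, IsoAt g g' φ y) (v J w : V) :
    Qlc g' (φ x) (fderiv ℝ φ x v) (fderiv ℝ φ x J)
      (fderiv ℝ (fderiv ℝ φ) x v J + fderiv ℝ φ x w) = Qlc g x v J w := by
  rw [hg'.Qlc_eq, hg.Qlc_eq, ← hiso.self_of_nhds J, map_add (fderiv ℝ φ x),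
    nat_law hg hg' hφ hiso]
  congr 1
  abel

end Vale.Agent.P255
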