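import Mathlib

set_option maxSynthPendingDepth 3
set_option linter.deprecated false

namespace Vale.Agent.P255

open scoped ContDiff Topology
open Set Filter

/-- a metric with CN-midpoints and a group of semisimple isometries -/
structure CatD {X : Type} (Γ : Subgroup (Equiv.Perm X)) (d : X → X → ℝ) : Prop where
  refl : ∀ x, d x x = 0
  symm : ∀ x y, d x y = d y x
  tri : ∀ x y z, d x z ≤ d x y + d y z
  sep : ∀ x y, d x y = 0 → x = y
  cn : ∀ x y, ∃ p, ∀ z, d z p ^ 2 ≤ (d z x ^ 2 + d z y ^ 2) / 2 - d x y ^ 2 / 4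
  iso : ∀ γ ∈ Γ, ∀ x y, d (γ x) (γ y) = d x y
  min : ∀ γ ∈ Γ, ∃ x, ∀ y, d x (γ x) ≤ d y (γ y)

/-- the same data for an abstract group acting freely -/
structure AlgD (G : Type) {X : Type} [Group G] [MulAction G X] (d : X → X → ℝ) : Prop where
  refl : ∀ x, d x x = 0
  symm : ∀ x y, d x y = d y x
  tri : ∀ x y z, d x z ≤ d x y + d y z
  cn : ∀ x y, ∃ p, ∀ z, d z p ^ 2 ≤ (d z x ^ 2 + d z y ^ 2) / 2 - d x y ^ 2 / 4
  iso : ∀ (γ : G) x y, d (γ • x) (γ • y) = d x y
  min : ∀ γ : G, ∃ x, ∀ y, d x (γ • x) ≤ d y (γ • y)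
  free : ∀ (γ : G) x, d x (γ • x) = 0 → γ = 1

namespace AlgD

variable {G X : Type} [Group G] [MulAction G X] {d : X → X → ℝ} (h : AlgD G d)
include h

theorem nonneg (x y : X) : 0 ≤ d x y := by
  have := h.tri x y x
  rw [h.refl, h.symm y x] at this
  linarith

theorem quad (p q r s : X) :
    d p r ^ 2 + d q s ^ 2 ≤ d p q ^ 2 + d q r ^ 2 + d r s ^ 2 + d s p ^ 2 := by
  obtain ⟨m, hm⟩ := h.cn p r
  have h1 := hm q
  have h2 := hm s
  have h3 := h.tri q m s
  rw [h.symm m s] at h3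
  have h4 := pow_le_pow_left₀ (h.nonneg q s) h3 2
  rw [h.symm q p] at h1
  rw [h.symm s r] at h2
  nlinarith [sq_nonneg (d q m - d s m)]

/-- a point of least displacement -/
noncomputable def pt (g : G) : X := (h.min g).choose

/-- the least displacement -/
noncomputable def len (g : G) : ℝ := d (h.pt g) (g • h.pt g)

theorem len_le (g : G) (y : X) : h.len g ≤ d y (g • y) := (h.min g).choose_spec y

theorem len_nonneg (g : G) : 0 ≤ h.len g := h.nonneg _ _

theorem d_inv (g : G) (x : X) : d x (g⁻¹ • x) = d x (g • x) := by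
  rw [← h.iso g, smul_inv_smul, h.symm]

theorem len_inv (g : G) : h.len g⁻¹ = h.len g := by
  refine le_antisymm ((h.len_le _ (h.pt g)).trans_eq (h.d_inv _ _)) ?_
  exact (h.len_le g (h.pt g⁻¹)).trans_eq (h.d_inv _ _).symm

theorem d_mul (g k : G) (x : X) : d x ((g * k) • x) ≤ d x (g • x) + d x (k • x) := by
  rw [mul_smul, ← h.iso g x (k • x)]
  exact h.tri _ _ _

theorem len_sq (g : G) : h.len (g * g) = 2 * h.len g := by
  refine le_antisymm ((h.len_le _ (h.pt g)).trans ((h.d_mul _ _ _).trans_eq (two_mul _).symm)) ?_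
  set x := h.pt (g * g)
  obtain ⟨m, hm⟩ := h.cn x (g • x)
  have h1 := hm (g⁻¹ • m)
  have h2 := hm (g • x)
  have h3 := hm (g • g • x)
  rw [← h.iso g _ m, ← h.iso g _ x, ← h.iso g (g⁻¹ • m) (g • x), smul_inv_smul,
    h.symm m (g • x), h.symm m (g • g • x)] at h1
  rw [h.refl, h.symm (g • x) x] at h2
  rw [h.iso g (g • x) x, h.symm (g • x) x, h.symm _ x, ← mul_smul] at h3
  rw [← mul_smul] at h1
  have h4 : (2 * d m (g • m)) ^ 2 ≤ h.len (g * g) ^ 2 := by
    unfold len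
    nlinarith
  have h5 := abs_le_of_sq_le_sq' h4 (h.len_nonneg _)
  linarith [h5.2, h.len_le g m]

theorem d_pow_le (g : G) (x : X) (n : ℕ) : d x (g ^ n • x) ≤ n * d x (g • x) := by
  induction n with
  | zero => simp [h.refl]
  | succ n ih =>
    rw [pow_succ]
    push_cast
    linarith [h.d_mul (g ^ n) g x]

theorem len_two_pow (g : G) (j : ℕ) : h.len (g ^ 2 ^ j) = 2 ^ j * h.len g := by
  induction j with
  | zero => simp
  | succ j ih => rw [pow_succ 2 j, pow_mul, pow_two, h.len_sq, ih]; ring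

theorem d_pt (g : G) (n : ℕ) : d (h.pt g) (g ^ n • h.pt g) = n * h.len g := by
  refine le_antisymm (h.d_pow_le _ _ _) ?_
  obtain ⟨k, hk⟩ := Nat.exists_eq_add_of_le (Nat.lt_two_pow_self (n := n)).le
  have h1 := h.len_le (g ^ 2 ^ n) (h.pt g)
  have h2 := h.d_mul (g ^ n) (g ^ k) (h.pt g)
  have h3 := h.d_pow_le g (h.pt g) k
  have h4 : (2 : ℝ) ^ n = n + k := by exact_mod_cast hk
  rw [h.len_two_pow, h4, hk, pow_add] at h1
  unfold len at h1 ⊢
  linarith

theorem tend (g : G) (x : X) :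
    Tendsto (fun n : ℕ => d x (g ^ n • x) / n) atTop (𝓝 (h.len g)) := by
  have h0 : Tendsto (fun n : ℕ => 2 * d x (h.pt g) / n) atTop (𝓝 0) :=
    tendsto_const_div_atTop_nhds_zero_nat _
  have h1 := (tendsto_const_nhds (x := h.len g)).sub h0
  have h2 := (tendsto_const_nhds (x := h.len g)).add h0
  rw [sub_zero] at h1
  rw [add_zero] at h2
  refine tendsto_of_tendsto_of_tendsto_of_le_of_le' h1 h2 ?_ ?_
  · filter_upwards [eventually_gt_atTop 0] with n hn
    have hn' : (0 : ℝ) < n := by exact_mod_cast hn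
    rw [sub_le_iff_le_add, ← add_div, le_div_iff₀ hn', mul_comm, ← h.d_pt]
    have a1 := h.tri (h.pt g) x (g ^ n • h.pt g)
    have a2 := h.tri x (g ^ n • x) (g ^ n • h.pt g)
    rw [h.iso] at a2
    rw [h.symm _ x] at a1
    linarith
  · filter_upwards [eventually_gt_atTop 0] with n hn
    have hn' : (0 : ℝ) < n := by exact_mod_cast hn
    rw [← sub_le_iff_le_add, ← sub_div, div_le_iff₀ hn', mul_comm (h.len g), ← h.d_pt]
    have a1 := h.tri x (h.pt g) (g ^ n • x)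
    have a2 := h.tri (h.pt g) (g ^ n • h.pt g) (g ^ n • x)
    rw [h.iso, h.symm _ x] at a2
    linarith

theorem par_le {g k : G} (c : Commute g k) :
    h.len (g * k) ^ 2 + h.len (g * k⁻¹) ^ 2 ≤ 2 * h.len g ^ 2 + 2 * h.len k ^ 2 := by
  let x := h.pt g
  refine le_of_tendsto_of_tendsto' (((h.tend (g * k) x).pow 2).add ((h.tend (g * k⁻¹) x).pow 2))
    ((((h.tend g x).pow 2).const_mul 2).add (((h.tend k x).pow 2).const_mul 2)) fun n => ?_
  have h1 := h.quad x (g ^ n • x) ((g ^ n * k ^ n) • x) (k ^ n • x)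
  have e1 : d (g ^ n • x) (k ^ n • x) = d x ((g * k⁻¹) ^ n • x) := by
    rw [← h.iso (k ^ n) x, ← mul_smul, c.inv_right.mul_pow, ← mul_assoc,
      ← (c.pow_pow n n).eq, inv_pow, mul_inv_cancel_right, h.symm]
  have e2 : d (g ^ n • x) ((g ^ n * k ^ n) • x) = d x (k ^ n • x) := by rw [mul_smul, h.iso]
  have e3 : d ((g ^ n * k ^ n) • x) (k ^ n • x) = d x (g ^ n • x) := by
    rw [(c.pow_pow n n).eq, mul_smul, h.iso, h.symm]
  rw [e1, e2, e3, ← c.mul_pow, h.symm (k ^ n • x)] at h1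
  simp only [div_pow]
  rw [← add_div, mul_div_assoc', mul_div_assoc', ← add_div]
  exact div_le_div_of_nonneg_right (by linarith) (by positivity)

theorem par {g k : G} (c : Commute g k) :
    h.len (g * k) ^ 2 + h.len (g * k⁻¹) ^ 2 = 2 * h.len g ^ 2 + 2 * h.len k ^ 2 := by
  refine le_antisymm (h.par_le c) ?_
  have c' : Commute (g * k) (g * k⁻¹) :=
    ((Commute.refl g).mul_right c.inv_right).mul_left (c.symm.mul_right (Commute.refl k).inv_right)
  have h1 := h.par_le c'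
  have e1 : g * k * (g * k⁻¹) = g * g := by
    rw [← mul_assoc, mul_assoc g k g, ← c.eq, ← mul_assoc, mul_inv_cancel_right]
  have e2 : g * k * (g * k⁻¹)⁻¹ = k * k := by
    rw [mul_inv_rev, inv_inv, c.eq, mul_assoc k g, ← mul_assoc g, c.eq, mul_inv_cancel_right]
  rw [e1, e2, h.len_sq, h.len_sq] at h1
  linarith

theorem len_pow_mul {f γ : G} (c : Commute f γ) (n : ℕ) :
    h.len (f ^ n * γ) ^ 2 = n ^ 2 * h.len f ^ 2 +
      n * (h.len (f * γ) ^ 2 - h.len f ^ 2 - h.len γ ^ 2) + h.len γ ^ 2 := by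
  induction n using Nat.twoStepInduction with
  | zero => simp
  | one => simp only [pow_one, Nat.cast_one]; ring
  | more n h0 h1 =>
    have c' : Commute (f ^ (n + 1) * γ) f := ((Commute.refl f).pow_left _).mul_left c.symm
    have h2 := h.par c'
    have e1 : f ^ (n + 1) * γ * f = f ^ (n + 2) * γ := by
      rw [mul_assoc, ← c.eq, ← mul_assoc, ← pow_succ]
    have e2 : f ^ (n + 1) * γ * f⁻¹ = f ^ n * γ := by
      rw [mul_assoc, ← c.inv_left.eq, ← mul_assoc, pow_succ, mul_inv_cancel_right]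
    rw [e1, e2, h0, h1] at h2
    push_cast at h2 ⊢
    linarith

/-- the Busemann-type sequence -/
noncomputable def bus (f γ : G) (n : ℕ) : ℝ := d (h.pt f) ((f ^ n * γ) • h.pt f) - n * h.len f

theorem bus_anti (f γ : G) : Antitone (h.bus f γ) := by
  refine antitone_nat_of_succ_le fun n => ?_
  have := h.d_mul f (f ^ n * γ) (h.pt f)
  rw [← mul_assoc, ← pow_succ'] at this
  unfold bus len
  push_cast
  linarith

theorem bus_bdd (f γ : G) : BddBelow (range (h.bus f γ)) := by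
  refine ⟨-d (h.pt f) (γ • h.pt f), ?_⟩
  rintro _ ⟨n, rfl⟩
  have := h.d_mul (f ^ n * γ) γ⁻¹ (h.pt f)
  rw [mul_inv_cancel_right, h.d_pt, h.d_inv] at this
  unfold bus
  linarith

/-- its limit -/
noncomputable def drift (f γ : G) : ℝ := ⨅ n, h.bus f γ n

theorem drift_tend (f γ : G) : Tendsto (h.bus f γ) atTop (𝓝 (h.drift f γ)) :=
  tendsto_atTop_ciInf (h.bus_anti f γ) (h.bus_bdd f γ)

theorem drift_le (f γ : G) (n : ℕ) : h.drift f γ ≤ h.bus f γ n := ciInf_le (h.bus_bdd f γ) n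

theorem drift_mul_le {f γ : G} (c : Commute f γ) (γ' : G) :
    h.drift f (γ * γ') ≤ h.drift f γ + h.drift f γ' := by
  refine ge_of_tendsto' ((h.drift_tend f γ).add (h.drift_tend f γ')) fun n => ?_
  refine (h.drift_le f _ (n + n)).trans ?_
  have := h.d_mul (f ^ n * γ) (f ^ n * γ') (h.pt f)
  have e : f ^ n * γ * (f ^ n * γ') = f ^ (n + n) * (γ * γ') := by
    rw [pow_add, mul_assoc, mul_assoc, ← mul_assoc γ, ← (c.pow_left n).eq, mul_assoc]
  rw [e] at this
  unfold bus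
  push_cast
  linarith

theorem drift_one (f : G) : h.drift f 1 = 0 := by
  simp [drift, bus, h.d_pt]

theorem drift_self (f : G) : h.drift f f = h.len f := by
  have : ∀ n, h.bus f f n = h.len f := fun n => by
    rw [bus, ← pow_succ, h.d_pt]
    push_cast
    ring
  simp [drift, this]

theorem len_pos {f : G} (hf : f ≠ 1) : 0 < h.len f :=
  lt_of_le_of_ne (h.len_nonneg f) fun e => hf (h.free f _ e.symm)

theorem drift_inv {f γ : G} (hf : f ≠ 1) (c : Commute f γ) : h.drift f γ⁻¹ = -h.drift f γ := by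
  have h0 := h.drift_mul_le c γ⁻¹
  rw [mul_inv_cancel, h.drift_one] at h0
  have hl := h.len_pos hf
  have h1 : h.drift f γ + h.drift f γ⁻¹ ≤ 0 := by
    refine le_of_tendsto_of_tendsto ((h.drift_tend f γ).add (h.drift_tend f γ⁻¹))
      (tendsto_const_div_atTop_nhds_zero_nat (d (h.pt f) (γ • h.pt f) ^ 2 / h.len f)) ?_
    filter_upwards [eventually_gt_atTop 0] with n hn
    have hn' : (0 : ℝ) < n := by exact_mod_cast hn
    set x := h.pt f with hx
    have q := h.quad x (γ • x) ((f ^ n * γ) • x) (f ^ n • x)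
    have e1 : d (γ • x) (f ^ n • x) = d x ((f ^ n * γ⁻¹) • x) := by
      rw [← h.iso γ x, ← mul_smul, ← mul_assoc, ← (c.pow_left n).eq, mul_inv_cancel_right]
    have e2 : d (γ • x) ((f ^ n * γ) • x) = n * h.len f := by
      rw [(c.pow_left n).eq, mul_smul, h.iso, h.d_pt]
    have e3 : d ((f ^ n * γ) • x) (f ^ n • x) = d x (γ • x) := by rw [mul_smul, h.iso, h.symm]
    rw [e1, e2, e3, h.symm (f ^ n • x), h.d_pt] at q
    unfold bus
    rw [← hx, div_div, le_div_iff₀ (by positivity)]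
    have hp : 0 < h.len f * n := by positivity
    nlinarith [sq_nonneg (d x ((f ^ n * γ) • x) - n * h.len f),
      sq_nonneg (d x ((f ^ n * γ⁻¹) • x) - n * h.len f), sq_nonneg (d x (γ • x))]
  linarith

theorem drift_mul {f γ γ' : G} (hf : f ≠ 1) (c : Commute f γ) (c' : Commute f γ') :
    h.drift f (γ * γ') = h.drift f γ + h.drift f γ' := by
  refine le_antisymm (h.drift_mul_le c γ') ?_
  have := h.drift_mul_le c'.inv_right γ⁻¹
  rw [← mul_inv_rev, h.drift_inv hf (c.mul_right c'), h.drift_inv hf c, h.drift_inv hf c'] at this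
  linarith

theorem drift_pow {f γ : G} (hf : f ≠ 1) (c : Commute f γ) (n : ℕ) :
    h.drift f (γ ^ n) = n * h.drift f γ := by
  induction n with
  | zero => simp [h.drift_one]
  | succ n ih =>
    rw [pow_succ, h.drift_mul hf (c.pow_right n) c, ih]
    push_cast
    ring

theorem beta_le {f γ : G} (c : Commute f γ) (h0 : h.drift f γ = 0) :
    h.len (f * γ) ^ 2 - h.len f ^ 2 - h.len γ ^ 2 ≤ 0 := by
  have t1 := h.drift_tend f γ
  rw [h0] at t1
  have t2 := (t1.const_mul (2 * h.len f)).add (t1.pow 2)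
  rw [mul_zero, zero_add, zero_pow two_ne_zero] at t2
  refine ge_of_tendsto t2 ?_
  filter_upwards [eventually_ge_atTop 1] with n hn
  have hn' : (1 : ℝ) ≤ n := by exact_mod_cast hn
  have a1 := pow_le_pow_left₀ (h.len_nonneg _) (h.len_le (f ^ n * γ) (h.pt f)) 2
  have a2 : d (h.pt f) ((f ^ n * γ) • h.pt f) = h.bus f γ n + n * h.len f := by
    unfold bus
    ring
  rw [h.len_pow_mul c, a2] at a1
  refine le_of_mul_le_mul_left ?_ (lt_of_lt_of_le one_pos hn')
  nlinarith [sq_nonneg (h.len γ), mul_le_mul_of_nonneg_right hn' (sq_nonneg (h.bus f γ n))]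

theorem orth {x y : G} (e : x ^ 2 = y ^ 3) (hf : x ^ 2 ≠ 1) :
    h.len (x ^ 2 * (x ^ 2 * (y * x⁻¹) ^ 6)⁻¹) ^ 2 =
      h.len (x ^ 2) ^ 2 + h.len (x ^ 2 * (y * x⁻¹) ^ 6) ^ 2 := by
  have cx : Commute (x ^ 2) x := (Commute.refl x).pow_left 2
  have cy : Commute (x ^ 2) y := e ▸ (Commute.refl y).pow_left 3
  have cm := cy.mul_right cx.inv_right
  have cl := (Commute.refl (x ^ 2)).mul_right (cm.pow_right 6)
  have d1 := h.drift_pow hf cx 2
  have d2 := h.drift_pow hf cy 3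
  rw [← e] at d2
  rw [h.drift_self] at d1 d2
  have d3 : h.drift (x ^ 2) (x ^ 2 * (y * x⁻¹) ^ 6) = 0 := by
    rw [h.drift_mul hf (Commute.refl _) (cm.pow_right 6), h.drift_pow hf cm,
      h.drift_mul hf cy cx.inv_right, h.drift_inv hf cx, h.drift_self]
    push_cast at d1 d2 ⊢
    linarith
  have b1 := h.beta_le cl d3
  have b2 := h.beta_le cl.inv_right (by rw [h.drift_inv hf cl, d3, neg_zero])
  have b3 := h.par cl
  rw [h.len_inv] at b2
  linarith

theorem obstruction {x1 y1 x2 y2 : G} (h1 : x1 ^ 2 = y1 ^ 3) (h2 : x2 ^ 2 = y2 ^ 3)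
    (h3 : y1 * x1⁻¹ = y2 * x2⁻¹) (h4 : x2 ^ 2 = x1 ^ 2 * (y1 * x1⁻¹) ^ 6) (n1 : x1 ^ 2 ≠ 1)
    (n2 : x2 ^ 2 ≠ 1) : False := by
  have o1 := h.orth h1 n1
  have o2 := h.orth h2 n2
  have cx : Commute (x1 ^ 2) x1 := (Commute.refl x1).pow_left 2
  have cy : Commute (x1 ^ 2) y1 := h1 ▸ (Commute.refl y1).pow_left 3
  have c : Commute (x1 ^ 2) (x2 ^ 2) := by
    rw [h4]
    exact (Commute.refl _).mul_right ((cy.mul_right cx.inv_right).pow_right 6)
  have e : (y2 * x2⁻¹) ^ 6 = (x1 ^ 2)⁻¹ * x2 ^ 2 := by rw [← h3, h4, inv_mul_cancel_left]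
  rw [← h4] at o1
  rw [e] at o2
  have hp := h.len_pos n2
  generalize x1 ^ 2 = a at *
  generalize x2 ^ 2 = b at *
  have e1 : b * (a⁻¹ * b) = b ^ 2 * a⁻¹ := by rw [c.inv_left.eq, pow_two, mul_assoc]
  have e2 : b * (b * (a⁻¹ * b))⁻¹ = a * b⁻¹ := by
    rw [mul_inv_rev, mul_inv_rev, inv_inv, ← mul_assoc, mul_inv_cancel_left]
  have e3 : h.len (b * a⁻¹) = h.len (a * b⁻¹) := by rw [← h.len_inv, mul_inv_rev, inv_inv]
  have q := h.len_pow_mul c.symm.inv_right 2
  rw [e2, e1, q, e3, h.len_inv] at o2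
  push_cast at o2
  nlinarith

end AlgD

theorem alg_obstruction {X : Type} {Γ : Subgroup (Equiv.Perm X)} {d : X → X → ℝ} (h : CatD Γ d)
    (hfree : ∀ γ ∈ Γ, ∀ x, γ x = x → γ = 1) {x1 y1 x2 y2 : Equiv.Perm X} (m1 : x1 ∈ Γ)
    (m2 : y1 ∈ Γ) (m3 : x2 ∈ Γ) (m4 : y2 ∈ Γ) (h1 : x1 ^ 2 = y1 ^ 3) (h2 : x2 ^ 2 = y2 ^ 3)
    (h3 : y1 * x1⁻¹ = y2 * x2⁻¹) (h4 : x2 ^ 2 = x1 ^ 2 * (y1 * x1⁻¹) ^ 6) (n1 : x1 ^ 2 ≠ 1)
    (n2 : x2 ^ 2 ≠ 1) : False := by
  have H : AlgD Γ d :=
    { refl := h.refl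
      symm := h.symm
      tri := h.tri
      cn := h.cn
      iso := fun γ => h.iso γ γ.2
      min := fun γ => h.min γ γ.2
      free := fun γ x e => Subtype.ext (hfree γ γ.2 x (h.sep _ _ e).symm) }
  exact H.obstruction (x1 := ⟨x1, m1⟩) (y1 := ⟨y1, m2⟩) (x2 := ⟨x2, m3⟩) (y2 := ⟨y2, m4⟩)
    (Subtype.ext h1) (Subtype.ext h2) (Subtype.ext h3) (Subtype.ext h4)
    (fun e => n1 (congrArg Subtype.val e)) fun e => n2 (congrArg Subtype.val e)

end Vale.Agent.P255
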