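import Vale.Agent.P255.Chr

set_option maxSynthPendingDepth 3
set_option linter.deprecated false

namespace Vale.Agent.P255

open scoped ContDiff Topology
open Set Filter

variable {V : Type} [NormedAddCommGroup V] [NormedSpace ℝ V] [FiniteDimensional ℝ V]
  {g : V → V →L[ℝ] V →L[ℝ] ℝ}

theorem bnd_m (hg : IsMetric g) {K : Set V} (hK : IsCompact K) :
    ∃ m : ℝ, 0 < m ∧ ∀ x ∈ K, ∀ v, m * ‖v‖ ^ 2 ≤ g x v v := by
  have : ProperSpace V := FiniteDimensional.proper_real V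
  have hc : Continuous fun p : V × V => g p.1 p.2 p.2 :=
    ((hg.smooth.continuous.comp continuous_fst).clm_apply continuous_snd).clm_apply continuous_snd
  obtain ⟨m, hm, h⟩ := (hK.prod (isCompact_sphere (0 : V) 1)).exists_forall_le' hc.continuousOn
    (a := 0) fun p hp => hg.pos _ _ fun h0 => by simpa [h0] using hp.2
  refine ⟨m, hm, fun x hx v => ?_⟩
  by_cases hv : v = 0
  · simp [hv]
  have hn : 0 < ‖v‖ := norm_pos_iff.2 hv
  have h1 := h (x, ‖v‖⁻¹ • v) ⟨hx, by simp [norm_smul, hn.ne']⟩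
  simp only [map_smul, ContinuousLinearMap.smul_apply, smul_eq_mul] at h1
  have h2 : g x v v = ‖v‖⁻¹ * (‖v‖⁻¹ * g x v v) * ‖v‖ ^ 2 := by field_simp
  rw [h2]
  exact mul_le_mul_of_nonneg_right h1 (by positivity)

theorem bnd_step (hg : IsMetric g) {K : Set V} (hK : IsCompact K) (s : ℝ) :
    ∃ K' : Set V, IsCompact K' ∧ ∃ T : ℝ, 0 < T ∧ ∀ (c c' : ℝ → V) (a b : ℝ), a ≤ b → b ≤ a + T →
      c a ∈ K → (∀ t ∈ Icc a b, HasDerivAt c (c' t) t) →
      (∀ t ∈ Icc a b, g (c t) (c' t) (c' t) ≤ s ^ 2) → c b ∈ K' := by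
  have : ProperSpace V := FiniteDimensional.proper_real V
  obtain ⟨m, hm, h⟩ := bnd_m hg (hK.cthickening (r := 1))
  have hM : 0 < s ^ 2 / m + 1 := by positivity
  set M := s ^ 2 / m + 1 with hMdef
  refine ⟨_, hK.cthickening (r := 1), M⁻¹, inv_pos.2 hM, fun c c' a b hab hb ha hc hs => ?_⟩
  have key : ∀ t ∈ Icc a b, ‖c t - c a‖ ≤ M * (t - a) → c t ∈ Metric.cthickening 1 K :=
    fun t ht h1 => Metric.mem_cthickening_of_dist_le _ _ _ _ ha (by
      rw [dist_eq_norm]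
      refine h1.trans ?_
      rw [← mul_inv_cancel₀ hM.ne']
      exact mul_le_mul_of_nonneg_left (by linarith [ht.2]) hM.le)
  refine key b ⟨hab, le_rfl⟩ (image_norm_le_of_norm_deriv_right_lt_deriv_boundary
    (f := fun t => c t - c a) (f' := c') (B := fun t => M * (t - a)) (B' := fun _ => M)
    (fun t ht => ((hc t ht).sub_const _).continuousAt.continuousWithinAt)
    (fun t ht => ((hc t (Ico_subset_Icc_self ht)).sub_const _).hasDerivWithinAt) (by simp)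
    (fun t => by simpa using ((hasDerivAt_id t).sub_const a).const_mul M)
    (fun t ht h1 => ?_) ⟨hab, le_rfl⟩)
  have ht' := Ico_subset_Icc_self ht
  have h2 := (h _ (key t ht' h1.le) (c' t)).trans (hs t ht')
  have h3 : ‖c' t‖ ^ 2 ≤ s ^ 2 / m := by
    rw [le_div_iff₀ hm]
    linarith
  nlinarith [sq_nonneg (‖c' t‖ - 1), sq_nonneg ‖c' t‖]

theorem bnd {Γ : Subgroup (Equiv.Perm V)} (hΓ : IsDeck Γ) (hg : IsMetric g)
    (hi : Invariant Γ g) {K : Set V} (hK : IsCompact K) (s : ℝ) :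
    ∃ K' : Set V, IsCompact K' ∧ ∀ c c' : ℝ → V, c 0 ∈ K →
      (∀ t ∈ Icc (0 : ℝ) 1, HasDerivAt c (c' t) t) →
      (∀ t ∈ Icc (0 : ℝ) 1, g (c t) (c' t) (c' t) ≤ s ^ 2) → ∀ t ∈ Icc (0 : ℝ) 1, c t ∈ K' := by
  obtain ⟨K0, hK0, hco⟩ := hΓ.cocompact
  obtain ⟨K1, hK1, T, hT, hstep⟩ := bnd_step hg hK0 s
  have key : ∀ n : ℕ, ∃ K' : Set V, IsCompact K' ∧ ∀ c c' : ℝ → V, c 0 ∈ K →
      (∀ t ∈ Icc (0 : ℝ) 1, HasDerivAt c (c' t) t) →
      (∀ t ∈ Icc (0 : ℝ) 1, g (c t) (c' t) (c' t) ≤ s ^ 2) →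
      ∀ t ∈ Icc (0 : ℝ) 1, t ≤ n * T → c t ∈ K' := by
    intro n
    induction n with
    | zero =>
      refine ⟨K, hK, fun c c' h0 _ _ t ht h => ?_⟩
      rwa [le_antisymm (by simpa using h) ht.1]
    | succ n ih =>
      obtain ⟨Kn, hKn, ih⟩ := ih
      have hS := hΓ.proper _ (hKn.union hK0)
      refine ⟨_, hKn.union (hS.isCompact_biUnion
        (f := fun γ : Equiv.Perm V => ⇑(γ⁻¹) '' K1) fun γ hγ => hK1.image
        (hΓ.smooth _ (Γ.inv_mem hγ.1)).continuous), fun c c' h0 hc hs t ht h => ?_⟩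
      by_cases hn : t ≤ n * T
      · exact Or.inl (ih c c' h0 hc hs t ht hn)
      have hn' : (n : ℝ) * T ≤ t := (not_le.1 hn).le
      have hsub : Icc (n * T) t ⊆ Icc (0 : ℝ) 1 := Icc_subset_Icc (by positivity) ht.2
      have h1 := ih c c' h0 hc hs _ (hsub ⟨le_rfl, hn'⟩) le_rfl
      obtain ⟨γ, hγ, h2⟩ := hco (c (n * T))
      have hd := (hΓ.smooth γ hγ).differentiable (by simp)
      have h3 := hstep (fun t => γ (c t)) (fun t => fderiv ℝ γ (c t) (c' t)) (n * T) t hn'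
        (by push_cast at h; linarith) h2
        (fun r hr => (hd _).hasFDerivAt.comp_hasDerivAt r (hc r (hsub hr)))
        (fun r hr => by rw [hi γ hγ]; exact hs r (hsub hr))
      exact Or.inr (mem_biUnion (x := γ) ⟨hγ, _, Or.inl h1, Or.inr h2⟩ ⟨_, h3, by simp⟩)
  obtain ⟨n, hn⟩ := exists_nat_ge (1 / T)
  obtain ⟨K', hK', h⟩ := key n
  exact ⟨K', hK', fun c c' h0 hc hs t ht =>
    h c c' h0 hc hs t ht (ht.2.trans ((div_le_iff₀ hT).1 hn))⟩

theorem bnd_mono {q q' : ℝ → ℝ} {L : ℝ} (h : ∀ s ∈ Ioc (0 : ℝ) 1, HasDerivAt q (q' s) s)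
    (h' : ∀ s ∈ Ioc (0 : ℝ) 1, 0 ≤ q' s) (hl : Tendsto q (𝓝[>] 0) (𝓝 L)) :
    ∀ s ∈ Ioc (0 : ℝ) 1, L ≤ q s := by
  intro s hs
  have hm : MonotoneOn q (Ioc 0 1) := monotoneOn_of_deriv_nonneg (convex_Ioc 0 1)
    (fun t ht => (h t ht).continuousAt.continuousWithinAt)
    (fun t ht => (h t (interior_subset ht)).differentiableAt.differentiableWithinAt)
    fun t ht => by rw [(h t (interior_subset ht)).deriv]; exact h' t (interior_subset ht)
  refine le_of_tendsto hl ?_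
  filter_upwards [Ioc_mem_nhdsGT hs.1] with t ht
  exact hm ⟨ht.1, ht.2.trans hs.2⟩ hs ht.2

theorem rauch (hg : IsMetric g) (hK : NonposCurv g) {c v J w : ℝ → V}
    (h : ∀ t ∈ Icc (0 : ℝ) 1, Sys g c v J w t) (hJ : J 0 = 0) :
    g (c 0) (w 0) (w 0) ≤ g (c 1) (J 1) (J 1) := by
  let D : ℝ → V := fun s => w s + chrL g (c s) (v s) (J s)
  let f : ℝ → ℝ := fun s => g (c s) (J s) (J s)
  let u : ℝ → ℝ := fun s => g (c s) (J s) (D s)
  let u' : ℝ → ℝ := fun s => g (c s) (D s) (D s) - g (c s) (curv g (c s) (J s) (v s) (v s)) (J s)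
  have hf : ∀ s ∈ Icc (0 : ℝ) 1, HasDerivAt f (2 * u s) s := fun s hs =>
    (hg.hasDerivAt_g (h s hs).1 (h s hs).2.2.1 (h s hs).2.2.1).congr_deriv (by
      rw [hg.symm _ _ (J s), two_mul])
  have hu : ∀ s ∈ Icc (0 : ℝ) 1, HasDerivAt u (u' s) s := fun s hs => (h s hs).hasDerivAt_Q hg
  have h0 := h 0 ⟨le_rfl, zero_le_one⟩
  have l0 : Tendsto (fun s => g (c s)) (𝓝[>] 0) (𝓝 (g (c 0))) :=
    ((hg.smooth.continuous.tendsto _).comp h0.1.continuousAt).mono_left nhdsWithin_le_nhds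
  have l1 : Tendsto (fun s : ℝ => s⁻¹ • J s) (𝓝[>] 0) (𝓝 (w 0)) := by
    simpa [hJ] using h0.2.2.1.tendsto_slope_zero_right
  have l2 : Tendsto J (𝓝[>] 0) (𝓝 (J 0)) := h0.2.2.1.continuousAt.mono_left nhdsWithin_le_nhds
  have l3 : Tendsto u (𝓝[>] 0) (𝓝 (u 0)) :=
    (hu 0 ⟨le_rfl, zero_le_one⟩).continuousAt.mono_left nhdsWithin_le_nhds
  have ap : ∀ {a b : ℝ → V} {x y : V}, Tendsto a (𝓝[>] 0) (𝓝 x) → Tendsto b (𝓝[>] 0) (𝓝 y) →
      Tendsto (fun s => g (c s) (a s) (b s)) (𝓝[>] 0) (𝓝 (g (c 0) x y)) := fun ha hb => by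
    have hc : Continuous fun p : (V →L[ℝ] V →L[ℝ] ℝ) × V × V => p.1 p.2.1 p.2.2 :=
      (continuous_fst.clm_apply continuous_snd.fst).clm_apply continuous_snd.snd
    exact (hc.tendsto _).comp (l0.prodMk_nhds (ha.prodMk_nhds hb))
  have q1 := bnd_mono (q := fun s => u s - s⁻¹ * f s) (L := 0)
    (q' := fun s => u' s - (-(s ^ 2)⁻¹ * f s + s⁻¹ * (2 * u s)))
    (fun s hs => (hu s (Ioc_subset_Icc_self hs)).sub
      ((hasDerivAt_inv hs.1.ne').mul (hf s (Ioc_subset_Icc_self hs))))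
    (fun s hs => by
      have a1 := hg.nonneg (c s) (s⁻¹ • J s - D s)
      have a2 := hK (c s) (J s) (v s)
      simp only [map_sub, map_smul, ContinuousLinearMap.sub_apply, ContinuousLinearMap.smul_apply,
        smul_eq_mul, hg.symm _ (D s) (J s)] at a1
      simp only [u', f, u, ← inv_pow]
      nlinarith)
    (by
      have := l3.sub (ap l2 l1)
      simpa [u, f, hJ] using this)
  have q2 := bnd_mono (q := fun s => s⁻¹ * (s⁻¹ * f s)) (L := g (c 0) (w 0) (w 0))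
    (q' := fun s => -(s ^ 2)⁻¹ * (s⁻¹ * f s) + s⁻¹ * (-(s ^ 2)⁻¹ * f s + s⁻¹ * (2 * u s)))
    (fun s hs => (hasDerivAt_inv hs.1.ne').mul
      ((hasDerivAt_inv hs.1.ne').mul (hf s (Ioc_subset_Icc_self hs))))
    (fun s hs => by
      have a1 := mul_nonneg (sq_nonneg s⁻¹) (q1 s hs)
      simp only [← inv_pow]
      nlinarith)
    (by simpa [f] using ap l1 l1) 1 ⟨one_pos, le_rfl⟩
  simpa [f] using q2

end Vale.Agent.P255
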