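import Vale.Agent.P255.Chr

set_option maxSynthPendingDepth 3
set_option linter.deprecated false

namespace Vale.Agent.P255

open scoped ContDiff Topology
open Set Filter

variable {V : Type} [NormedAddCommGroup V] [NormedSpace ℝ V] [FiniteDimensional ℝ V]
  {g : V → V →L[ℝ] V →L[ℝ] ℝ}

theorem lift_coercive (hg : IsMetric g) (x : V) :
    ∃ m : ℝ, 0 < m ∧ ∀ v, m * ‖v‖ ^ 2 ≤ g x v v := by
  obtain ⟨m, hm, h⟩ := (isCompact_sphere (0 : V) 1).exists_forall_le' (f := fun v => g x v v)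
    (((g x).continuous.clm_apply continuous_id).continuousOn) (a := 0) fun v hv =>
      hg.pos x v (by
        rintro rfl
        simp at hv)
  refine ⟨m, hm, fun v => ?_⟩
  by_cases hv : v = 0
  · simp [hv]
  have hn : 0 < ‖v‖ := norm_pos_iff.2 hv
  have h1 := h (‖v‖⁻¹ • v) (by simp [norm_smul, hn.ne'])
  simp only [map_smul, ContinuousLinearMap.smul_apply, smul_eq_mul] at h1
  have h2 := mul_le_mul_of_nonneg_right h1 (sq_nonneg ‖v‖)
  refine h2.trans_eq ?_
  field_simp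

theorem lift_equiv (hg : IsMetric g) {x : V} {e : V → V}
    (he : ∀ u, ∃ D : V →L[ℝ] V, HasStrictFDerivAt e D u ∧ ∀ h, g x h h ≤ g (e u) (D h) (D h))
    (u : V) : ∃ D : V ≃L[ℝ] V, HasStrictFDerivAt e (D : V →L[ℝ] V) u ∧
      ∀ h, g x h h ≤ g (e u) (D h) (D h) := by
  obtain ⟨D, h1, h2⟩ := he u
  have hi : Function.Injective D := by
    refine (injective_iff_map_eq_zero D).2 fun v hv => ?_
    by_contra h0
    have := (hg.pos x v h0).trans_le (h2 v)
    simp [hv] at this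
  exact ⟨(D.toLinearMap.linearEquivOfInjective hi rfl).toContinuousLinearEquiv, h1, h2⟩

theorem lift_bound (hg : IsMetric g) {x : V} {e : V → V}
    (he : ∀ u, ∃ D : V →L[ℝ] V, HasStrictFDerivAt e D u ∧ ∀ h, g x h h ≤ g (e u) (D h) (D h))
    {σ σ' τ : ℝ → V} {s T : ℝ} (hσ : ∀ t ∈ Icc (0 : ℝ) 1, HasDerivAt σ (σ' t) t)
    (hs : ∀ t ∈ Icc (0 : ℝ) 1, g (σ t) (σ' t) (σ' t) ≤ s ^ 2) (hT : T ∈ Icc (0 : ℝ) 1)
    (hτ : ContinuousOn τ (Icc 0 T)) (hl : ∀ t ∈ Icc 0 T, e (τ t) = σ t) :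
    g x (τ T - τ 0) (τ T - τ 0) ≤ s ^ 2 := by
  have : CompleteSpace V := FiniteDimensional.complete ℝ V
  have key : ∀ t, ∃ w : V, t ∈ Ico 0 T → HasDerivWithinAt τ w (Ici t) t ∧ g x w w ≤ s ^ 2 := by
    intro t
    by_cases ht : t ∈ Ico 0 T
    swap
    · exact ⟨0, fun h => absurd h ht⟩
    obtain ⟨D, h1, h2⟩ := lift_equiv hg he (τ t)
    have ht' : t ∈ Icc 0 T := Ico_subset_Icc_self ht
    have ht1 : t ∈ Icc (0 : ℝ) 1 := ⟨ht.1, ht.2.le.trans hT.2⟩
    refine ⟨D.symm (σ' t), fun _ => ⟨?_, ?_⟩⟩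
    · have h3 := h1.to_localInverse.hasFDerivAt
      rw [hl t ht'] at h3
      have h4 := (h3.comp_hasDerivAt t (hσ t ht1)).hasDerivWithinAt (s := Ici t)
      have h5 : Icc 0 T ∈ 𝓝[Ici t] t := Icc_mem_nhdsGE_of_mem ht
      have h6 : Tendsto τ (𝓝[Ici t] t) (𝓝 (τ t)) := (hτ t ht').mono_of_mem_nhdsWithin h5
      have h7 : τ =ᶠ[𝓝[Ici t] t] h1.localInverse e D (τ t) ∘ σ := by
        filter_upwards [h5, h6.eventually h1.eventually_left_inverse] with r hr hr'
        rw [Function.comp_apply, ← hl r hr, hr']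
      exact h4.congr_of_eventuallyEq h7 (h7.eq_of_nhdsWithin self_mem_Ici)
    · have := h2 (D.symm (σ' t))
      rw [D.apply_symm_apply, hl t ht'] at this
      exact this.trans (hs t ht1)
  choose w hw using key
  set u := τ T - τ 0 with hu
  have hN := hg.nonneg x u
  have h1 := image_le_of_deriv_right_le_deriv_boundary (f := fun r => g x u (τ r - τ 0))
    (f' := fun r => g x u (w r)) (a := 0) (b := T)
    ((g x u).continuous.comp_continuousOn (hτ.sub continuousOn_const))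
    (fun r hr => (g x u).hasFDerivAt.comp_hasDerivWithinAt r ((hw r hr).1.sub_const _))
    (B := fun r => √(g x u u) * |s| * r) (B' := fun _ => √(g x u u) * |s|) (by simp)
    (by fun_prop) (fun r _ => by simpa using ((hasDerivWithinAt_id r (Ici r)).const_mul _))
    (fun r hr => by
      refine (abs_le_of_sq_le_sq' ?_ (by positivity)).2
      rw [mul_pow, Real.sq_sqrt hN, sq_abs]
      exact (hg.sq_le x u (w r)).trans (mul_le_mul_of_nonneg_left (hw r hr).2 hN))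
    (right_mem_Icc.2 hT.1)
  rw [← hu] at h1
  have h2 : √(g x u u) * |s| * T ≤ √(g x u u) * |s| := mul_le_of_le_one_right (by positivity) hT.2
  have h3 := Real.sq_sqrt hN
  have h4 := sq_abs s
  nlinarith [sq_nonneg (√(g x u u) - |s|)]

omit [NormedSpace ℝ V] [FiniteDimensional ℝ V] in
theorem lift_extend {e : V → V} (q : OpenPartialHomeomorph V V) (hq : e = q) {σ τ : ℝ → V}
    {T T' : ℝ} (h0 : 0 ≤ T) (hT : T ≤ T') (hσ : ContinuousOn σ (Icc T T'))
    (hm : ∀ t ∈ Icc T T', σ t ∈ q.target) (hτ : ContinuousOn τ (Icc 0 T))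
    (hl : ∀ t ∈ Icc 0 T, e (τ t) = σ t) (hs : τ T ∈ q.source) :
    ∃ τ' : ℝ → V, ContinuousOn τ' (Icc 0 T') ∧ τ' 0 = τ 0 ∧ ∀ t ∈ Icc 0 T', e (τ' t) = σ t := by
  have e1 : q.symm (σ T) = τ T := by
    rw [← hl T ⟨h0, le_rfl⟩, hq, q.left_inv hs]
  refine ⟨fun r => τ (min r T) + (q.symm (σ (max r T)) - τ T), ?_, ?_, ?_⟩
  · refine (hτ.comp (by fun_prop) fun r hr => ⟨le_min hr.1 h0, min_le_right _ _⟩).add
      (ContinuousOn.sub ?_ continuousOn_const)
    have hx : MapsTo (fun r => max r T) (Icc 0 T') (Icc T T') := fun r hr =>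
      ⟨le_max_right _ _, max_le hr.2 hT⟩
    exact q.continuousOn_symm.comp (hσ.comp (by fun_prop) hx) fun r hr => hm _ (hx hr)
  · simp [h0, e1]
  · intro t ht
    rcases le_total t T with h | h
    · simp [h, e1, hl t ⟨ht.1, h⟩]
    · simp only [min_eq_right h, max_eq_left h, add_sub_cancel]
      rw [hq, q.right_inv (hm t ⟨h, ht.2⟩)]

theorem lift_homeo (hg : IsMetric g) {x : V} {e : V → V}
    (he : ∀ u, ∃ D : V →L[ℝ] V, HasStrictFDerivAt e D u ∧ ∀ h, g x h h ≤ g (e u) (D h) (D h)) :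
    IsLocalHomeomorph e := by
  have : CompleteSpace V := FiniteDimensional.complete ℝ V
  intro u
  obtain ⟨D, h1, -⟩ := lift_equiv hg he u
  exact ⟨h1.toOpenPartialHomeomorph e, h1.mem_toOpenPartialHomeomorph_source, rfl⟩

theorem lift_path (hg : IsMetric g) {x : V} {e : V → V}
    (he : ∀ u, ∃ D : V →L[ℝ] V, HasStrictFDerivAt e D u ∧ ∀ h, g x h h ≤ g (e u) (D h) (D h))
    {σ σ' : ℝ → V} {s : ℝ} (hσ : ∀ t ∈ Icc (0 : ℝ) 1, HasDerivAt σ (σ' t) t)
    (hs : ∀ t ∈ Icc (0 : ℝ) 1, g (σ t) (σ' t) (σ' t) ≤ s ^ 2) {a : V} (ha : σ 0 = e a) :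
    ∃ τ : ℝ → V, ContinuousOn τ (Icc 0 1) ∧ τ 0 = a ∧ ∀ t ∈ Icc (0 : ℝ) 1, e (τ t) = σ t := by
  have hh := lift_homeo hg he
  let S : Set ℝ :=
    {T | ∃ τ : ℝ → V, ContinuousOn τ (Icc 0 T) ∧ τ 0 = a ∧ ∀ t ∈ Icc (0 : ℝ) T, e (τ t) = σ t}
  have hc : ContinuousOn σ (Icc 0 1) := fun t ht => (hσ t ht).continuousAt.continuousWithinAt
  have near : ∀ T ∈ Icc (0 : ℝ) 1, ∀ w, e w = σ T → ∃ U ∈ 𝓝 w, ∃ η : ℝ, 0 < η ∧
      ∀ T₁ T₂ : ℝ, 0 ≤ T₁ → T₁ ≤ T₂ → T₂ ≤ 1 → T - η < T₁ → T₂ < T + η →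
        ∀ τ : ℝ → V, ContinuousOn τ (Icc 0 T₁) → τ 0 = a → (∀ t ∈ Icc 0 T₁, e (τ t) = σ t) →
          τ T₁ ∈ U → T₂ ∈ S := by
    intro T hT w hw
    obtain ⟨q, hq1, hq2⟩ := hh w
    have h1 : σ T ∈ q.target := by
      rw [← hw, hq2]
      exact q.map_source hq1
    obtain ⟨η, hη, h2⟩ := Metric.eventually_nhds_iff.1
      ((hσ T hT).continuousAt.eventually (q.open_target.mem_nhds h1))
    refine ⟨q.source, q.open_source.mem_nhds hq1, η, hη, ?_⟩
    intro T₁ T₂ a1 a2 a3 a4 a5 τ b1 b2 b3 b4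
    obtain ⟨τ', c1, c2, c3⟩ := lift_extend q hq2 a1 a2 (hc.mono (Icc_subset_Icc a1 a3))
      (fun t ht => h2 (by
        rw [Real.dist_eq, abs_lt]
        constructor <;> linarith [ht.1, ht.2])) b1 b3 b4
    exact ⟨τ', c1, c2.trans b2, c3⟩
  have : Icc (0 : ℝ) 1 ⊆ S := by
    refine IsClosed.Icc_subset_of_forall_mem_nhdsWithin ?_ ?_ ?_
    · refine isClosed_of_closure_subset fun T hT => ?_
      have hT1 : T ∈ Icc (0 : ℝ) 1 := closure_minimal inter_subset_right isClosed_Icc hT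
      refine ⟨?_, hT1⟩
      obtain ⟨u, hu, hl⟩ := mem_closure_iff_seq_limit.1 hT
      choose τ h1 h2 h3 using fun n => (hu n).1
      obtain ⟨m, hm, hm'⟩ := lift_coercive hg x
      have hb : ∀ n, τ n (u n) ∈ Metric.closedBall a (√(s ^ 2 / m)) := by
        intro n
        have b1 := lift_bound hg he hσ hs (hu n).2 (h1 n) (h3 n)
        rw [h2] at b1
        rw [mem_closedBall_iff_norm]
        refine Real.le_sqrt_of_sq_le ?_
        rw [le_div_iff₀' hm]
        exact (hm' _).trans b1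
      obtain ⟨w, -, φ, hφ, hw⟩ := (isCompact_closedBall a _).tendsto_subseq hb
      have hl' := hl.comp hφ.tendsto_atTop
      have e1 : e w = σ T := by
        refine tendsto_nhds_unique ((hh.continuous.tendsto w).comp hw) ?_
        refine (((hσ T hT1).continuousAt.tendsto).comp hl').congr fun n => ?_
        exact (h3 _ _ ⟨(hu _).2.1, le_rfl⟩).symm
      obtain ⟨U, hU, η, hη, H⟩ := near T hT1 w e1
      obtain ⟨n, hn1, hn2⟩ := ((hw.eventually hU).and
        (hl'.eventually (lt_mem_nhds (show T - η < T by linarith)))).exists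
      rcases le_total (u (φ n)) T with h | h
      · exact H _ T (hu _).2.1 h hT1.2 hn2 (by linarith) _ (h1 _) (h2 _) (h3 _) hn1
      · exact ⟨τ (φ n), (h1 _).mono (Icc_subset_Icc_right h), h2 _,
          fun t ht => h3 _ t (Icc_subset_Icc_right h ht)⟩
    · refine ⟨fun _ => a, continuousOn_const, rfl, fun t ht => ?_⟩
      rw [le_antisymm ht.2 ht.1, ha]
    · rintro T ⟨⟨τ, h1, h2, h3⟩, hT⟩
      obtain ⟨U, hU, η, hη, H⟩ := near T (Ico_subset_Icc_self hT) (τ T) (h3 T ⟨hT.1, le_rfl⟩)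
      have : Ioo T (min 1 (T + η)) ∈ 𝓝[>] T := Ioo_mem_nhdsGT (lt_min hT.2 (by linarith))
      filter_upwards [this] with T' hT'
      exact H T T' hT.1 hT'.1.le (hT'.2.le.trans (min_le_left _ _)) (by linarith)
        (hT'.2.trans_le (min_le_right _ _)) τ h1 h2 h3 (mem_of_mem_nhds hU)
  exact this (right_mem_Icc.2 zero_le_one)

theorem lift_segment (hg : IsMetric g) {x : V} {e : V → V}
    (he : ∀ u, ∃ D : V →L[ℝ] V, HasStrictFDerivAt e D u ∧ ∀ h, g x h h ≤ g (e u) (D h) (D h))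
    (q : V) : ∃ τ : ℝ → V, ContinuousOn τ (Icc 0 1) ∧ τ 0 = 0 ∧
      ∀ t ∈ Icc (0 : ℝ) 1, e (τ t) = e 0 + t • (q - e 0) := by
  have hc : Continuous fun t : ℝ => g (e 0 + t • (q - e 0)) (q - e 0) (q - e 0) :=
    ((hg.smooth.continuous.comp (by fun_prop)).clm_apply continuous_const).clm_apply
      continuous_const
  obtain ⟨C, hC⟩ := (isCompact_Icc (a := (0 : ℝ)) (b := 1)).exists_bound_of_continuousOn
    hc.continuousOn
  refine lift_path hg he (σ := fun t => e 0 + t • (q - e 0)) (σ' := fun _ => q - e 0) (s := C + 1)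
    (fun t _ => by simpa using ((hasDerivAt_id t).smul_const (q - e 0)).const_add (e 0))
    (fun t ht => ?_) (by simp)
  have := (le_abs_self _).trans (hC t ht)
  nlinarith [sq_nonneg (C + 1 / 2)]

theorem lift_exp (hg : IsMetric g) (x : V) {e : V → V}
    (he : ∀ u, ∃ D : V →L[ℝ] V, HasStrictFDerivAt e D u ∧ ∀ h, g x h h ≤ g (e u) (D h) (D h)) :
    Function.Bijective e ∧ ∀ (σ σ' : ℝ → V) (s : ℝ) (a b : V),
      (∀ t ∈ Icc (0 : ℝ) 1, HasDerivAt σ (σ' t) t) →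
      (∀ t ∈ Icc (0 : ℝ) 1, g (σ t) (σ' t) (σ' t) ≤ s ^ 2) → σ 0 = e a → σ 1 = e b →
      g x (a - b) (a - b) ≤ s ^ 2 := by
  have hh := lift_homeo hg he
  have sep : IsSeparatedMap e := T2Space.isSeparatedMap e
  choose τ h1 h2 h3 using lift_segment hg he
  have hcont : ∀ q, Continuous fun t : unitInterval => τ q t := fun q =>
    (h1 q).comp_continuous continuous_subtype_val fun t => t.2
  have hG : Continuous fun z : unitInterval × V => τ z.2 z.1 :=
    hh.continuous_lift sep ⟨fun z => e 0 + (z.1 : ℝ) • (z.2 - e 0), by fun_prop⟩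
      (funext fun z => h3 z.2 z.1 z.1.2) (by simpa [h2] using continuous_const) hcont
  have hψ : Continuous fun q => τ q 1 := hG.comp (Continuous.prodMk_right (1 : unitInterval))
  have hr : ∀ q, e (τ q 1) = q := fun q => by
    rw [h3 q 1 (right_mem_Icc.2 zero_le_one), one_smul, add_sub_cancel]
  have h0 : τ (e 0) 1 = 0 :=
    congrFun (sep.eq_of_comp_eq hh.isLocallyInjective (hcont (e 0)) continuous_const
      (funext fun t => by simpa using h3 (e 0) t t.2) 0 (h2 _)) 1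
  have hl : (fun u => τ (e u) 1) = id :=
    sep.eq_of_comp_eq hh.isLocallyInjective (hψ.comp hh.continuous) continuous_id
      (funext fun u => hr _) 0 h0
  have hi : Function.Injective e := Function.LeftInverse.injective (g := fun q => τ q 1)
    fun u => congrFun hl u
  refine ⟨⟨hi, fun q => ⟨_, hr q⟩⟩, fun σ σ' s a b hσ hs ha hb => ?_⟩
  obtain ⟨ρ, g1, g2, g3⟩ := lift_path hg he hσ hs ha
  have g4 := lift_bound hg he hσ hs (right_mem_Icc.2 zero_le_one) g1 g3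
  rw [g2, hi ((g3 1 (right_mem_Icc.2 zero_le_one)).trans hb), ← neg_sub a b] at g4
  simpa only [map_neg, ContinuousLinearMap.neg_apply, neg_neg] using g4

end Vale.Agent.P255
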