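import Vale.Agent.P255.Exp
import Vale.Agent.P255.Lift
import Vale.Agent.P255.Alg

set_option maxSynthPendingDepth 3
set_option linter.deprecated false

namespace Vale.Agent.P255

open scoped ContDiff Topology
open Set Filter

variable {V : Type} [NormedAddCommGroup V] [NormedSpace ℝ V] [FiniteDimensional ℝ V]
  {g : V → V →L[ℝ] V →L[ℝ] ℝ}

omit [FiniteDimensional ℝ V] in
theorem cat_affine {c v : ℝ → V} (h : Geo g c v) (a b : ℝ)
    (hab : ∀ t ∈ Icc (0 : ℝ) 1, a + b * t ∈ Icc (0 : ℝ) 1) :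
    Geo g (fun t => c (a + b * t)) fun t => b • v (a + b * t) := by
  intro t ht
  have h0 : HasDerivAt (fun t : ℝ => a + b * t) b t := by
    simpa using ((hasDerivAt_id t).const_mul b).const_add a
  obtain ⟨h1, h2⟩ := h _ (hab t ht)
  refine ⟨h1.scomp t h0, ((h2.scomp t h0).const_smul b).congr_deriv ?_⟩
  simp only [map_smul, ContinuousLinearMap.smul_apply, smul_neg]

omit [FiniteDimensional ℝ V] in
theorem cat_min {Γ : Subgroup (Equiv.Perm V)} (hΓ : IsDeck Γ) {d : V → V → ℝ}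
    (refl : ∀ x, d x x = 0) (symm : ∀ x y, d x y = d y x) (tri : ∀ x y z, d x z ≤ d x y + d y z)
    (iso : ∀ γ ∈ Γ, ∀ x y, d (γ x) (γ y) = d x y) (cont : ∀ x, Continuous (d x))
    (prop : ∀ K : Set V, IsCompact K → ∀ R : ℝ, ∃ K' : Set V, IsCompact K' ∧
      ∀ x ∈ K, ∀ y, d x y ≤ R → y ∈ K') :
    ∀ f ∈ Γ, ∃ x, ∀ y, d x (f x) ≤ d y (f y) := by
  intro f hf
  have hc : Continuous fun y => d y (f y) := by
    refine continuous_iff_continuousAt.2 fun y => ?_
    have h0 : Tendsto (fun z => 2 * d y z) (𝓝 y) (𝓝 0) := by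
      simpa [refl] using ((cont y).tendsto y).const_mul 2
    refine tendsto_sub_nhds_zero_iff.1 (squeeze_zero_norm (fun z => ?_) h0)
    have a1 := tri z y (f z)
    have a2 := tri y (f y) (f z)
    have a3 := tri y z (f y)
    have a4 := tri z (f z) (f y)
    rw [iso f hf] at a2 a4
    rw [symm z y] at a1 a4
    rw [Real.norm_eq_abs, abs_le]
    constructor <;> linarith
  obtain ⟨K, hK, hK'⟩ := hΓ.cocompact
  obtain ⟨K', h1, h2⟩ := prop K hK (d 0 (f 0))
  have hF := hΓ.proper _ (hK.union h1)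
  have : ∀ h : Equiv.Perm V, ∃ γ ∈ Γ, (∃ γ ∈ Γ, h = γ * f * γ⁻¹) → h = γ * f * γ⁻¹ := by
    intro h
    by_cases hh : ∃ γ ∈ Γ, h = γ * f * γ⁻¹
    · obtain ⟨γ, g1, g2⟩ := hh
      exact ⟨γ, g1, fun _ => g2⟩
    · exact ⟨1, Γ.one_mem, fun h => absurd h hh⟩
  choose c hc1 hc2 using this
  have hK2 := (hF.isCompact_biUnion (f := fun h => ((c h)⁻¹ : Equiv.Perm V) '' K) fun h _ =>
    hK.image (hΓ.smooth _ (Γ.inv_mem (hc1 h))).continuous).insert 0
  obtain ⟨x, -, hx⟩ := hK2.exists_isMinOn (insert_nonempty _ _) hc.continuousOn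
  refine ⟨x, fun y => ?_⟩
  rcases le_total (d 0 (f 0)) (d y (f y)) with hy | hy
  · exact (hx (mem_insert _ _)).trans hy
  obtain ⟨γ, g1, g2⟩ := hK' y
  have e1 : d (γ y) ((γ * f * γ⁻¹) (γ y)) = d y (f y) := by simp [iso γ g1]
  have e2 := hc2 (γ * f * γ⁻¹) ⟨γ, g1, rfl⟩
  have hm : γ * f * γ⁻¹ ∈ Γ := Γ.mul_mem (Γ.mul_mem g1 hf) (Γ.inv_mem g1)
  have := hx (mem_insert_of_mem _ (mem_biUnion (x := γ * f * γ⁻¹)
    ⟨hm, γ y, Or.inl g2, Or.inr (h2 _ g2 _ (e1.trans_le hy))⟩ ⟨γ y, g2, rfl⟩))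
  refine le_trans this (le_of_eq ?_)
  have e3 := hc1 (γ * f * γ⁻¹)
  generalize c (γ * f * γ⁻¹) = k at e2 e3 ⊢
  rw [← e1, e2]
  refine (iso k e3 _ _).symm.trans ?_
  simp

theorem cat_exists {Γ : Subgroup (Equiv.Perm V)} (hΓ : IsDeck Γ) (hg : IsMetric g)
    (hi : Invariant Γ g) (hK : NonposCurv g) : ∃ d : V → V → ℝ, CatD Γ d := by
  choose e he hD using exp_exists hΓ hg hi hK
  have hb := fun x => (lift_exp hg x (hD x)).1
  have hl := fun x => (lift_exp hg x (hD x)).2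
  choose lg hlg using fun x => (hb x).2
  have lg_e : ∀ x u, lg x (e x u) = u := fun x u => (hb x).1 (hlg x _)
  have e0 : ∀ x, e x 0 = x := fun x =>
    he x (fun _ => x) (fun _ => 0) (fun t _ => ⟨hasDerivAt_const t x, by
      simpa using hasDerivAt_const t (0 : V)⟩) rfl
  have lg0 : ∀ x, lg x x = 0 := fun x => (hb x).1 ((hlg x x).trans (e0 x).symm)
  obtain ⟨d, hd0, hd⟩ : ∃ d : V → V → ℝ, (∀ x y, 0 ≤ d x y) ∧
      ∀ x y, d x y ^ 2 = g x (lg x y) (lg x y) :=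
    ⟨fun x y => √(g x (lg x y) (lg x y)), fun _ _ => Real.sqrt_nonneg _,
      fun x y => Real.sq_sqrt (hg.nonneg _ _)⟩
  have geo : ∀ x y, ∃ c v : ℝ → V, Geo g c v ∧ c 0 = x ∧ c 1 = y ∧
      ∀ t ∈ Icc (0 : ℝ) 1, g (c t) (v t) (v t) = d x y ^ 2 := by
    intro x y
    obtain ⟨c, v, h1, h2, h3⟩ := geo_exists hΓ hg hi x (lg x y)
    refine ⟨c, v, h3, h1, ?_, fun t ht => ?_⟩
    · rw [← he x c v h3 h1, h2, hlg]
    · rw [h3.speed hg t ht, h1, h2, hd]
  have beta : ∀ p x y, g p (lg p x - lg p y) (lg p x - lg p y) ≤ d x y ^ 2 := by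
    intro p x y
    obtain ⟨c, v, h1, h2, h3, h4⟩ := geo x y
    exact hl p c v _ _ _ (fun t ht => (h1 t ht).1) (fun t ht => (h4 t ht).le)
      (h2.trans (hlg _ _).symm) (h3.trans (hlg _ _).symm)
  have refl : ∀ x, d x x = 0 := fun x => pow_eq_zero_iff (two_ne_zero) |>.1 (by simp [hd, lg0])
  have symm' : ∀ x y, d y x ≤ d x y := fun x y => by
    have := beta y x y
    rw [lg0, sub_zero, ← hd] at this
    exact (abs_le_of_sq_le_sq' this (hd0 _ _)).2
  have symm : ∀ x y, d x y = d y x := fun x y => le_antisymm (symm' y x) (symm' x y)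
  have tri : ∀ x y z, d x z ≤ d x y + d y z := by
    intro x y z
    refine (abs_le_of_sq_le_sq' ?_ (add_nonneg (hd0 _ _) (hd0 _ _))).2
    have h1 := beta x z y
    have h2 := hg.sq_le x (lg x y) (lg x z - lg x y)
    rw [← hd] at h2
    rw [symm z y] at h1
    have h3 : g x (lg x y) (lg x z - lg x y) ≤ d x y * d y z := by
      refine (abs_le_of_sq_le_sq' ?_ (mul_nonneg (hd0 _ _) (hd0 _ _))).2
      rw [mul_pow]
      exact h2.trans (mul_le_mul_of_nonneg_left h1 (sq_nonneg _))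
    simp only [map_sub, ContinuousLinearMap.sub_apply, ← hd, hg.symm x (lg x z) (lg x y)] at h1 h3
    nlinarith
  have iso' : ∀ γ ∈ Γ, ∀ x y, d (γ x) (γ y) ≤ d x y := by
    intro γ hγ x y
    obtain ⟨c, v, h1, h2, h3, h4⟩ := geo x y
    have hd' : Differentiable ℝ γ := (hΓ.smooth γ hγ).differentiable (by simp)
    have := hl (γ y) (fun t => γ (c t)) (fun t => fderiv ℝ γ (c t) (v t)) (d x y)
      (lg (γ y) (γ x)) 0 (fun t ht => (hd' _).hasFDerivAt.comp_hasDerivAt t (h1 t ht).1)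
      (fun t ht => by rw [hi γ hγ, h4 t ht]) (by rw [h2, hlg]) (by rw [h3, e0])
    rw [sub_zero, ← hd, symm] at this
    exact (abs_le_of_sq_le_sq' this (hd0 _ _)).2
  have iso : ∀ γ ∈ Γ, ∀ x y, d (γ x) (γ y) = d x y := fun γ hγ x y =>
    le_antisymm (iso' γ hγ x y) (by simpa using iso' γ⁻¹ (Γ.inv_mem hγ) (γ x) (γ y))
  refine ⟨d, refl, symm, tri, fun x y h => ?_, fun x y => ?_, iso,
    cat_min hΓ refl symm tri iso (fun x => ?_) fun K hK R => ?_⟩
  · have h1 : lg x y = 0 := by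
      by_contra h0
      have := hg.pos x _ h0
      rw [← hd, h] at this
      simp at this
    rw [← hlg x y, h1, e0]
  · obtain ⟨c, v, h1, h2, h3, h4⟩ := geo x y
    refine ⟨c (1 / 2), fun z => ?_⟩
    have a1 := he (c (1 / 2)) _ _ (cat_affine h1 (1 / 2) (1 / 2) fun t ht =>
      ⟨by linarith [ht.1], by linarith [ht.2]⟩) (by simp)
    have a2 := he (c (1 / 2)) _ _ (cat_affine h1 (1 / 2) (-(1 / 2)) fun t ht =>
      ⟨by linarith [ht.2], by linarith [ht.1]⟩) (by simp)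
    simp only [mul_zero, add_zero, mul_one, add_halves, add_neg_cancel, h2, h3] at a1 a2
    have b1 := beta (c (1 / 2)) z x
    have b2 := beta (c (1 / 2)) z y
    rw [show lg (c (1 / 2)) x = _ by rw [← a2, lg_e]] at b1
    rw [show lg (c (1 / 2)) y = _ by rw [← a1, lg_e]] at b2
    have b3 := h4 (1 / 2) ⟨by norm_num, by norm_num⟩
    rw [symm z (c (1 / 2))]
    simp only [map_sub, map_smul, ContinuousLinearMap.sub_apply, ContinuousLinearMap.smul_apply,
      smul_eq_mul, ← hd, b3] at b1 b2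
    linarith
  · have hc : Continuous (lg x) := continuous_def.2 fun U hU => by
      rw [← image_eq_preimage_of_inverse (lg_e x) (hlg x)]
      exact (lift_homeo hg (hD x)).isOpenMap U hU
    have : d x = fun y => √(g x (lg x y) (lg x y)) := funext fun y => by
      rw [← hd, Real.sqrt_sq (hd0 _ _)]
    rw [this]
    exact (((g x).continuous.comp hc).clm_apply hc).sqrt
  · obtain ⟨K', h1, h2⟩ := bnd hΓ hg hi hK R
    refine ⟨K', h1, fun x hx y hy => ?_⟩
    obtain ⟨c, v, g1, g2, g3, g4⟩ := geo x y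
    rw [← g3]
    exact h2 c v (g2 ▸ hx) (fun t ht => (g1 t ht).1)
      (fun t ht => (g4 t ht).trans_le (pow_le_pow_left₀ (hd0 _ _) hy 2)) 1
      (right_mem_Icc.2 zero_le_one)

end Vale.Agent.P255
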