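import Vale.Agent.P255.Mod

set_option maxSynthPendingDepth 3
set_option linter.deprecated false

namespace Vale.Agent.P255

open scoped ContDiff Topology
open Set Filter

variable {G X : Type} [Group G] [MulAction G X] {A B C : Subgroup G} {θ : X → ℝ} {δ η : ℝ}

/-- alternating words -/
inductive PPAlt (A B C : Subgroup G) : Bool → G → Prop
  | baseA {a : G} : a ∈ A → a ∉ C → PPAlt A B C true a
  | baseB {b : G} : b ∈ B → b ∉ C → PPAlt A B C false b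
  | stepA {a γ : G} : a ∈ A → a ∉ C → PPAlt A B C false γ → PPAlt A B C true (a * γ)
  | stepB {b γ : G} : b ∈ B → b ∉ C → PPAlt A B C true γ → PPAlt A B C false (b * γ)

theorem pp_alt_C (hA : C ≤ A) (hB : C ≤ B) {c γ : G} {s : Bool} (hc : c ∈ C)
    (h : PPAlt A B C s γ) : PPAlt A B C s (c * γ) := by
  have k : ∀ {a : G}, a ∉ C → c * a ∉ C := fun ha h' => ha ((C.mul_mem_cancel_left hc).1 h')
  cases h with
  | baseA h1 h2 => exact .baseA (A.mul_mem (hA hc) h1) (k h2)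
  | baseB h1 h2 => exact .baseB (B.mul_mem (hB hc) h1) (k h2)
  | stepA h1 h2 h3 => rw [← mul_assoc]; exact .stepA (A.mul_mem (hA hc) h1) (k h2) h3
  | stepB h1 h2 h3 => rw [← mul_assoc]; exact .stepB (B.mul_mem (hB hc) h1) (k h2) h3

theorem pp_alt_mul (hA : C ≤ A) (hB : C ≤ B) {a γ : G} (ha : a ∈ A ∨ a ∈ B)
    (h : γ ∈ C ∨ ∃ s, PPAlt A B C s γ) : a * γ ∈ C ∨ ∃ s, PPAlt A B C s (a * γ) := by
  have kA : ∀ {x : G}, x ∈ A → x ∈ C ∨ ∃ s, PPAlt A B C s x := fun {x} hx => by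
    by_cases h : x ∈ C
    · exact Or.inl h
    · exact Or.inr ⟨_, .baseA hx h⟩
  have kB : ∀ {x : G}, x ∈ B → x ∈ C ∨ ∃ s, PPAlt A B C s x := fun {x} hx => by
    by_cases h : x ∈ C
    · exact Or.inl h
    · exact Or.inr ⟨_, .baseB hx h⟩
  have sA : ∀ {x y : G}, x ∈ A → PPAlt A B C false y → ∃ s, PPAlt A B C s (x * y) :=
    fun {x y} hx hy => by
      by_cases h : x ∈ C
      · exact ⟨_, pp_alt_C hA hB h hy⟩
      · exact ⟨_, .stepA hx h hy⟩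
  have sB : ∀ {x y : G}, x ∈ B → PPAlt A B C true y → ∃ s, PPAlt A B C s (x * y) :=
    fun {x y} hx hy => by
      by_cases h : x ∈ C
      · exact ⟨_, pp_alt_C hA hB h hy⟩
      · exact ⟨_, .stepB hx h hy⟩
  rcases ha with ha | ha
  · rcases h with h | ⟨s, h⟩
    · exact kA (A.mul_mem ha (hA h))
    · cases h with
      | baseA h1 h2 => exact kA (A.mul_mem ha h1)
      | baseB h1 h2 => exact Or.inr (sA ha (.baseB h1 h2))
      | stepA h1 h2 h3 => rw [← mul_assoc]; exact Or.inr (sA (A.mul_mem ha h1) h3)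
      | stepB h1 h2 h3 => exact Or.inr (sA ha (.stepB h1 h2 h3))
  · rcases h with h | ⟨s, h⟩
    · exact kB (B.mul_mem ha (hB h))
    · cases h with
      | baseA h1 h2 => exact Or.inr (sB ha (.baseA h1 h2))
      | baseB h1 h2 => exact kB (B.mul_mem ha h1)
      | stepA h1 h2 h3 => exact Or.inr (sB ha (.stepA h1 h2 h3))
      | stepB h1 h2 h3 => rw [← mul_assoc]; exact Or.inr (sB (B.mul_mem ha h1) h3)

theorem pp_alt_of_mem (hA : C ≤ A) (hB : C ≤ B) {γ : G} (hγ : γ ∈ A ⊔ B) :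
    γ ∈ C ∨ ∃ s, PPAlt A B C s γ := by
  rw [Subgroup.sup_eq_closure] at hγ
  induction hγ using Subgroup.closure_induction_left with
  | one => exact Or.inl C.one_mem
  | mul_left x hx y _ ih => exact pp_alt_mul hA hB hx ih
  | inv_mul_cancel x hx y _ ih =>
    exact pp_alt_mul hA hB (hx.imp A.inv_mem B.inv_mem) ih

theorem pp_alt_val (h : PPD A B C θ δ) (hδ : 0 ≤ δ) {z : X} (hz : z ∈ Om A B C θ η) {s : Bool}
    {γ : G} (hγ : PPAlt A B C s γ) :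
    (s = true → η < θ (γ • z)) ∧ (s = false → θ (γ • z) < -η) := by
  induction hγ with
  | baseA h1 h2 => exact ⟨fun _ => hz.1 _ h1 h2, fun e => absurd e (by decide)⟩
  | baseB h1 h2 => exact ⟨fun e => absurd e (by decide), fun _ => hz.2 _ h1 h2⟩
  | @stepA a γ h1 h2 _ ih =>
    refine ⟨fun _ => ?_, fun e => absurd e (by decide)⟩
    have := h.up a h1 h2 (γ • z)
    have := ih.2 rfl
    rw [mul_smul]; linarith
  | @stepB b γ h1 h2 _ ih =>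
    refine ⟨fun e => absurd e (by decide), fun _ => ?_⟩
    have := h.down b h1 h2 (γ • z)
    have := ih.1 rfl
    rw [mul_smul]; linarith

theorem pp_near_min (H : Subgroup G) (θ : X → ℝ) {ε : ℝ} (hε : 0 < ε) (z : X) :
    ∃ γ ∈ H, ∀ a ∈ H, |θ (γ • z)| - ε < |θ (a • γ • z)| := by
  obtain ⟨_, ⟨γ, hγ, rfl⟩, h⟩ := Real.lt_sInf_add_pos
    (s := (fun g : G => |θ (g • z)|) '' (H : Set G)) ⟨_, 1, H.one_mem, rfl⟩ hε
  refine ⟨γ, hγ, fun a ha => ?_⟩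
  have : sInf ((fun g : G => |θ (g • z)|) '' (H : Set G)) ≤ |θ ((a * γ) • z)| :=
    csInf_le ⟨0, by rintro _ ⟨g, -, rfl⟩; exact abs_nonneg _⟩ ⟨_, H.mul_mem ha hγ, rfl⟩
  rw [mul_smul] at this
  linarith

theorem pp_trans (h : PPD A B C θ δ) (hη : 0 ≤ η) (hδ : 0 ≤ δ) {γ : G} (hγ : γ ∈ A ⊔ B) {z : X}
    (hz : z ∈ Om A B C θ η) (hz' : γ • z ∈ Om A B C θ η) :
    γ ∈ C ∨ (γ ∈ A ∧ η < θ z ∧ η < θ (γ • z)) ∨ (γ ∈ B ∧ θ z < -η ∧ θ (γ • z) < -η) := by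
  rcases pp_alt_of_mem h.CA h.CB hγ with hc | ⟨s, hs⟩
  · exact Or.inl hc
  have v := pp_alt_val h hδ hz hs
  cases hs with
  | baseA h1 h2 =>
    have := hz'.1 _ (A.inv_mem h1) (fun e => h2 (C.inv_mem_iff.1 e))
    rw [inv_smul_smul] at this
    exact Or.inr (Or.inl ⟨h1, this, v.1 rfl⟩)
  | baseB h1 h2 =>
    have := hz'.2 _ (B.inv_mem h1) (fun e => h2 (C.inv_mem_iff.1 e))
    rw [inv_smul_smul] at this
    exact Or.inr (Or.inr ⟨h1, this, v.2 rfl⟩)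
  | stepA h1 h2 h3 =>
    have e1 := hz'.1 _ (A.inv_mem h1) (fun e => h2 (C.inv_mem_iff.1 e))
    rw [mul_smul, inv_smul_smul] at e1
    have e2 := (pp_alt_val h hδ hz h3).2 rfl
    linarith
  | stepB h1 h2 h3 =>
    have e1 := hz'.2 _ (B.inv_mem h1) (fun e => h2 (C.inv_mem_iff.1 e))
    rw [mul_smul, inv_smul_smul] at e1
    have e2 := (pp_alt_val h hδ hz h3).1 rfl
    linarith

theorem pp_meet (h : PPD A B C θ δ) (hη : 0 ≤ η) (h2 : 2 * η < δ) (z : X) :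
    ∃ γ ∈ A ⊔ B, γ • z ∈ Om A B C θ η := by
  obtain ⟨γ, hγ, hm⟩ := pp_near_min (A ⊔ B) θ (sub_pos.2 h2) z
  refine ⟨γ, hγ, fun a h1 h3 => ?_, fun b h1 h3 => ?_⟩
  · by_contra hc
    push Not at hc
    have e1 := h.up a h1 h3 (γ • z)
    have e2 := hm a (Subgroup.mem_sup_left h1)
    have e3 := le_abs_self (θ (γ • z))
    rcases lt_abs.1 e2 with e | e <;> linarith
  · by_contra hc
    push Not at hc
    have e1 := h.down b h1 h3 (γ • z)
    have e2 := hm b (Subgroup.mem_sup_right h1)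
    have e3 := neg_le_abs (θ (γ • z))
    rcases lt_abs.1 e2 with e | e <;> linarith

theorem pp_free (h : PPD A B C θ δ) (hδ : 0 < δ) (hA : ∀ a ∈ A, ∀ z : X, a • z = z → a = 1)
    (hB : ∀ b ∈ B, ∀ z : X, b • z = z → b = 1) : ∀ γ ∈ A ⊔ B, ∀ z : X, γ • z = z → γ = 1 := by
  intro γ hγ z hz
  obtain ⟨g, hg, hw⟩ := pp_meet h le_rfl (by linarith) z
  have e : (g * γ * g⁻¹) • g • z = g • z := by rw [mul_smul, mul_smul, inv_smul_smul, hz]
  have m : g * γ * g⁻¹ ∈ A ⊔ B := mul_mem (mul_mem hg hγ) (inv_mem hg)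
  have : g * γ * g⁻¹ = 1 := by
    rcases pp_trans h le_rfl hδ.le m hw (by rwa [e]) with c | ⟨c, -⟩ | ⟨c, -⟩
    · exact hA _ (h.CA c) _ e
    · exact hA _ c _ e
    · exact hB _ c _ e
  simpa using this

variable [TopologicalSpace X] [LocallyCompactSpace X]

theorem pp_ev (hinv : ∀ c ∈ C, ∀ z, θ (c • z) = θ z) (hc : ∀ γ ∈ A, Continuous fun z : X => γ • z)
    (hθ : Continuous θ) (lA : LF A C θ) {z : X} (hz : ∀ a ∈ A, a ∉ C → η < θ (a • z)) :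
    ∀ᶠ w in 𝓝 z, ∀ a ∈ A, a ∉ C → η < θ (a • w) := by
  obtain ⟨K, hK, hKz⟩ := exists_compact_mem_nhds z
  obtain ⟨F, F1, F2, F3⟩ := lA K hK η
  have ev : ∀ᶠ w in 𝓝 z, ∀ f ∈ F, f ∉ C → η < θ (f • w) := by
    refine (F1.eventually_all).2 fun f hf => ?_
    by_cases hfC : f ∈ C
    · exact Eventually.of_forall fun w h => absurd hfC h
    · exact (continuousAt_const.eventually_lt (hθ.comp (hc f (F2 hf))).continuousAt
        (hz f (F2 hf) hfC)).mono fun w h _ => h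
  filter_upwards [ev, hKz] with w h1 h2 a ha haC
  by_contra hle
  obtain ⟨f, f1, f2⟩ := F3 a ha ⟨w, h2, not_lt.1 hle⟩
  have e := hinv _ f2 (f • w)
  rw [mul_smul, inv_smul_smul] at e
  refine hle (e ▸ h1 f f1 fun hf => haC ?_)
  simpa using C.mul_mem f2 hf

omit [LocallyCompactSpace X] in
theorem pp_proper_one (hc : ∀ γ ∈ A, Continuous fun z : X => γ • z) (hθ : Continuous θ)
    (lA : LF A C θ) (pC : ∀ K : Set X, IsCompact K → {c | c ∈ C ∧ ∃ z ∈ K, c • z ∈ K}.Finite)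
    (K : Set X) (hK : IsCompact K) : {γ | γ ∈ A ∧ ∃ z ∈ K, γ • z ∈ K}.Finite := by
  obtain ⟨T, hT⟩ := hK.bddAbove_image hθ.continuousOn
  obtain ⟨F, F1, F2, F3⟩ := lA K hK T
  refine (F1.biUnion fun f hf =>
    (pC _ (hK.union (hK.image (hc f (F2 hf))))).image fun c => c * f).subset ?_
  rintro a ⟨ha, z, z1, z2⟩
  obtain ⟨f, f1, f2⟩ := F3 a ha ⟨z, z1, hT ⟨_, z2, rfl⟩⟩
  refine mem_iUnion₂.2 ⟨f, f1, a * f⁻¹, ⟨f2, f • z, Or.inr ⟨z, z1, rfl⟩, Or.inl ?_⟩, by simp⟩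
  rwa [mul_smul, inv_smul_smul]

theorem pp_open (h : PPD A B C θ δ) (hc : ∀ γ ∈ A ⊔ B, Continuous fun z : X => γ • z)
    (hθ : Continuous θ) (lA : LF A C θ) (lB : LF B C fun z => -θ z) :
    IsOpen (Om A B C θ η) := by
  refine isOpen_iff_mem_nhds.2 fun z hz => ?_
  filter_upwards [pp_ev h.inv (fun γ hγ => hc γ (Subgroup.mem_sup_left hγ)) hθ lA hz.1,
    pp_ev (θ := fun z => -θ z) (η := η) (fun c hc z => by rw [h.inv c hc z])
      (fun γ hγ => hc γ (Subgroup.mem_sup_right hγ)) hθ.neg lB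
      (fun b h1 h2 => lt_neg.1 (hz.2 b h1 h2))] with w h1 h2
  exact ⟨h1, fun b b1 b2 => lt_neg.1 (h2 b b1 b2)⟩

theorem pp_proper (h : PPD A B C θ δ) (hδ : 0 < δ)
    (hc : ∀ γ ∈ A ⊔ B, Continuous fun z : X => γ • z) (hθ : Continuous θ) (lA : LF A C θ)
    (lB : LF B C fun z => -θ z)
    (pC : ∀ K : Set X, IsCompact K → {c | c ∈ C ∧ ∃ z ∈ K, c • z ∈ K}.Finite) :
    ∀ K : Set X, IsCompact K → {γ | γ ∈ A ⊔ B ∧ ∃ z ∈ K, γ • z ∈ K}.Finite := by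
  intro K hK
  have hO := pp_open (η := 0) h hc hθ lA lB
  have ex : ∀ z : X, ∃ γ ∈ A ⊔ B, ∃ N, IsCompact N ∧ N ∈ 𝓝 z ∧
      ∀ w ∈ N, γ • w ∈ Om A B C θ 0 := by
    intro z
    obtain ⟨γ, hγ, hw⟩ := pp_meet h le_rfl (by linarith) z
    obtain ⟨N, n1, n2, n3⟩ := exists_compact_subset (hO.preimage (hc γ hγ)) hw
    exact ⟨γ, hγ, N, n1, mem_interior_iff_mem_nhds.1 n2, fun w hw => n3 hw⟩
  choose g hg N n1 n2 n3 using ex
  obtain ⟨t, -, ht⟩ := hK.elim_nhds_subcover N fun z _ => n2 z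
  have hK' : IsCompact (⋃ i ∈ t, (fun w => g i • w) '' N i) :=
    t.isCompact_biUnion fun i _ => (n1 i).image (hc _ (hg i))
  have fA := pp_proper_one (fun γ hγ => hc γ (Subgroup.mem_sup_left hγ)) hθ lA pC _ hK'
  have fB := pp_proper_one (θ := fun z => -θ z) (fun γ hγ => hc γ (Subgroup.mem_sup_right hγ))
    hθ.neg lB pC _ hK'
  refine (t.finite_toSet.biUnion fun i _ => t.finite_toSet.biUnion fun j _ =>
    (fA.union fB).image fun s => (g j)⁻¹ * s * g i).subset ?_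
  rintro γ ⟨hγ, z, z1, z2⟩
  obtain ⟨i, hi, zi⟩ := mem_iUnion₂.1 (ht z1)
  obtain ⟨j, hj, zj⟩ := mem_iUnion₂.1 (ht z2)
  refine mem_iUnion₂.2 ⟨i, hi, mem_iUnion₂.2 ⟨j, hj, g j * γ * (g i)⁻¹, ?_, by simp [mul_assoc]⟩⟩
  have e : (g j * γ * (g i)⁻¹) • g i • z = g j • γ • z := by rw [mul_smul, mul_smul, inv_smul_smul]
  have m : g j * γ * (g i)⁻¹ ∈ A ⊔ B := mul_mem (mul_mem (hg j) hγ) (inv_mem (hg i))
  have k : ∃ w ∈ ⋃ i ∈ t, (fun w => g i • w) '' N i,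
      (g j * γ * (g i)⁻¹) • w ∈ ⋃ i ∈ t, (fun w => g i • w) '' N i :=
    ⟨g i • z, mem_iUnion₂.2 ⟨i, hi, z, zi, rfl⟩, e ▸ mem_iUnion₂.2 ⟨j, hj, _, zj, rfl⟩⟩
  rcases pp_trans h le_rfl hδ.le m (n3 i z zi) (e ▸ n3 j _ zj) with c | ⟨c, -⟩ | ⟨c, -⟩
  · exact Or.inl ⟨h.CA c, k⟩
  · exact Or.inl ⟨c, k⟩
  · exact Or.inr ⟨c, k⟩

omit [LocallyCompactSpace X] in
theorem pp_cocompact (h : PPD A B C θ δ) (hδ : 0 < δ) (dA : Desc A θ) (dB : Desc B fun z => -θ z)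
    (slab : ∀ T : ℝ, ∃ K : Set X, IsCompact K ∧ ∀ z, |θ z| ≤ T → ∃ c ∈ C, c • z ∈ K) :
    ∃ K : Set X, IsCompact K ∧ ∀ z, ∃ γ ∈ A ⊔ B, γ • z ∈ K := by
  obtain ⟨T1, δ1, p1, d1⟩ := dA
  obtain ⟨T2, δ2, p2, d2⟩ := dB
  obtain ⟨K, hK, hs⟩ := slab (max T1 T2)
  refine ⟨K, hK, fun z => ?_⟩
  obtain ⟨γ, hγ, hm⟩ := pp_near_min (A ⊔ B) θ (lt_min hδ (lt_min p1 p2)) z
  have m0 := min_le_left δ (min δ1 δ2)
  have m1 := (min_le_right δ (min δ1 δ2)).trans (min_le_left δ1 δ2)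
  have m2 := (min_le_right δ (min δ1 δ2)).trans (min_le_right δ1 δ2)
  have b1 : θ (γ • z) ≤ T1 := by
    by_contra hc
    obtain ⟨a, h1, h2⟩ := d1 _ (not_le.1 hc).le
    have h3 : a ∉ C := fun e => by rw [h.inv a e] at h2; linarith
    have e1 := h.up a h1 h3 (γ • z)
    have e2 := hm a (Subgroup.mem_sup_left h1)
    have e3 := le_abs_self (θ (γ • z))
    rcases lt_abs.1 e2 with e | e <;> linarith
  have b2 : -θ (γ • z) ≤ T2 := by
    by_contra hc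
    obtain ⟨a, h1, h2⟩ := d2 _ (not_le.1 hc).le
    beta_reduce at h2
    have h3 : a ∉ C := fun e => by rw [h.inv a e] at h2; linarith
    have e1 := h.down a h1 h3 (γ • z)
    have e2 := hm a (Subgroup.mem_sup_right h1)
    have e3 := neg_le_abs (θ (γ • z))
    rcases lt_abs.1 e2 with e | e <;> linarith
  obtain ⟨c, c1, c2⟩ := hs (γ • z) (abs_le.2 ⟨by linarith [le_max_right T1 T2],
    b1.trans (le_max_left _ _)⟩)
  exact ⟨c * γ, mul_mem (Subgroup.mem_sup_left (h.CA c1)) hγ, by rwa [mul_smul]⟩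

end Vale.Agent.P255
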