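import Vale.Agent.P255.Hyp
import Vale.Agent.P255.PP

set_option maxSynthPendingDepth 3
set_option linter.deprecated false

namespace Vale.Agent.P255

open scoped ContDiff Topology
open Set Filter

theorem free_quad {α β n q : ℝ} (z : V3) (ha : 0 < α) (hb : 0 < β) (h : n ^ 2 + q ^ 2 ≤ α * β) :
    2 * q ≤ α * uu z + β * vv z + 2 * n * ss z := by
  have h1 := uu_pos z
  have h2 := vv_pos z
  have h3 := uu_mul_vv z
  have h4 : (2 * q - 2 * n * ss z) ^ 2 ≤ (α * uu z + β * vv z) ^ 2 := by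
    have := mul_le_mul_of_nonneg_right h (mul_pos h1 h2).le
    nlinarith [sq_nonneg (α * uu z - β * vv z), sq_nonneg (n + q * ss z)]
  have := (abs_le_of_sq_le_sq' h4 (by positivity)).2
  linarith

noncomputable def freeT (r : ℝ) (z : V3) : ℝ := uu z + (r - 1) * ss z - r * vv z

theorem free_kp {r : ℝ} (hr : 1 < r) : sg r < kp r :=
  lt_of_pow_lt_pow_left₀ 2 (hyp_kp_pos r).le (by rw [kp_sq]; linarith)

theorem free_x {r : ℝ} (hr : 1 < r) (c : ℝ) (z : V3) :
    freeT r (xh r c • z) + freeT r z ≤ -(2 * (r - 1) * (kp r - sg r)) := by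
  have h1 := kp_sq r
  have h2 := free_quad (n := -sg r) (q := 1) z (hyp_kp_pos r) (hyp_kp_pos r) (by nlinarith)
  have e : freeT r (xh r c • z) + freeT r z =
      -((r - 1) * (kp r - sg r)) * (kp r * uu z + kp r * vv z + 2 * -sg r * ss z) := by
    simp only [freeT, smul_eq_hyp, uu_hyp, vv_hyp, ss_hyp, uM, vM, sM]
    simp [xh]
    linear_combination (-uu z + r * vv z - (r - 1) * ss z) * h1
  rw [e]
  nlinarith [mul_pos (sub_pos.2 hr) (sub_pos.2 (free_kp hr))]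

theorem free_y {r : ℝ} (hr : 1 < r) (c : ℝ) (z : V3) :
    2 * (r - 1) ≤ freeT r (yh r c • z) + freeT r z := by
  obtain ⟨a1, a2, a3, a4, -⟩ := hyp_yh_val hr c
  have h1 := kp_sq r
  have h2 := hyp_sg hr
  have h3 : r * r⁻¹ = 1 := mul_inv_cancel₀ (by linarith)
  have h4 : r⁻¹ < 1 := inv_lt_one_of_one_lt₀ hr
  have h5 := hyp_sg_pos hr
  have h6 := free_kp hr
  have h7 : 0 < r⁻¹ := inv_pos.2 (by linarith)
  simp only [freeT, smul_eq_hyp, uu_hyp, vv_hyp, ss_hyp, uM, vM, sM, a1, a2, a3, a4]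
  generalize r⁻¹ = ρ at *
  generalize sg r = σ at *
  generalize kp r = κ at *
  have hv : 0 < r ^ 2 * κ ^ 2 + (r - 1) * σ * κ - ρ * σ ^ 2 - r := by
    have : 0 < (r - 1) * σ * κ := mul_pos (mul_pos (sub_pos.2 hr) h5) (by linarith)
    have : 0 ≤ (r ^ 2 - ρ) * σ ^ 2 := mul_nonneg (by nlinarith) (sq_nonneg _)
    rw [h1]; nlinarith
  have e : (r ^ 2 * σ ^ 2 + (r - 1) * σ * κ - ρ * κ ^ 2 + 1) *
      (r ^ 2 * κ ^ 2 + (r - 1) * σ * κ - ρ * σ ^ 2 - r) =
      (-(r ^ 2 * σ * κ) - (r - 1) * σ ^ 2 + ρ * σ * κ) ^ 2 +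
        (r - 1) ^ 2 * (1 + (r + ρ) * σ * (κ - σ)) := by grind
  have hp : 0 < (r - 1) ^ 2 * ((r + ρ) * σ * (κ - σ)) :=
    mul_pos (pow_pos (sub_pos.2 hr) 2) (mul_pos (mul_pos (by linarith) h5) (sub_pos.2 h6))
  have hu : 0 < r ^ 2 * σ ^ 2 + (r - 1) * σ * κ - ρ * κ ^ 2 + 1 :=
    (pos_iff_pos_of_mul_pos (by
      have := sq_nonneg (-(r ^ 2 * σ * κ) - (r - 1) * σ ^ 2 + ρ * σ * κ)
      have := sq_nonneg (r - 1)
      rw [e]; linarith)).2 hv
  have := free_quad (n := -(r ^ 2 * σ * κ) - (r - 1) * σ ^ 2 + ρ * σ * κ) (q := r - 1) z hu hv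
    (by rw [e]; linarith)
  refine this.trans (le_of_eq ?_)
  grind

theorem free_f (r c : ℝ) (k : ℤ) (z : V3) : freeT r ((xh r c ^ 2) ^ k • z) = freeT r z := by
  have h : ∀ z, freeT r (xh r c ^ 2 • z) = freeT r z := fun z => by
    rw [smul_eq_hyp, hyp_xh_sq]; simp [freeT, uu, vv, ss]
  induction k using Int.induction_on generalizing z with
  | zero => simp
  | succ k ih => rw [zpow_add_one, mul_smul, ih, h]
  | pred k ih => rw [zpow_sub_one, mul_smul, ih, ← h, smul_inv_smul]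

theorem free_fix {γ : SG} (h : γ.2.toAdd ≠ 0) (n : ℤ) (z : V3) (hz : γ ^ n • z = z) :
    γ ^ n = 1 := by
  have h1 : z.2.2 + (γ ^ n).2.toAdd = z.2.2 := congrArg (fun w : V3 => w.2.2) hz
  have h2 : (n : ℝ) * γ.2.toAdd = 0 := by simpa using h1
  have h3 : n = 0 := by exact_mod_cast (mul_eq_zero.1 h2).resolve_right h
  rw [h3, zpow_zero]

theorem wall_free {r : ℝ} (hr : 1 < r) {c : ℝ} (hc : c ≠ 0) {γ : SG} (h : γ ∈ GH r c) {z : V3}
    (hz : hyp γ z = z) : γ = 1 := by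
  have h1 := mul_pos (mul_pos two_pos (sub_pos.2 hr)) (sub_pos.2 (free_kp hr))
  have hP : PPD (Subgroup.zpowers (yh r c)) (Subgroup.zpowers (xh r c))
      (Subgroup.zpowers (xh r c ^ 2)) (freeT r)
      (min (2 * (r - 1)) (2 * (r - 1) * (kp r - sg r))) := by
    refine ⟨?_, ?_, ?_, ?_, ?_⟩
    · rw [Subgroup.zpowers_le, xh_sq_eq hr]; exact pow_mem (Subgroup.mem_zpowers _) 3
    · rw [Subgroup.zpowers_le]; exact pow_mem (Subgroup.mem_zpowers _) 2
    · rintro _ ⟨n, rfl⟩ hn z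
      refine (min_le_left _ _).trans ?_
      have e : ∀ k j : ℤ, n = 3 * k + j → yh r c ^ n = (xh r c ^ 2) ^ k * yh r c ^ j := by
        rintro k j rfl
        rw [xh_sq_eq hr, zpow_add, zpow_mul]; rfl
      have : n % 3 = 0 ∨ n % 3 = 1 ∨ n % 3 = 2 := by omega
      rcases this with h | h | h
      · exact (hn ⟨n / 3, by simp [e (n / 3) 0 (by omega)]⟩).elim
      · simp only [e (n / 3) 1 (by omega), mul_smul, free_f, zpow_one]
        exact free_y hr c z
      · simp only [e (n / 3 + 1) (-1) (by omega), mul_smul, free_f, zpow_neg_one]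
        have := free_y hr c ((yh r c)⁻¹ • z)
        rwa [smul_inv_smul, add_comm] at this
    · rintro _ ⟨n, rfl⟩ hn z
      refine le_trans ?_ (neg_le_neg (min_le_right _ _))
      have e : ∀ k j : ℤ, n = 2 * k + j → xh r c ^ n = (xh r c ^ 2) ^ k * xh r c ^ j := by
        rintro k j rfl
        rw [zpow_add, zpow_mul]; rfl
      have : n % 2 = 0 ∨ n % 2 = 1 := by omega
      rcases this with h | h
      · exact (hn ⟨n / 2, by simp [e (n / 2) 0 (by omega)]⟩).elim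
      · simp only [e (n / 2) 1 (by omega), mul_smul, free_f, zpow_one]
        exact free_x hr c z
    · rintro _ ⟨n, rfl⟩ z
      exact free_f r c n z
  refine pp_free hP (lt_min (by linarith) h1) ?_ ?_ γ ?_ z hz
  · rintro _ ⟨n, rfl⟩ z hz
    exact free_fix (by rw [(hyp_yh_val hr c).2.2.2.2]; simpa using hc) n z hz
  · rintro _ ⟨n, rfl⟩ z hz
    exact free_fix (by simpa [xh] using hc) n z hz
  · refine (Subgroup.closure_le _).2 ?_ h
    rintro _ (rfl | rfl)
    · exact Subgroup.mem_sup_right (Subgroup.mem_zpowers _)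
    · exact Subgroup.mem_sup_left (Subgroup.mem_zpowers _)

end Vale.Agent.P255
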