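import Vale.Agent.P255.Wall
import Vale.Agent.P255.Free

set_option maxSynthPendingDepth 3
set_option linter.deprecated false

namespace Vale.Agent.P255

open scoped ContDiff Topology
open Set Filter

/-- the conjugated action -/
noncomputable def deckR (φ : Equiv.Perm V3) : SG →* Equiv.Perm V3 :=
  (MulAut.conj φ⁻¹).toMonoidHom.comp (MulAction.toPermHom SG V3)

theorem deckR_apply (φ : Equiv.Perm V3) (γ : SG) (z : V3) :
    deckR φ γ z = φ.symm (hyp γ (φ z)) := rfl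

theorem deckR_apply' (φ : Equiv.Perm V3) (γ : SG) (z : V3) : φ (deckR φ γ z) = hyp γ (φ z) := by
  rw [deckR_apply, Equiv.apply_symm_apply]

section Side
variable {φ : Equiv.Perm V3} {θ : V3 → ℝ} {r c : ℝ}

theorem deck_smooth (h1 : ContDiff ℝ ∞ φ) (h2 : ContDiff ℝ ∞ φ.symm) (γ : SG) :
    ContDiff ℝ ∞ (deckR φ γ) := h2.comp ((contDiff_hyp γ).comp h1)

theorem deck_up (hr : 1 < r) (hr' : r ≤ 3 / 2) (hθ : ∀ z, θ z = (φ z).1 - 1 / 4) :
    ∀ a ∈ (GH r c).map (deckR φ), a ∉ (LH r c).map (deckR φ) → ∀ z, 1 ≤ θ (a • z) + θ z := by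
  rintro _ ⟨γ, hγ, rfl⟩ h z
  have := wall_sum hr hr' c hγ (fun h' => h ⟨γ, h', rfl⟩) (φ z)
  rw [hθ, hθ, Equiv.Perm.smul_def, deckR_apply']
  linarith

theorem deck_free (hr : 1 < r) (hc : c ≠ 0) :
    ∀ a ∈ (GH r c).map (deckR φ), ∀ z : V3, a • z = z → a = 1 := by
  rintro _ ⟨γ, hγ, rfl⟩ z hz
  rw [wall_free hr hc hγ (z := φ z) (by rw [← deckR_apply']; exact congrArg φ hz), map_one]

theorem deck_lf (hr : 1 < r) (hr' : r ≤ 3 / 2) (h1 : ContDiff ℝ ∞ φ)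
    (hθ : ∀ z, θ z = (φ z).1 - 1 / 4) :
    LF ((GH r c).map (deckR φ)) ((LH r c).map (deckR φ)) θ := by
  intro K hK T
  obtain ⟨F, f1, f2, f3⟩ := wall_lf hr hr' c (φ '' K) (hK.image h1.continuous) (T + 1 / 4)
  refine ⟨deckR φ '' F, f1.image _, image_mono f2, ?_⟩
  rintro _ ⟨γ, hγ, rfl⟩ ⟨z, hz, h⟩
  rw [hθ, Equiv.Perm.smul_def, deckR_apply'] at h
  obtain ⟨f, hf, h'⟩ := f3 γ hγ ⟨φ z, ⟨z, hz, rfl⟩, by rw [smul_eq_hyp]; linarith⟩
  exact ⟨_, ⟨f, hf, rfl⟩, _, h', by simp⟩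

theorem deck_desc (hr : 1 < r) (hθ : ∀ z, θ z = (φ z).1 - 1 / 4) :
    Desc ((GH r c).map (deckR φ)) θ := by
  obtain ⟨T, δ, h0, h⟩ := wall_desc hr c
  refine ⟨T, δ, h0, fun z hz => ?_⟩
  obtain ⟨γ, hγ, h'⟩ := h (φ z) (by rw [hθ] at hz; linarith)
  refine ⟨_, ⟨γ, hγ, rfl⟩, ?_⟩
  rw [hθ, hθ, Equiv.Perm.smul_def, deckR_apply']
  rw [smul_eq_hyp] at h'
  linarith

theorem deck_iso (h1 : ContDiff ℝ ∞ φ) (h2 : ContDiff ℝ ∞ φ.symm)
    {g : V3 → V3 →L[ℝ] V3 →L[ℝ] ℝ} {κ : ℝ} (h : ∀ z, IsoAt g (gH κ) φ z) (γ : SG) (z : V3) :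
    IsoAt g g (deckR φ γ) z := by
  intro a b
  have e : ∀ a, fderiv ℝ φ (deckR φ γ z) (fderiv ℝ (deckR φ γ) z a) =
      fderiv ℝ (hyp γ) (φ z) (fderiv ℝ φ z a) := fun a => by
    have e1 := fderiv_comp z (h1.differentiable (by simp) _)
      ((deck_smooth h1 h2 γ).differentiable (by simp) z)
    have e2 := fderiv_comp z ((contDiff_hyp γ).differentiable (by simp) _)
      (h1.differentiable (by simp) z)
    rw [show φ ∘ deckR φ γ = hyp γ ∘ φ from funext (deckR_apply' φ γ), e2] at e1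
    exact (congrArg (fun L => L a) e1).symm
  rw [← h, e, e, deckR_apply', hyp_iso, h]

theorem deck_map_LH (φ : Equiv.Perm V3) (r c : ℝ) : (LH r c).map (deckR φ) =
    Subgroup.closure {deckR φ (mh r c), deckR φ (xh r c) ^ 2} := by
  rw [LH, MonoidHom.map_closure, image_pair, map_pow]

theorem deck_LH_le (r c : ℝ) : LH r c ≤ GH r c := by
  refine (Subgroup.closure_le _).2 ?_
  rintro _ (rfl | rfl)
  · exact hyp_mh_mem r c
  · exact pow_mem (Subgroup.subset_closure (by simp)) 2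

end Side

/-- the chart of the right block -/
noncomputable def deckP2 : Equiv.Perm V3 := Equiv.addRight (1 / 4, 0, 0)

/-- the chart of the left block -/
noncomputable def deckP1 (ε : ℝ) : Equiv.Perm V3 where
  toFun z := (1 / 4 - z.1, ε * z.2.1 - z.2.2, z.2.1)
  invFun z := (1 / 4 - z.1, z.2.2, ε * z.2.2 - z.2.1)
  left_inv z := by simp
  right_inv z := by simp

theorem deckP2_smooth : ContDiff ℝ ∞ deckP2 ∧ ContDiff ℝ ∞ deckP2.symm :=
  ⟨contDiff_id.add contDiff_const, contDiff_id.add contDiff_const⟩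

theorem deckP1_smooth (ε : ℝ) : ContDiff ℝ ∞ (deckP1 ε) ∧ ContDiff ℝ ∞ (deckP1 ε).symm := by
  constructor
  · change ContDiff ℝ ∞ fun z : V3 => ((1 / 4 - z.1, ε * z.2.1 - z.2.2, z.2.1) : V3)
    fun_prop
  · change ContDiff ℝ ∞ fun z : V3 => ((1 / 4 - z.1, z.2.2, ε * z.2.2 - z.2.1) : V3)
    fun_prop

theorem deckP2_iso (κ : ℝ) (z : V3) : IsoAt (gR κ) (gH κ) deckP2 z := by
  intro a b
  have : fderiv ℝ deckP2 z = ContinuousLinearMap.id ℝ V3 :=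
    ((hasFDerivAt_id z).add_const _).fderiv
  rw [this]
  simp [gR, gH, gm_apply, deckP2]

theorem deckP1_iso (ε κ : ℝ) (z : V3) : IsoAt (gL ε κ) (gH κ) (deckP1 ε) z := by
  intro a b
  have : fderiv ℝ (deckP1 ε) z = (-e1).prod ((ε • e2 - e3).prod e2) :=
    (((e1.hasFDerivAt (x := z)).const_sub (1 / 4)).prodMk
      ((((e2.hasFDerivAt (x := z)).const_mul ε).sub e3.hasFDerivAt).prodMk e2.hasFDerivAt)).fderiv
  rw [this]
  simp [gL, gH, gm_apply, deckP1, bf, e1, e2, e3]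
  ring

/-- translations along the wall -/
noncomputable def deckT (a b : ℝ) : Equiv.Perm V3 := Equiv.addRight (0, a, b)

theorem deckT_apply (a b : ℝ) (z : V3) : deckT a b z = z + (0, a, b) := rfl

theorem deckT_mul (a b a' b' : ℝ) : deckT a b * deckT a' b' = deckT (a + a') (b + b') := by
  ext1 z
  simp [deckT_apply, Prod.ext_iff]
  constructor <;> ring

theorem deckT_zpow (a b : ℝ) (k : ℤ) : deckT a b ^ k = deckT (k * a) (k * b) := by
  rw [deckT, Equiv.zsmul_addRight]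
  simp [deckT]

theorem deckT_ne (a b : ℝ) (hb : b ≠ 0) : deckT a b ≠ 1 := fun h => by
  have := congrArg (fun f : Equiv.Perm V3 => (f 0).2.2) h
  exact hb (by simpa [deckT_apply] using this)

theorem deck_mem_C {L1 L2 : ℝ} {γ : Equiv.Perm V3}
    (h : γ ∈ Subgroup.closure {deckT L2 L1, deckT 0 (6 * -L1)}) :
    ∃ j l : ℤ, γ = deckT (j * L2) (l * L1) := by
  induction h using Subgroup.closure_induction with
  | mem x hx =>
    rcases hx with rfl | rfl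
    · exact ⟨1, 1, by simp⟩
    · exact ⟨0, -6, by simp⟩
  | one => exact ⟨0, 0, by ext1 z; simp [deckT_apply, Prod.ext_iff]⟩
  | mul x y _ _ hx hy =>
    obtain ⟨j, l, rfl⟩ := hx
    obtain ⟨j', l', rfl⟩ := hy
    exact ⟨j + j', l + l', by rw [deckT_mul]; push_cast; congr 1 <;> ring⟩
  | inv x _ hx =>
    obtain ⟨j, l, rfl⟩ := hx
    exact ⟨-j, -l, by rw [← zpow_neg_one, deckT_zpow]; push_cast; congr 1 <;> ring⟩

theorem deck_pC {L1 L2 : ℝ} (h1 : 0 < L1) (h2 : 0 < L2) (K : Set V3) (hK : IsCompact K) :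
    {c : Equiv.Perm V3 | c ∈ Subgroup.closure {deckT L2 L1, deckT 0 (6 * -L1)} ∧
      ∃ z ∈ K, c • z ∈ K}.Finite := by
  obtain ⟨R, hR⟩ := hK.isBounded.exists_norm_le
  have key : ∀ {L : ℝ}, 0 < L → ∀ {j : ℤ} {x : ℝ}, |x| ≤ R → |x + j * L| ≤ R →
      j ∈ Icc (-⌈2 * R / L⌉) ⌈2 * R / L⌉ := by
    intro L hL j x a1 a2
    have a3 : |(j : ℝ)| ≤ 2 * R / L := by
      rw [le_div_iff₀ hL, ← abs_of_pos hL, ← abs_mul]
      rw [abs_le] at *
      constructor <;> linarith [a1.1, a1.2, a2.1, a2.2]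
    have a4 : |j| ≤ ⌈2 * R / L⌉ := by exact_mod_cast a3.trans (Int.le_ceil _)
    exact abs_le.1 a4
  refine (((finite_Icc (-⌈2 * R / L2⌉) ⌈2 * R / L2⌉).prod
    (finite_Icc (-⌈2 * R / L1⌉) ⌈2 * R / L1⌉)).image
    fun p : ℤ × ℤ => deckT (p.1 * L2) (p.2 * L1)).subset ?_
  rintro c ⟨hc, z, hz, hz'⟩
  obtain ⟨j, l, rfl⟩ := deck_mem_C hc
  have b1 := hR _ hz
  have b2 := hR _ hz'
  rw [Equiv.Perm.smul_def, deckT_apply] at b2
  exact ⟨(j, l), ⟨key h2 ((norm_fst_le z.2).trans ((norm_snd_le z).trans b1))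
    ((norm_fst_le _).trans ((norm_snd_le _).trans b2)),
    key h1 ((norm_snd_le z.2).trans ((norm_snd_le z).trans b1))
    ((norm_snd_le _).trans ((norm_snd_le _).trans b2))⟩, rfl⟩

theorem deck_slab {L1 L2 : ℝ} (h1 : 0 < L1) (h2 : 0 < L2) (T : ℝ) :
    ∃ K : Set V3, IsCompact K ∧ ∀ z : V3, |z.1| ≤ T →
      ∃ c ∈ Subgroup.closure {deckT L2 L1, deckT 0 (6 * -L1)}, c • z ∈ K := by
  refine ⟨Icc (-T) T ×ˢ Icc 0 (0 + L2) ×ˢ Icc 0 (0 + 6 * L1),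
    isCompact_Icc.prod (isCompact_Icc.prod isCompact_Icc), fun z hz => ?_⟩
  obtain ⟨j, hj, -⟩ := existsUnique_add_zsmul_mem_Ico h2 z.2.1 0
  obtain ⟨k, hk, -⟩ := existsUnique_add_zsmul_mem_Ico (by linarith : 0 < 6 * L1) (z.2.2 + j * L1) 0
  refine ⟨deckT L2 L1 ^ j * deckT 0 (6 * -L1) ^ (-k), mul_mem
    (zpow_mem (Subgroup.subset_closure (by simp)) _)
    (zpow_mem (Subgroup.subset_closure (by simp)) _), ?_⟩
  rw [deckT_zpow, deckT_zpow, deckT_mul, Equiv.Perm.smul_def, deckT_apply]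
  refine ⟨by simpa using abs_le.1 hz, by simpa using Ico_subset_Icc_self hj, ?_⟩
  convert Ico_subset_Icc_self hk using 1
  simp
  ring

theorem deck_exists {ε : ℝ} (h0 : 0 < ε) (h2 : ε ≤ 2) :
    ∃ (Γ : Subgroup (Equiv.Perm V3)) (Ω : Set V3) (x1 y1 x2 y2 : Equiv.Perm V3),
      IsDeck Γ ∧ IsOpen Ω ∧ (∀ z, ∃ γ ∈ Γ, γ z ∈ Ω) ∧
      (∀ γ ∈ Γ, ∀ z ∈ Ω, γ z ∈ Ω → (∃ a b : ℝ, ∀ y, γ y = y + (0, a, b)) ∨
        (1 / 4 < z.1 ∧ 1 / 4 < (γ z).1 ∧ ∀ κ, IsoAt (gR κ) (gR κ) γ z) ∨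
        (z.1 < -1 / 4 ∧ (γ z).1 < -1 / 4 ∧ ∀ κ, IsoAt (gL ε κ) (gL ε κ) γ z)) ∧
      x1 ∈ Γ ∧ y1 ∈ Γ ∧ x2 ∈ Γ ∧ y2 ∈ Γ ∧ x1 ^ 2 = y1 ^ 3 ∧ x2 ^ 2 = y2 ^ 3 ∧
      y1 * x1⁻¹ = y2 * x2⁻¹ ∧ x2 ^ 2 = x1 ^ 2 * (y1 * x1⁻¹) ^ 6 ∧ x1 ^ 2 ≠ 1 ∧ x2 ^ 2 ≠ 1 := by
  obtain ⟨L2, hL2⟩ : ∃ L2, L2 = 2 * Real.log (3 / 2) := ⟨_, rfl⟩
  have p2 : 0 < L2 := by rw [hL2]; exact mul_pos two_pos (Real.log_pos (by norm_num))
  obtain ⟨L1, hL1⟩ : ∃ L1, L1 = ε * L2 / 2 := ⟨_, rfl⟩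
  have p1 : 0 < L1 := by rw [hL1]; positivity
  have q1 : 1 < Real.exp (L1 / 2) := Real.one_lt_exp_iff.2 (by linarith)
  have q2 : Real.exp (L1 / 2) ≤ 3 / 2 := by
    rw [← Real.exp_log (by norm_num : (0 : ℝ) < 3 / 2), Real.exp_le_exp]
    nlinarith
  have q3 : (1 : ℝ) < 3 / 2 := by norm_num
  generalize hr1 : Real.exp (L1 / 2) = r1 at q1 q2
  have q4 : 2 * Real.log r1 = L1 := by rw [← hr1, Real.log_exp]; ring
  have m2 : deckR deckP2 (mh (3 / 2) (-L1)) = deckT L2 L1 := by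
    ext1 z
    rw [deckR_apply, hyp_mh, ← hL2, Equiv.symm_apply_eq]
    simp [deckP2, deckT_apply, Prod.ext_iff]
  have f2 : deckR deckP2 (xh (3 / 2) (-L1)) ^ 2 = deckT 0 (6 * -L1) := by
    ext1 z
    rw [← map_pow, deckR_apply, hyp_xh_sq, Equiv.symm_apply_eq]
    simp [deckP2, deckT_apply, Prod.ext_iff]
  have m1 : deckR (deckP1 ε) (mh r1 (-L2)) = deckT L2 L1 := by
    ext1 z
    rw [deckR_apply, hyp_mh, q4, Equiv.symm_apply_eq]
    simp [deckP1, deckT_apply, Prod.ext_iff]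
    linarith
  have f1 : deckR (deckP1 ε) (xh r1 (-L2)) ^ 2 = deckT (6 * -L2) (12 * -L1) := by
    ext1 z
    rw [← map_pow, deckR_apply, hyp_xh_sq, Equiv.symm_apply_eq]
    simp [deckP1, deckT_apply, Prod.ext_iff]
    linarith
  have rel : deckT 0 (6 * -L1) = deckT (6 * -L2) (12 * -L1) * deckT L2 L1 ^ 6 := by
    rw [← zpow_natCast, deckT_zpow, deckT_mul]
    push_cast
    congr 1 <;> ring
  have C2 := deck_map_LH deckP2 (3 / 2) (-L1)
  rw [m2, f2] at C2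
  have C1 : (LH r1 (-L2)).map (deckR (deckP1 ε)) =
      Subgroup.closure {deckT L2 L1, deckT 0 (6 * -L1)} := by
    rw [deck_map_LH, m1, f1]
    refine le_antisymm ((Subgroup.closure_le _).2 ?_) ((Subgroup.closure_le _).2 ?_)
    · rintro _ (rfl | rfl)
      · exact Subgroup.subset_closure (by simp)
      · rw [eq_mul_inv_of_mul_eq rel.symm]
        exact mul_mem (Subgroup.subset_closure (by simp))
          (inv_mem (pow_mem (Subgroup.subset_closure (by simp)) 6))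
    · rintro _ (rfl | rfl)
      · exact Subgroup.subset_closure (by simp)
      · rw [rel]
        exact mul_mem (Subgroup.subset_closure (by simp))
          (pow_mem (Subgroup.subset_closure (by simp)) 6)
  have t2 : ∀ z : V3, z.1 = (deckP2 z).1 - 1 / 4 := fun z => by simp [deckP2]
  have t1 : ∀ z : V3, -z.1 = (deckP1 ε z).1 - 1 / 4 := fun z => by simp [deckP1]
  have hP : PPD ((GH (3 / 2) (-L1)).map (deckR deckP2)) ((GH r1 (-L2)).map (deckR (deckP1 ε)))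
      (Subgroup.closure {deckT L2 L1, deckT 0 (6 * -L1)}) (fun z : V3 => z.1) 1 := by
    refine ⟨C2 ▸ Subgroup.map_mono (deck_LH_le _ _), C1 ▸ Subgroup.map_mono (deck_LH_le _ _),
      C2 ▸ deck_up q3 le_rfl t2, fun b hb hb' z => ?_, fun c hc z => ?_⟩
    · have := deck_up (θ := fun z => -z.1) q1 q2 t1 b hb (C1 ▸ hb') z
      linarith
    · obtain ⟨j, l, rfl⟩ := deck_mem_C hc
      simp [deckT_apply]
  have sm : ∀ γ ∈ (GH (3 / 2) (-L1)).map (deckR deckP2) ⊔ (GH r1 (-L2)).map (deckR (deckP1 ε)),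
      ContDiff ℝ ∞ γ := by
    intro γ hγ
    rw [Subgroup.sup_eq_closure] at hγ
    induction hγ using Subgroup.closure_induction'' with
    | mem x hx =>
      rcases hx with ⟨δ, -, rfl⟩ | ⟨δ, -, rfl⟩
      · exact deck_smooth deckP2_smooth.1 deckP2_smooth.2 δ
      · exact deck_smooth (deckP1_smooth ε).1 (deckP1_smooth ε).2 δ
    | inv_mem x hx =>
      rcases hx with ⟨δ, -, rfl⟩ | ⟨δ, -, rfl⟩
      · rw [← map_inv]; exact deck_smooth deckP2_smooth.1 deckP2_smooth.2 _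
      · rw [← map_inv]; exact deck_smooth (deckP1_smooth ε).1 (deckP1_smooth ε).2 _
    | one => exact contDiff_id
    | mul x y _ _ hx hy => exact hx.comp hy
  have lA := C2 ▸ deck_lf (c := -L1) q3 le_rfl deckP2_smooth.1 t2
  have lB := C1 ▸ deck_lf (c := -L2) (θ := fun z => -z.1) q1 q2 (deckP1_smooth ε).1 t1
  have ym : ∀ φ r c, deckR φ (yh r c) * (deckR φ (xh r c))⁻¹ = deckR φ (mh r c) := fun φ r c => by
    rw [yh, map_mul, mul_inv_cancel_right]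
  refine ⟨_, Om _ _ _ (fun z : V3 => z.1) (1 / 4), deckR (deckP1 ε) (xh r1 (-L2)),
    deckR (deckP1 ε) (yh r1 (-L2)), deckR deckP2 (xh (3 / 2) (-L1)),
    deckR deckP2 (yh (3 / 2) (-L1)),
    ⟨sm, pp_free hP one_pos (deck_free q3 (by linarith)) (deck_free q1 (by linarith)),
      pp_proper hP one_pos (fun γ h => (sm γ h).continuous) continuous_fst lA lB (deck_pC p1 p2),
      pp_cocompact hP one_pos (deck_desc q3 t2) (deck_desc (θ := fun z => -z.1) q1 t1)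
        (deck_slab p1 p2)⟩,
    pp_open hP (fun γ h => (sm γ h).continuous) continuous_fst lA lB,
    pp_meet hP (by norm_num) (by norm_num), fun γ hγ z hz hz' => ?_,
    Subgroup.mem_sup_right ⟨_, Subgroup.subset_closure (by simp), rfl⟩,
    Subgroup.mem_sup_right ⟨_, Subgroup.subset_closure (by simp), rfl⟩,
    Subgroup.mem_sup_left ⟨_, Subgroup.subset_closure (by simp), rfl⟩,
    Subgroup.mem_sup_left ⟨_, Subgroup.subset_closure (by simp), rfl⟩,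
    by rw [← map_pow, ← map_pow, xh_sq_eq q1], by rw [← map_pow, ← map_pow, xh_sq_eq q3],
    by rw [ym, ym, m1, m2], by rw [ym, m1, f1, f2, rel],
    by rw [f1]; exact deckT_ne _ _ (by linarith), by rw [f2]; exact deckT_ne _ _ (by linarith)⟩
  rcases pp_trans hP (by norm_num) (by norm_num) hγ hz hz' with h | ⟨⟨δ, -, rfl⟩, a1, a2⟩ |
    ⟨⟨δ, -, rfl⟩, a1, a2⟩
  · obtain ⟨j, l, rfl⟩ := deck_mem_C h
    exact Or.inl ⟨_, _, fun _ => rfl⟩
  · exact Or.inr (Or.inl ⟨a1, a2, fun κ =>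
      deck_iso deckP2_smooth.1 deckP2_smooth.2 (deckP2_iso κ) δ z⟩)
  · exact Or.inr (Or.inr ⟨by rw [neg_div]; exact a1, by rw [neg_div]; exact a2, fun κ =>
      deck_iso (deckP1_smooth ε).1 (deckP1_smooth ε).2 (deckP1_iso ε κ) δ z⟩)

end Vale.Agent.P255
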