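import Mathlib

/-! Riemannian metrics on a finite-dimensional real vector space (global coordinates), their
Levi-Civita connection, curvature, geodesics, Jacobi fields, and groups of deck transformations. -/

namespace Vale.Agent.P255

open scoped ContDiff

variable {V : Type} [NormedAddCommGroup V] [NormedSpace ℝ V]

/-- a smooth Riemannian metric on `V` -/
structure IsMetric (g : V → V →L[ℝ] V →L[ℝ] ℝ) : Prop where
  smooth : ContDiff ℝ ∞ g
  symm : ∀ x v w, g x v w = g x w v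
  pos : ∀ x v, v ≠ 0 → 0 < g x v v

/-- Christoffel map: the vector `Γ` with
`g(Γ, u) = (∂_v g (w, u) + ∂_w g (v, u) - ∂_u g (v, w)) / 2` for all `u` -/
noncomputable def chr (g : V → V →L[ℝ] V →L[ℝ] ℝ) (x v w : V) : V :=
  (g x).inverse ((1 / 2 : ℝ) •
    (fderiv ℝ g x v w + fderiv ℝ g x w v - ((fderiv ℝ g x).flip v).flip w))

/-- the curvature tensor `R(X, Y) Z = ∇_X ∇_Y Z - ∇_Y ∇_X Z - ∇_[X,Y] Z` at `x` -/
noncomputable def curv (g : V → V →L[ℝ] V →L[ℝ] ℝ) (x X Y Z : V) : V :=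
  fderiv ℝ (fun y => chr g y Y Z) x X - fderiv ℝ (fun y => chr g y X Z) x Y
    + chr g x X (chr g x Y Z) - chr g x Y (chr g x X Z)

/-- nonpositive sectional curvature -/
def NonposCurv (g : V → V →L[ℝ] V →L[ℝ] ℝ) : Prop :=
  ∀ x X Y, g x (curv g x X Y Y) X ≤ 0

/-- covariant derivative of the vector field `W` along the curve `c` -/
noncomputable def cov (g : V → V →L[ℝ] V →L[ℝ] ℝ) (c W : ℝ → V) (s : ℝ) : V :=
  deriv W s + chr g (c s) (deriv c s) (W s)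

def IsGeodesic (g : V → V →L[ℝ] V →L[ℝ] ℝ) (c : ℝ → V) : Prop :=
  ContDiff ℝ 2 c ∧ ∀ s, cov g c (deriv c) s = 0

def IsJacobi (g : V → V →L[ℝ] V →L[ℝ] ℝ) (c J : ℝ → V) : Prop :=
  ContDiff ℝ 2 J ∧
    ∀ s, cov g c (cov g c J) s + curv g (c s) (J s) (deriv c s) (deriv c s) = 0

/-- no nonzero Jacobi field along a geodesic vanishes at two distinct times -/
def NoConj (g : V → V →L[ℝ] V →L[ℝ] ℝ) : Prop :=
  ∀ c J, IsGeodesic g c → IsJacobi g c J → ∀ a b, a ≠ b → J a = 0 → J b = 0 → J = 0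

/-- a group of diffeomorphisms acting freely, properly discontinuously and cocompactly -/
structure IsDeck (Γ : Subgroup (Equiv.Perm V)) : Prop where
  smooth : ∀ γ ∈ Γ, ContDiff ℝ ∞ γ
  free : ∀ γ ∈ Γ, ∀ x, γ x = x → γ = 1
  proper : ∀ K : Set V, IsCompact K → {γ : Equiv.Perm V | γ ∈ Γ ∧ ∃ x ∈ K, γ x ∈ K}.Finite
  cocompact : ∃ K : Set V, IsCompact K ∧ ∀ x, ∃ γ ∈ Γ, γ x ∈ K

/-- the group acts by isometries of `g` -/
def Invariant (Γ : Subgroup (Equiv.Perm V)) (g : V → V →L[ℝ] V →L[ℝ] ℝ) : Prop :=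
  ∀ γ ∈ Γ, ∀ x v w, g (γ x) (fderiv ℝ γ x v) (fderiv ℝ γ x w) = g x v w

end Vale.Agent.P255
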