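import Mathlib

set_option maxSynthPendingDepth 3
set_option linter.deprecated false

namespace Vale.Agent.P255

open scoped ContDiff Topology NNReal
open Set Filter

theorem flow_e0 {E : Type} [NormedAddCommGroup E] [NormedSpace ℝ E] [CompleteSpace E]
    (f : ℝ → E → E) (K L : ℝ≥0) (hK : ∀ t ∈ Icc (-1 : ℝ) 2, LipschitzWith K (f t))
    (hc : ∀ x, ContinuousOn (f · x) (Icc (-1 : ℝ) 2))
    (hL : ∀ t ∈ Icc (-1 : ℝ) 2, ∀ x, ‖f t x‖ ≤ L) (y : E) :
    ∃ α : ℝ → E, α 0 = y ∧ ContinuousOn α (Icc (-1 : ℝ) 2) ∧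
      ∀ t ∈ Icc (0 : ℝ) 1, HasDerivAt α (f t (α t)) t := by
  have h : IsPicardLindelof f (tmin := -1) (tmax := 2) ⟨0, by norm_num⟩ y (2 * L) 0 L K :=
    ⟨fun t ht => (hK t ht).lipschitzOnWith, fun x _ => hc x, fun t ht x _ => hL t ht x, by
      norm_num [mul_comm]⟩
  obtain ⟨α, h0, h1⟩ := h.exists_eq_forall_mem_Icc_hasDerivWithinAt₀
  refine ⟨α, h0, fun t ht => (h1 t ht).continuousWithinAt, fun t ht => ?_⟩
  exact (h1 t ⟨by linarith [ht.1], by linarith [ht.2]⟩).hasDerivAt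
    (Icc_mem_nhds (by linarith [ht.1]) (by linarith [ht.2]))

theorem flow_lin {W : Type} [NormedAddCommGroup W] [NormedSpace ℝ W] [FiniteDimensional ℝ W]
    (A : ℝ → W →L[ℝ] W) (hA : ContinuousOn A (Icc (-1 : ℝ) 2)) (K : ℝ≥0)
    (hK : ∀ t, ‖A t‖ ≤ K) :
    ∃ Φ : ℝ → W →L[ℝ] W, Φ 0 = ContinuousLinearMap.id ℝ W ∧
      ∀ t ∈ Icc (0 : ℝ) 1, HasDerivAt Φ ((A t).comp (Φ t)) t := by
  have : CompleteSpace W := FiniteDimensional.complete ℝ W
  let χ : ContDiffBump (0 : W →L[ℝ] W) :=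
    ⟨Real.exp K, Real.exp K + 1, Real.exp_pos _, lt_add_one _⟩
  let G : (W →L[ℝ] W) → W →L[ℝ] W := fun Ψ => χ Ψ • Ψ
  have hG : ContDiff ℝ 1 G := χ.contDiff.smul contDiff_id
  have hGc : HasCompactSupport G := χ.hasCompactSupport.smul_right (f' := fun Ψ => Ψ)
  obtain ⟨KG, hKG⟩ := hG.lipschitzWith_of_hasCompactSupport hGc one_ne_zero
  obtain ⟨LG, hLG⟩ := hGc.exists_bound_of_continuous hG.continuous
  obtain ⟨Φ, h0, -, h1⟩ := flow_e0 (fun t Ψ => (A t).comp (G Ψ)) (K * KG) (K * LG.toNNReal)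
    (fun t _ => LipschitzWith.of_dist_le_mul fun a b => by
      rw [dist_eq_norm, ← ContinuousLinearMap.comp_sub]
      refine (ContinuousLinearMap.opNorm_comp_le _ _).trans ?_
      rw [NNReal.coe_mul, mul_assoc]
      refine mul_le_mul (hK t) ?_ (norm_nonneg _) K.2
      rw [← dist_eq_norm]
      exact hKG.dist_le_mul a b)
    (fun x => hA.clm_comp continuousOn_const)
    (fun t _ x => (ContinuousLinearMap.opNorm_comp_le _ _).trans (by
      rw [NNReal.coe_mul]
      exact mul_le_mul (hK t) ((hLG x).trans (Real.le_coe_toNNReal _)) (norm_nonneg _) K.2))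
    (ContinuousLinearMap.id ℝ W)
  refine ⟨Φ, h0, fun t ht => ?_⟩
  have hb := norm_le_gronwallBound_of_norm_deriv_right_le (f := Φ)
    (f' := fun t => (A t).comp (G (Φ t))) (δ := 1) (K := K) (ε := 0) (a := 0) (b := 1)
    (fun t ht => (h1 t ht).continuousAt.continuousWithinAt)
    (fun t ht => (h1 t (Ico_subset_Icc_self ht)).hasDerivWithinAt)
    (by rw [h0]; exact ContinuousLinearMap.norm_id_le)
    (fun t _ => by
      rw [add_zero]
      refine (ContinuousLinearMap.opNorm_comp_le _ _).trans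
        (mul_le_mul (hK t) ?_ (norm_nonneg _) K.2)
      simp only [G, norm_smul, Real.norm_eq_abs, abs_of_nonneg χ.nonneg]
      exact mul_le_of_le_one_left (norm_nonneg _) χ.le_one) t ht
  rw [gronwallBound_ε0, one_mul, sub_zero] at hb
  have h2 : χ (Φ t) = 1 := χ.one_of_mem_closedBall (by
    rw [mem_closedBall_zero_iff]
    exact hb.trans (Real.exp_le_exp.2 (mul_le_of_le_one_right K.2 ht.2)))
  have := h1 t ht
  simpa only [G, h2, one_smul] using this

theorem flow_exists {W : Type} [NormedAddCommGroup W] [NormedSpace ℝ W] [FiniteDimensional ℝ W]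
    {F : W → W} (hF : ContDiff ℝ 1 F) (hc : HasCompactSupport F) :
    ∃ φ : W → ℝ → W, (∀ y, φ y 0 = y) ∧
      (∀ y, ∀ t ∈ Icc (0 : ℝ) 1, HasDerivAt (φ y) (F (φ y t)) t) ∧
      ∀ y, ∃ Φ : ℝ → W →L[ℝ] W, (∀ h, Φ 0 h = h) ∧
        (∀ h, ∀ t ∈ Icc (0 : ℝ) 1,
          HasDerivAt (fun s => Φ s h) (fderiv ℝ F (φ y t) (Φ t h)) t) ∧
        HasStrictFDerivAt (fun y' => φ y' 1) (Φ 1) y := by
  have : CompleteSpace W := FiniteDimensional.complete ℝ W
  have hD : Continuous (fderiv ℝ F) := hF.continuous_fderiv one_ne_zero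
  have hDc : HasCompactSupport (fderiv ℝ F) := hc.fderiv ℝ
  have hFd := hF.differentiable one_ne_zero
  obtain ⟨C, hC⟩ := hDc.exists_bound_of_continuous hD
  let K : ℝ≥0 := C.toNNReal + 1
  have hK1 : (1 : ℝ) ≤ K := by simp [K]
  have hK : ∀ x, ‖fderiv ℝ F x‖ ≤ K := fun x => (hC x).trans (by
    simp only [K, NNReal.coe_add, NNReal.coe_one]
    linarith [Real.le_coe_toNNReal C])
  have hLip : LipschitzWith K F := lipschitzWith_of_nnnorm_fderiv_le hFd fun x => hK x
  obtain ⟨L, hL⟩ := hc.exists_bound_of_continuous hF.continuous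
  choose φ h0 hφc hφ using fun y => flow_e0 (fun _ => F) K L.toNNReal (fun _ _ => hLip)
    (fun _ => continuousOn_const) (fun _ _ x => (hL x).trans (Real.le_coe_toNNReal _)) y
  refine ⟨φ, h0, hφ, fun y => ?_⟩
  obtain ⟨Φ, p0, p1⟩ := flow_lin (fun t => fderiv ℝ F (φ y t)) (hD.comp_continuousOn (hφc y)) K
    fun t => hK _
  have p2 : ∀ h, ∀ t ∈ Icc (0 : ℝ) 1,
      HasDerivAt (fun s => Φ s h) (fderiv ℝ F (φ y t) (Φ t h)) t := fun h t ht => by
    simpa using (p1 t ht).clm_apply (hasDerivAt_const t h)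
  refine ⟨Φ, fun h => by simp [p0], p2, ?_⟩
  have hdist : ∀ a b, ∀ t ∈ Icc (0 : ℝ) 1, dist (φ a t) (φ b t) ≤ dist a b * Real.exp K :=
    fun a b t ht => by
    have := dist_le_of_trajectories_ODE (v := fun _ => F) (f := φ a) (g := φ b) (a := 0) (b := 1)
      (δ := dist a b) (fun _ => hLip) (fun t ht => (hφ a t ht).continuousAt.continuousWithinAt)
      (fun t ht => (hφ a t (Ico_subset_Icc_self ht)).hasDerivWithinAt)
      (fun t ht => (hφ b t ht).continuousAt.continuousWithinAt)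
      (fun t ht => (hφ b t (Ico_subset_Icc_self ht)).hasDerivWithinAt)
      (by rw [h0, h0]) t ht
    refine this.trans (mul_le_mul_of_nonneg_left (Real.exp_le_exp.2 ?_) dist_nonneg)
    rw [sub_zero]
    exact mul_le_of_le_one_right K.2 ht.2
  have hU : UniformContinuous (fderiv ℝ F) := hDc.uniformContinuous_of_continuous hD
  refine HasStrictFDerivAt.of_isLittleO (Asymptotics.isLittleO_iff.2 fun c hc0 => ?_)
  have hE := Real.exp_pos K
  set E := Real.exp K with hEdef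
  obtain ⟨δ, hδ, hU⟩ := Metric.uniformContinuous_iff.1 hU (c / E ^ 2) (by positivity)
  have hb : Metric.ball y (δ / E) ∈ 𝓝 y := Metric.ball_mem_nhds _ (by positivity)
  filter_upwards [prod_mem_nhds hb hb] with ⟨a, b⟩ ⟨ha, hb⟩
  have hin : ∀ a ∈ Metric.ball y (δ / E), ∀ t ∈ Icc (0 : ℝ) 1, φ a t ∈ Metric.ball (φ y t) δ :=
    fun a ha t ht => (hdist a y t ht).trans_lt ((lt_div_iff₀ hE).1 ha)
  have hg := norm_le_gronwallBound_of_norm_deriv_right_le
    (f := fun t => φ a t - φ b t - Φ t (a - b))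
    (f' := fun t => F (φ a t) - F (φ b t) - fderiv ℝ F (φ y t) (Φ t (a - b))) (δ := 0) (K := K)
    (ε := c / E ^ 2 * (‖a - b‖ * E)) (a := 0) (b := 1)
    (fun t ht => (((hφ a t ht).sub (hφ b t ht)).sub (p2 _ t ht)).continuousAt.continuousWithinAt)
    (fun t ht => (((hφ a t (Ico_subset_Icc_self ht)).sub (hφ b t (Ico_subset_Icc_self ht))).sub
      (p2 _ t (Ico_subset_Icc_self ht))).hasDerivWithinAt)
    (by simp [h0, p0])
    (fun t ht => by
      have ht' := Ico_subset_Icc_self ht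
      have m := (convex_ball (φ y t) δ).norm_image_sub_le_of_norm_fderiv_le' (𝕜 := ℝ) (f := F)
        (φ := fderiv ℝ F (φ y t)) (C := c / E ^ 2) (fun x _ => hFd x)
        (fun x hx => by rw [← dist_eq_norm]; exact (hU hx).le) (hin b hb t ht') (hin a ha t ht')
      have e : F (φ a t) - F (φ b t) - fderiv ℝ F (φ y t) (Φ t (a - b))
          = fderiv ℝ F (φ y t) (φ a t - φ b t - Φ t (a - b))
            + (F (φ a t) - F (φ b t) - fderiv ℝ F (φ y t) (φ a t - φ b t)) := by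
        rw [map_sub _ (φ a t - φ b t)]
        abel
      rw [e]
      refine (norm_add_le _ _).trans (add_le_add ((ContinuousLinearMap.le_opNorm _ _).trans
        (mul_le_mul_of_nonneg_right (hK _) (norm_nonneg _))) (m.trans ?_))
      refine mul_le_mul_of_nonneg_left ?_ (by positivity)
      rw [← dist_eq_norm, ← dist_eq_norm]
      exact hdist a b t ht') 1 ⟨zero_le_one, le_rfl⟩
  refine hg.trans ?_
  have hK0 : (K : ℝ) ≠ 0 := by linarith
  rw [gronwallBound_of_K_ne_0 hK0]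
  simp only [sub_zero, mul_one, zero_mul, zero_add, ← hEdef]
  have h1 : c / E ^ 2 * (‖a - b‖ * E) / K ≤ c / E ^ 2 * (‖a - b‖ * E) :=
    div_le_self (by positivity) hK1
  have h2 : c / E ^ 2 * (‖a - b‖ * E) * E = c * ‖a - b‖ := by field_simp
  rw [← h2]
  have h3 : 1 ≤ E := Real.one_le_exp K.2
  exact mul_le_mul h1 (by linarith) (by linarith) (by positivity)

end Vale.Agent.P255
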