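import Vale.Agent.P255.Bnd
import Vale.Agent.P255.Flow

set_option maxSynthPendingDepth 3
set_option linter.deprecated false

namespace Vale.Agent.P255

open scoped ContDiff Topology
open Set Filter

variable {V : Type} [NormedAddCommGroup V] [NormedSpace ℝ V] [FiniteDimensional ℝ V]
  {g : V → V →L[ℝ] V →L[ℝ] ℝ}

/-- a geodesic segment with its velocity -/
def Geo (g : V → V →L[ℝ] V →L[ℝ] ℝ) (c v : ℝ → V) : Prop :=
  ∀ t ∈ Icc (0 : ℝ) 1, HasDerivAt c (v t) t ∧ HasDerivAt v (-chrL g (c t) (v t) (v t)) t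

/-- the geodesic vector field -/
noncomputable def expF (g : V → V →L[ℝ] V →L[ℝ] ℝ) (p : V × V) : V × V :=
  (p.2, -chrL g p.1 p.2 p.2)

theorem exp_smooth (hg : IsMetric g) : ContDiff ℝ 1 (expF g) :=
  contDiff_snd.prodMk ((((hg.smooth_chr.of_le (by simp)).comp contDiff_fst).clm_apply
    contDiff_snd).clm_apply contDiff_snd).neg

theorem exp_fderiv (hg : IsMetric g) (p q : V × V) :
    fderiv ℝ (expF g) p q = (q.2, -((2 : ℝ) • chrL g p.1 p.2 q.2)
      - fderiv ℝ (chrL g) p.1 q.1 p.2 p.2) := by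
  have h : HasFDerivAt (expF g) _ p := hasFDerivAt_snd.prodMk
    ((((hg.diff_chr p.1).hasFDerivAt.comp p hasFDerivAt_fst).clm_apply hasFDerivAt_snd).clm_apply
      hasFDerivAt_snd).neg
  rw [h.fderiv]
  refine Prod.ext rfl ?_
  simp only [ContinuousLinearMap.prod_apply, ContinuousLinearMap.neg_apply,
    ContinuousLinearMap.add_apply, ContinuousLinearMap.comp_apply, ContinuousLinearMap.flip_apply,
    ContinuousLinearMap.coe_fst', ContinuousLinearMap.coe_snd', Function.comp_apply, two_smul,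
    hg.chr_symm _ q.2 p.2]
  abel

theorem exp_const (hg : IsMetric g) {c v : ℝ → V} {χ : ℝ → ℝ}
    (h : ∀ t ∈ Icc (0 : ℝ) 1, HasDerivAt c (χ t • v t) t ∧
      HasDerivAt v (χ t • -chrL g (c t) (v t) (v t)) t) :
    ∀ t ∈ Icc (0 : ℝ) 1, g (c t) (v t) (v t) = g (c 0) (v 0) (v 0) := by
  have h1 : ∀ t ∈ Icc (0 : ℝ) 1, HasDerivAt (fun t => g (c t) (v t) (v t)) 0 t := fun t ht =>
    (hg.hasDerivAt_g (h t ht).1 (h t ht).2 (h t ht).2).congr_deriv (by simp)
  exact constant_of_has_deriv_right_zero (fun t ht => (h1 t ht).continuousAt.continuousWithinAt)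
    fun t ht => (h1 t (Ico_subset_Icc_self ht)).hasDerivWithinAt

theorem Geo.speed (hg : IsMetric g) {c v : ℝ → V} (h : Geo g c v) :
    ∀ t ∈ Icc (0 : ℝ) 1, g (c t) (v t) (v t) = g (c 0) (v 0) (v 0) :=
  exp_const hg (χ := fun _ => 1) fun t ht => by simpa using h t ht

theorem Geo.unique (hg : IsMetric g) {c v c' v' : ℝ → V} (h : Geo g c v) (h' : Geo g c' v')
    (h0 : c 0 = c' 0) (h1 : v 0 = v' 0) : c 1 = c' 1 := by
  have : ProperSpace (V × V) := FiniteDimensional.proper_real _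
  have d : ∀ {c v : ℝ → V}, Geo g c v → ∀ t ∈ Icc (0 : ℝ) 1,
      HasDerivAt (fun t => (c t, v t)) (expF g (c t, v t)) t := fun h t ht =>
    (h t ht).1.prodMk (h t ht).2
  have k : ∀ {c v : ℝ → V}, Geo g c v → ContinuousOn (fun t => (c t, v t)) (Icc (0 : ℝ) 1) :=
    fun h t ht => (d h t ht).continuousAt.continuousWithinAt
  obtain ⟨R, hR⟩ := isCompact_Icc.exists_bound_of_continuousOn (k h)
  obtain ⟨R', hR'⟩ := isCompact_Icc.exists_bound_of_continuousOn (k h')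
  obtain ⟨K, hK⟩ := (exp_smooth hg).contDiffOn.exists_lipschitzOnWith one_ne_zero
    (convex_closedBall 0 (max R R')) (isCompact_closedBall 0 _)
  have := ODE_solution_unique_of_mem_Icc_right (v := fun _ => expF g)
    (s := fun _ => Metric.closedBall 0 (max R R')) (fun _ _ => hK) (k h)
    (fun t ht => (d h t (Ico_subset_Icc_self ht)).hasDerivWithinAt)
    (fun t ht => mem_closedBall_zero_iff.2
      ((hR t (Ico_subset_Icc_self ht)).trans (le_max_left _ _))) (k h')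
    (fun t ht => (d h' t (Ico_subset_Icc_self ht)).hasDerivWithinAt)
    (fun t ht => mem_closedBall_zero_iff.2
      ((hR' t (Ico_subset_Icc_self ht)).trans (le_max_right _ _))) (Prod.ext h0 h1)
    (show (1 : ℝ) ∈ _ from ⟨zero_le_one, le_rfl⟩)
  exact congrArg Prod.fst this

theorem exp_cut {Γ : Subgroup (Equiv.Perm V)} (hΓ : IsDeck Γ) (hg : IsMetric g)
    (hi : Invariant Γ g) (x : V) (ρ : ℝ) :
    ∃ φ : V × V → ℝ → V × V, ∀ u, g x u u ≤ ρ ^ 2 → φ (x, u) 0 = (x, u) ∧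
      Geo g (fun t => (φ (x, u) t).1) (fun t => (φ (x, u) t).2) ∧
      ∃ Φ : ℝ → (V × V) →L[ℝ] V × V, (∀ h, Φ 0 h = h) ∧
        (∀ h, ∀ t ∈ Icc (0 : ℝ) 1,
          HasDerivAt (fun s => Φ s h) (fderiv ℝ (expF g) (φ (x, u) t) (Φ t h)) t) ∧
        HasStrictFDerivAt (fun y' => φ y' 1) (Φ 1) (x, u) := by
  obtain ⟨K, hK, hb⟩ := bnd hΓ hg hi (isCompact_singleton (x := x)) ρ
  obtain ⟨m, hm, hmK⟩ := bnd_m hg hK
  obtain ⟨R, hR⟩ := hK.isBounded.subset_ball (0 : V)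
  have hR' : 0 < max R (ρ ^ 2 / m + 1) := lt_max_of_lt_right (by positivity)
  let χ : ContDiffBump (0 : V × V) := ⟨max R (ρ ^ 2 / m + 1), _, hR', lt_add_one _⟩
  obtain ⟨φ, h0, h1, h2⟩ := flow_exists (F := fun p => χ p • expF g p)
    (χ.contDiff.smul (exp_smooth hg)) (χ.hasCompactSupport.smul_right (f' := expF g))
  refine ⟨φ, fun u hu => ?_⟩
  have a1 : ∀ t ∈ Icc (0 : ℝ) 1,
      HasDerivAt (fun t => (φ (x, u) t).1) (χ (φ (x, u) t) • (φ (x, u) t).2) t ∧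
      HasDerivAt (fun t => (φ (x, u) t).2)
        (χ (φ (x, u) t) • -chrL g (φ (x, u) t).1 (φ (x, u) t).2 (φ (x, u) t).2) t := fun t ht =>
    ⟨(ContinuousLinearMap.fst ℝ V V).hasFDerivAt.comp_hasDerivAt t (h1 _ t ht),
      (ContinuousLinearMap.snd ℝ V V).hasFDerivAt.comp_hasDerivAt t (h1 _ t ht)⟩
  have a2 : ∀ t ∈ Icc (0 : ℝ) 1, g (φ (x, u) t).1 (φ (x, u) t).2 (φ (x, u) t).2 ≤ ρ ^ 2 :=
    fun t ht => by
    have := exp_const hg a1 t ht
    simp only [h0] at this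
    rwa [this]
  have a3 := hb _ _ (by simp [h0]) (fun t ht => (a1 t ht).1) fun t ht => by
    simp only [map_smul, ContinuousLinearMap.smul_apply, smul_eq_mul]
    have b1 := hg.nonneg (φ (x, u) t).1 (φ (x, u) t).2
    have b2 : 0 ≤ χ (φ (x, u) t) := χ.nonneg
    have b3 : χ (φ (x, u) t) ≤ 1 := χ.le_one
    exact (mul_le_of_le_one_left (mul_nonneg b2 b1) b3).trans
      ((mul_le_of_le_one_left b1 b3).trans (a2 t ht))
  have a4 : ∀ t ∈ Icc (0 : ℝ) 1, χ =ᶠ[𝓝 (φ (x, u) t)] 1 := fun t ht =>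
    χ.eventuallyEq_one_of_mem_ball (by
      rw [mem_ball_zero_iff, Prod.norm_def]
      refine max_lt_max (mem_ball_zero_iff.1 (hR (a3 t ht))) ?_
      have h3 : ‖(φ (x, u) t).2‖ ^ 2 ≤ ρ ^ 2 / m := by
        rw [le_div_iff₀ hm]
        linarith [hmK _ (a3 t ht) (φ (x, u) t).2, a2 t ht]
      nlinarith [sq_nonneg (‖(φ (x, u) t).2‖ - 1), sq_nonneg ‖(φ (x, u) t).2‖])
  obtain ⟨Φ, p0, p1, p2⟩ := h2 (x, u)
  refine ⟨h0 _, fun t ht => ?_, Φ, p0, fun h t ht => ?_, p2⟩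
  · have := a1 t ht
    rwa [(a4 t ht).eq_of_nhds, Pi.one_apply, one_smul, one_smul] at this
  · have e : (fun p => χ p • expF g p) =ᶠ[𝓝 (φ (x, u) t)] expF g :=
      (a4 t ht).mono fun p hp => by simp [hp]
    rw [← e.fderiv_eq]
    exact p1 h t ht

theorem exp_rho (hg : IsMetric g) (x u : V) : g x u u < (g x u u + 1) ^ 2 := by
  nlinarith [hg.nonneg x u]

theorem geo_exists {Γ : Subgroup (Equiv.Perm V)} (hΓ : IsDeck Γ) (hg : IsMetric g)
    (hi : Invariant Γ g) (x u : V) : ∃ c v : ℝ → V, c 0 = x ∧ v 0 = u ∧ Geo g c v := by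
  obtain ⟨φ, h⟩ := exp_cut hΓ hg hi x (g x u u + 1)
  obtain ⟨h0, h1, -⟩ := h u (exp_rho hg x u).le
  exact ⟨_, _, by simp [h0], by simp [h0], h1⟩

theorem exp_exists {Γ : Subgroup (Equiv.Perm V)} (hΓ : IsDeck Γ) (hg : IsMetric g)
    (hi : Invariant Γ g) (hK : NonposCurv g) (x : V) :
    ∃ e : V → V, (∀ c v, Geo g c v → c 0 = x → e (v 0) = c 1) ∧
      ∀ u, ∃ D : V →L[ℝ] V, HasStrictFDerivAt e D u ∧ ∀ h, g x h h ≤ g (e u) (D h) (D h) := by
  choose c v hc hv hG using geo_exists hΓ hg hi x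
  have he : ∀ c' v', Geo g c' v' → c' 0 = x → c (v' 0) 1 = c' 1 := fun c' v' h h0 =>
    (hG _).unique hg h (by rw [hc, h0]) (hv _)
  refine ⟨fun u => c u 1, he, fun u => ?_⟩
  obtain ⟨φ, h⟩ := exp_cut hΓ hg hi x (g x u u + 1)
  have he' : ∀ u', g x u' u' ≤ (g x u u + 1) ^ 2 → c u' 1 = (φ (x, u') 1).1 := fun u' hu' => by
    obtain ⟨h0, h1, -⟩ := h u' hu'
    simpa [h0] using he _ _ h1 (by simp [h0])
  obtain ⟨h0, h1, Φ, p0, p1, p2⟩ := h u (exp_rho hg x u).le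
  have hn : ∀ᶠ u' in 𝓝 u, g x u' u' < (g x u u + 1) ^ 2 :=
    (((g x).continuous.clm_apply continuous_id).tendsto u).eventually_lt_const (exp_rho hg x u)
  have d1 := (p2.comp u ((hasStrictFDerivAt_const x u).prodMk (hasStrictFDerivAt_id u))).fst
  refine ⟨_, d1.congr_of_eventuallyEq (hn.mono fun u' hu' => (he' u' hu'.le).symm), fun a => ?_⟩
  have := rauch hg hK (c := fun t => (φ (x, u) t).1) (v := fun t => (φ (x, u) t).2)
    (J := fun t => (Φ t (0, a)).1) (w := fun t => (Φ t (0, a)).2)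
    (fun t ht => by
      have q := p1 (0, a) t ht
      rw [exp_fderiv hg] at q
      exact ⟨(h1 t ht).1, (h1 t ht).2,
        (ContinuousLinearMap.fst ℝ V V).hasFDerivAt.comp_hasDerivAt t q,
        (ContinuousLinearMap.snd ℝ V V).hasFDerivAt.comp_hasDerivAt t q⟩) (by simp [p0])
  simp only [h0, p0] at this
  simp only [he' u (exp_rho hg x u).le]
  exact this

end Vale.Agent.P255
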