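import Vale.Agent.P255.Nat

set_option maxSynthPendingDepth 3
set_option linter.deprecated false

namespace Vale.Agent.P255

open scoped ContDiff Topology
open Set Filter

variable {V : Type} [NormedAddCommGroup V] [NormedSpace ℝ V] [FiniteDimensional ℝ V]
  {g : V → V →L[ℝ] V →L[ℝ] ℝ}

theorem LM.monotone {Q : ℝ → ℝ} (h : ∀ s, ∃ lam, 0 ≤ lam ∧ LM Q s lam) : Monotone Q := by
  intro a b hab
  have key : ∀ ε > 0, Q a + ε * a ≤ Q b + ε * b := by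
    intro ε hε
    let T := {t ∈ Icc a b | Q a + ε * a ≤ Q t + ε * t}
    have hne : T.Nonempty := ⟨a, left_mem_Icc.2 hab, le_rfl⟩
    have hbd : BddAbove T := ⟨b, fun t ht => ht.1.2⟩
    have hl := isLUB_csSup hne hbd
    have h1 : a ≤ sSup T := hl.1 ⟨left_mem_Icc.2 hab, le_rfl⟩
    have h2 : sSup T ≤ b := hl.2 fun t ht => ht.1.2
    obtain ⟨lam, h0, hr, hL⟩ := h (sSup T)
    have h3 : Q a + ε * a ≤ Q (sSup T) + ε * sSup T := by
      refine le_of_forall_pos_le_add fun η hη => ?_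
      have h4 : ∀ᶠ s in 𝓝[≤] sSup T, Q s ≤ Q (sSup T) + η := by
        rw [← Iio_union_right, nhdsWithin_union, eventually_sup, nhdsWithin_singleton,
          eventually_pure]
        exact ⟨hL η hη, by linarith⟩
      obtain ⟨s, hs, hs'⟩ := ((hl.frequently_mem hne).and_eventually h4).exists
      have := mul_le_mul_of_nonneg_left (hl.1 hs) hε.le
      linarith [hs.2]
    rcases h2.eq_or_lt with h5 | h5
    · rwa [h5] at h3
    obtain ⟨s, hs, hs'⟩ := ((hr ε hε).and (Ioc_mem_nhdsGT h5)).exists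
    have h6 : s ∈ T := ⟨⟨h1.trans hs'.1.le, hs'.2⟩, by
      nlinarith [mul_nonneg h0 (sub_pos.2 hs'.1).le]⟩
    exact absurd (hl.1 h6) (not_le.2 hs'.1)
  refine le_of_forall_pos_le_add fun η hη => ?_
  have h1 := key (η / (b - a + 1)) (div_pos hη (by linarith))
  have h2 : η / (b - a + 1) * (b - a) ≤ η := by
    rw [div_mul_eq_mul_div, div_le_iff₀ (by linarith)]
    nlinarith
  linarith

theorem LM.congr2 {Q Q' : ℝ → ℝ} {s lam : ℝ} (h : LM Q s lam) (e : Q =ᶠ[𝓝 s] Q') : LM Q' s lam := by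
  have e0 := e.eq_of_nhds
  refine ⟨fun ε hε => ?_, fun ε hε => ?_⟩
  · filter_upwards [h.1 ε hε, e.filter_mono nhdsWithin_le_nhds] with t h1 h2
    rwa [← e0, ← h2]
  · filter_upwards [h.2 ε hε, e.filter_mono nhdsWithin_le_nhds] with t h1 h2
    rwa [← e0, ← h2]

omit [FiniteDimensional ℝ V] in
theorem glue_chain {Γ : Subgroup (Equiv.Perm V)} (hsm : ∀ γ ∈ Γ, ContDiff ℝ ∞ γ)
    {γ δ : Equiv.Perm V} (hγ : γ ∈ Γ) (hδ : δ ∈ Γ) (z a : V) :
    fderiv ℝ (γ * δ) z a = fderiv ℝ γ (δ z) (fderiv ℝ δ z a) := by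
  rw [Equiv.Perm.coe_mul, fderiv_comp _ ((hsm γ hγ).differentiable (by simp) _)
    ((hsm δ hδ).differentiable (by simp) _)]
  rfl

omit [FiniteDimensional ℝ V] in
theorem glue_ne {Γ : Subgroup (Equiv.Perm V)} (hsm : ∀ γ ∈ Γ, ContDiff ℝ ∞ γ)
    {γ : Equiv.Perm V} (hγ : γ ∈ Γ) (z : V) {a : V} (ha : a ≠ 0) : fderiv ℝ γ z a ≠ 0 := by
  intro h
  have := glue_chain hsm (inv_mem hγ) hγ z a
  rw [h, map_zero, inv_mul_cancel, Equiv.Perm.coe_one, fderiv_id] at this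
  exact ha this

theorem glue {Γ : Subgroup (Equiv.Perm V)} (hsm : ∀ γ ∈ Γ, ContDiff ℝ ∞ γ) {Ω : Set V}
    (hΩ : IsOpen Ω) (hcov : ∀ z, ∃ γ ∈ Γ, γ z ∈ Ω) (hg : IsMetric g) {S : V → V → V → ℝ}
    (hS : ∀ x v, S x v 0 = 0)
    (hc : ∀ γ ∈ Γ, ∀ z ∈ Ω, γ z ∈ Ω → IsoAt g g γ z ∧
      ∀ a b, S (γ z) (fderiv ℝ γ z a) (fderiv ℝ γ z b) = S z a b) (hL : Lyap g S) :
    ∃ g' : V → V →L[ℝ] V →L[ℝ] ℝ, IsMetric g' ∧ Invariant Γ g' ∧ NoConj g' := by
  choose γ hγ hγΩ using hcov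
  let P : Equiv.Perm V → V → V →L[ℝ] V →L[ℝ] ℝ := fun δ z =>
    (g (δ z)).bilinearComp (fderiv ℝ δ z) (fderiv ℝ δ z)
  have hP : ∀ δ ∈ Γ, ContDiff ℝ ∞ (P δ) := fun δ hδ => by
    have h1 : ContDiff ℝ ∞ (fderiv ℝ δ) := (hsm δ hδ).fderiv_right (m := ∞) (by simp)
    refine contDiff_clm_apply_iff.2 fun v => contDiff_clm_apply_iff.2 fun w => ?_
    exact ((hg.smooth.comp (hsm δ hδ)).clm_apply (h1.clm_apply contDiff_const)).clm_apply
      (h1.clm_apply contDiff_const)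
  have ind : ∀ δ ∈ Γ, ∀ z, δ z ∈ Ω → P (γ z) z = P δ z ∧ ∀ a b,
      S (γ z z) (fderiv ℝ (γ z) z a) (fderiv ℝ (γ z) z b) =
        S (δ z) (fderiv ℝ δ z a) (fderiv ℝ δ z b) := by
    intro δ hδ z hz
    have hm : γ z * δ⁻¹ ∈ Γ := mul_mem (hγ z) (inv_mem hδ)
    have e : (γ z * δ⁻¹) (δ z) = γ z z := by simp
    obtain ⟨h1, h2⟩ := hc _ hm _ hz (e ▸ hγΩ z)
    have e2 : ∀ a, fderiv ℝ (γ z) z a = fderiv ℝ (γ z * δ⁻¹) (δ z) (fderiv ℝ δ z a) := fun a => by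
      rw [← glue_chain hsm hm hδ, inv_mul_cancel_right]
    refine ⟨?_, fun a b => ?_⟩
    · ext a b
      simp only [P, ContinuousLinearMap.bilinearComp_apply]
      rw [e2, e2 b, ← h1, e]
    · rw [e2, e2 b, ← h2, e]
  have near : ∀ z, ∀ᶠ y in 𝓝 z, γ z y ∈ Ω := fun z =>
    (hsm _ (hγ z)).continuous.continuousAt.preimage_mem_nhds (hΩ.mem_nhds (hγΩ z))
  have hg' : IsMetric fun z => P (γ z) z := by
    refine ⟨contDiff_iff_contDiffAt.2 fun z => (hP _ (hγ z)).contDiffAt.congr_of_eventuallyEq ?_,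
      fun x v w => hg.symm _ _ _, fun x v hv => hg.pos _ _ (glue_ne hsm (hγ x) x hv)⟩
    filter_upwards [near z] with y hy using (ind _ (hγ z) y hy).1
  refine ⟨fun z => P (γ z) z, hg', fun δ hδ x v w => ?_, fun c J hc' hJ => ?_⟩
  · beta_reduce
    rw [(ind (γ (δ x) * δ) (mul_mem (hγ _) hδ) x (hγΩ _)).1]
    simp only [P, ContinuousLinearMap.bilinearComp_apply]
    rw [glue_chain hsm (hγ _) hδ, glue_chain hsm (hγ _) hδ]
    rfl
  have hs := sys_of_jacobi hg' hc' hJ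
  have iso : ∀ z y, γ z y ∈ Ω → ∀ᶠ x in 𝓝 y, IsoAt (fun z => P (γ z) z) g (γ z) x := by
    intro z y hy
    filter_upwards [(hsm _ (hγ z)).continuous.continuousAt.preimage_mem_nhds (hΩ.mem_nhds hy)]
      with x hx a b
    beta_reduce
    rw [(ind _ (hγ z) x hx).1]
    rfl
  let Q : ℝ → ℝ := fun s => Qlc (fun z => P (γ z) z) (c s) (deriv c s) (J s) (deriv J s) -
    S (γ (c s) (c s)) (fderiv ℝ (γ (c s)) (c s) (deriv c s)) (fderiv ℝ (γ (c s)) (c s) (J s))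
  have hQ : ∀ s0, ∃ lam, 0 ≤ lam ∧ (J s0 = 0 → deriv J s0 ≠ 0 → 0 < lam) ∧ LM Q s0 lam := by
    intro s0
    have h1 : ∀ᶠ s in 𝓝 s0, γ (c s0) (c s) ∈ Ω := (hs s0).1.continuousAt.eventually (near _)
    obtain ⟨lam, h2, h3, h4⟩ := hL _ _ _ _ s0 (h1.mono fun s h =>
      (hs s).map hg' hg (hsm _ (hγ (c s0))) (iso _ _ h))
    refine ⟨lam, h2, fun a1 a2 => h3 (by simp [a1]) ?_, h4.congr2 ?_⟩
    · rw [a1, map_zero, zero_add]
      exact glue_ne hsm (hγ _) _ a2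
    · filter_upwards [h1] with s h
      simp only [Q]
      rw [Qlc_map hg' hg (hsm _ (hγ (c s0))) (iso _ _ h), (ind _ (hγ (c s0)) _ h).2]
  have mono : Monotone Q := LM.monotone fun s => by
    obtain ⟨lam, h1, -, h2⟩ := hQ s
    exact ⟨lam, h1, h2⟩
  have zero : ∀ s, J s = 0 → Q s = 0 := fun s h => by simp [Q, Qlc, h, hS]
  have main : ∀ a b, a < b → J a = 0 → J b = 0 → J = 0 := by
    intro a b hab ha hb
    refine sys_unique hg' hs ha ?_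
    by_contra hw
    obtain ⟨lam, -, h1, h2, -⟩ := hQ a
    have h3 := h1 ha hw
    obtain ⟨s, h4, h5⟩ := ((h2 (lam / 2) (by linarith)).and (Ioc_mem_nhdsGT hab)).exists
    have h6 := mono h5.2
    rw [zero b hb] at h6
    rw [zero a ha] at h4
    nlinarith [mul_pos h3 (sub_pos.2 h5.1)]
  intro a b hab ha hb
  rcases lt_or_gt_of_ne hab with h | h
  · exact main a b h ha hb
  · exact main b a h hb ha

end Vale.Agent.P255
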