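import Vale.Agent.P255.Ham

set_option maxSynthPendingDepth 3
set_option linter.deprecated false

namespace Vale.Agent.P255

open scoped ContDiff Topology
open Set Filter

theorem mono_right {F : ℝ → ℝ} {D lam s0 : ℝ} (h : HasDerivAt F D s0) (hl : lam < D) :
    ∀ᶠ s in 𝓝[>] s0, F s0 + lam * (s - s0) < F s := by
  have h1 := (hasDerivAt_iff_tendsto_slope_left_right.1 h).2
  filter_upwards [h1.eventually (lt_mem_nhds hl), self_mem_nhdsWithin] with s hs hs'
  rw [slope_def_field, lt_div_iff₀ (sub_pos.2 hs')] at hs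
  linarith

theorem mono_left {F : ℝ → ℝ} {D s0 : ℝ} (h : HasDerivAt F D s0) (hl : 0 < D) :
    ∀ᶠ s in 𝓝[<] s0, F s < F s0 := by
  have h1 := (hasDerivAt_iff_tendsto_slope_left_right.1 h).1
  filter_upwards [h1.eventually (lt_mem_nhds hl), self_mem_nhdsWithin] with s hs hs'
  rw [slope_def_field] at hs
  have := (div_pos_iff.1 hs).resolve_left fun h => absurd h.2 (not_lt.2 (sub_neg.2 hs').le)
  linarith [this.1]

/-- a branch with derivative at least `lam` -/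
def Br (F : ℝ → ℝ) (s0 lam : ℝ) : Prop := ∃ D, HasDerivAt F D s0 ∧ lam ≤ D

theorem mono_gen {Q F1 F2 : ℝ → ℝ} {s0 lam : ℝ} (h1 : Br F1 s0 lam) (h2 : Br F2 s0 lam)
    (h0 : Q s0 = F1 s0) (hr : ∀ᶠ s in 𝓝[>] s0, Q s = F1 s ∨ (Q s = F2 s ∧ F1 s0 ≤ F2 s0))
    (hl : ∀ᶠ s in 𝓝[<] s0, Q s = F1 s ∨ (Q s = F2 s ∧ F2 s0 ≤ F1 s0)) : LM Q s0 lam := by
  obtain ⟨D1, d1, l1⟩ := h1
  obtain ⟨D2, d2, l2⟩ := h2
  refine ⟨fun ε hε => ?_, fun ε hε => ?_⟩
  · filter_upwards [hr, mono_right d1 (show lam - ε < D1 by linarith),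
      mono_right d2 (show lam - ε < D2 by linarith)] with s hs a1 a2
    rcases hs with hs | hs
    · linarith
    · linarith [hs.1, hs.2]
  · filter_upwards [hl, nhdsWithin_le_nhds (d1.continuousAt.eventually_lt continuousAt_const
      (show F1 s0 < F1 s0 + ε by linarith)), nhdsWithin_le_nhds (d2.continuousAt.eventually_lt
      continuousAt_const (show F2 s0 < F2 s0 + ε by linarith))] with s hs a1 a2
    rcases hs with hs | hs
    · linarith [show F1 s < F1 s0 + ε from a1]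
    · linarith [hs.1, hs.2, show F2 s < F2 s0 + ε from a2]

theorem mono_two {Q F1 F2 : ℝ → ℝ} {s0 lam : ℝ} (h1 : Br F1 s0 lam) (h2 : Br F2 s0 lam)
    (h0 : Q s0 = F1 s0) (h0' : F1 s0 = F2 s0) (h : ∀ᶠ s in 𝓝 s0, Q s = F1 s ∨ Q s = F2 s) :
    LM Q s0 lam :=
  mono_gen h1 h2 h0 (nhdsWithin_le_nhds (h.mono fun _ hs => hs.imp_right fun e => ⟨e, h0'.le⟩))
    (nhdsWithin_le_nhds (h.mono fun _ hs => hs.imp_right fun e => ⟨e, h0'.ge⟩))

theorem mono_one {Q F : ℝ → ℝ} {s0 lam : ℝ} (h1 : Br F s0 lam) (h : ∀ᶠ s in 𝓝 s0, Q s = F s) :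
    LM Q s0 lam := mono_two h1 h1 h.self_of_nhds rfl (h.mono fun _ => Or.inl)

theorem mono_jump {Q F1 F2 t : ℝ → ℝ} {s0 lam t1 κ : ℝ} (h1 : Br F1 s0 lam) (h2 : Br F2 s0 lam)
    (ht : HasDerivAt t t1 s0) (hκ : 0 ≤ κ) (hj : F2 s0 = F1 s0 + κ * t1)
    (h : ∀ᶠ s in 𝓝 s0, (t s ≤ t s0 → Q s = F1 s) ∧ (t s0 < t s → Q s = F2 s)) : LM Q s0 lam := by
  have h0 := h.self_of_nhds.1 le_rfl
  have h' : ∀ᶠ s in 𝓝 s0, Q s = F1 s ∨ Q s = F2 s :=
    h.mono fun s hs => (le_or_gt (t s) (t s0)).imp hs.1 hs.2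
  rcases lt_trichotomy t1 0 with c | c | c
  · refine mono_gen h1 h2 h0 ?_ (nhdsWithin_le_nhds
      (h'.mono fun _ hs => hs.imp_right fun e => ⟨e, by nlinarith⟩))
    filter_upwards [mono_right ht.neg (neg_pos.2 c), nhdsWithin_le_nhds h] with s a1 a2
    exact Or.inl (a2.1 (by simp at a1; linarith))
  · exact mono_two h1 h2 h0 (by simp [hj, c]) h'
  · refine mono_gen h1 h2 h0 (nhdsWithin_le_nhds
      (h'.mono fun _ hs => hs.imp_right fun e => ⟨e, by nlinarith⟩)) ?_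
    filter_upwards [mono_left ht c, nhdsWithin_le_nhds h] with s a1 a2
    exact Or.inl (a2.1 a1.le)

theorem LM.congr {Q Q' : ℝ → ℝ} {s0 lam : ℝ} (h : LM Q s0 lam) (e : ∀ᶠ s in 𝓝 s0, Q' s = Q s) :
    LM Q' s0 lam := by
  refine ⟨fun ε hε => ?_, fun ε hε => ?_⟩
  · filter_upwards [h.1 ε hε, nhdsWithin_le_nhds e] with s a1 a2
    rwa [a2, e.self_of_nhds]
  · filter_upwards [h.2 ε hε, nhdsWithin_le_nhds e] with s a1 a2
    rwa [a2, e.self_of_nhds]

variable {a b c mL mR : ℝ → ℝ} {qL qR : ℝ × ℝ}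

/-- the reduced system at time `s0` -/
structure Red (a b c t t1 τ τ1 : ℝ → ℝ) (ζ : ℝ × ℝ → ℝ → ℝ) (p n : ℝ × ℝ) (s0 : ℝ) : Prop where
  h1 : HasDerivAt t (t1 s0) s0
  h2 : HasDerivAt t1 (-G1 a b c (t s0) p p / 2) s0
  h3 : HasDerivAt τ (τ1 s0) s0
  h4 : HasDerivAt τ1 (-G2 a b c (t s0) p p * τ s0 / 2 - G1 a b c (t s0) p n) s0
  h5 : ∀ q, HasDerivAt (ζ q) (G1 a b c (t s0) p q * τ s0 + G0 a b c (t s0) n q) s0

/-- the quadratic correction -/
def el (Z τ ζ t1 : ℝ) : ℝ := 2 * Z * τ * ζ - t1 * ζ ^ 2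

open Classical in
noncomputable def lamR (a b c t τ τ1 : ℝ → ℝ) (ζ : ℝ × ℝ → ℝ → ℝ) (n : ℝ × ℝ) (s0 : ℝ) : ℝ :=
  if τ s0 = 0 ∧ ∀ q, ζ q s0 = 0 then τ1 s0 ^ 2 + G0 a b c (t s0) n n else 0

theorem Neck.nonneg (hN : Neck a b c mL mR qL qR) (t : ℝ) (p : ℝ × ℝ) : 0 ≤ G0 a b c t p p := by
  by_cases h : p = 0
  · simp [h, G0, bf]
  · exact (hN.pos t p h).le

variable {t t1 τ τ1 : ℝ → ℝ} {ζ : ℝ × ℝ → ℝ → ℝ} {p n : ℝ × ℝ} {s0 : ℝ}

theorem mono_GL (hN : Neck a b c mL mR qL qR) (h : Red a b c t t1 τ τ1 ζ p n s0) {m : ℝ → ℝ}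
    {m1 : ℝ} {q : ℝ × ℝ} (hm : HasDerivAt m m1 (t s0))
    (e1 : G1 a b c (t s0) p p = -2 * m (t s0) * G0 a b c (t s0) p q ^ 2)
    (e2 : G2 a b c (t s0) p p = -2 * m1 * G0 a b c (t s0) p q ^ 2
      - 4 * m (t s0) * G0 a b c (t s0) p q * G1 a b c (t s0) p q)
    (e3 : G0 a b c (t s0) q q * m (t s0) ^ 2 ≤ m1) :
    Br (fun s => τ s * τ1 s + ζ n s - m (t s) * el (G0 a b c (t s) p q) (τ s) (ζ q s) (t1 s)) s0
      (lamR a b c t τ τ1 ζ n s0) := by
  have hZ := (hasDerivAt_G0 hN.sa hN.sb hN.sc (t s0) p q).comp s0 h.h1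
  have hd := ((h.h3.mul h.h4).add (h.h5 n)).sub ((hm.comp s0 h.h1).mul
    ((((hZ.const_mul 2).mul h.h3).mul (h.h5 q)).sub (h.h2.mul ((h.h5 q).pow 2))))
  set Y := G0 a b c (t s0) p q * τ s0 - t1 s0 * ζ q s0 with hY
  have k : ∀ y : ℝ, G0 a b c (t s0) (n - y • q) (n - y • q) = G0 a b c (t s0) n n
      - 2 * y * G0 a b c (t s0) n q + y ^ 2 * G0 a b c (t s0) q q := fun y => by
    simp only [G0, bf, Prod.fst_sub, Prod.snd_sub, Prod.smul_fst, Prod.smul_snd, smul_eq_mul]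
    ring
  refine ⟨(τ1 s0 - m (t s0) * G0 a b c (t s0) p q * ζ q s0) ^ 2
    + G0 a b c (t s0) (n - (m (t s0) * Y) • q) (n - (m (t s0) * Y) • q)
    + (m1 - G0 a b c (t s0) q q * m (t s0) ^ 2) * Y ^ 2, hd.congr_deriv ?_, ?_⟩
  · simp only [Pi.mul_apply, Pi.sub_apply, Pi.pow_apply, Function.comp_apply]
    rw [k, e1, e2, hY]
    push_cast
    ring
  · unfold lamR
    split_ifs with h0
    · simp [hY, h0.1, h0.2]
    · have := hN.nonneg (t s0) (n - (m (t s0) * Y) • q)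
      have := sub_nonneg.2 e3
      positivity

/-- the branch determined by the direction `q` -/
noncomputable def mV (a b c : ℝ → ℝ) (p q : ℝ × ℝ) (t : ℝ) : ℝ :=
  -G1 a b c t p p / (2 * G0 a b c t p q ^ 2)

theorem mono_CC (hN : Neck a b c mL mR qL qR) (h : Red a b c t t1 τ τ1 ζ p n s0) {q : ℝ × ℝ}
    (hC : CC a b c (t s0) p q) :
    Br (fun s => τ s * τ1 s + ζ n s
      - mV a b c p q (t s) * el (G0 a b c (t s) p q) (τ s) (ζ q s) (t1 s)) s0
      (lamR a b c t τ τ1 ζ n s0) := by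
  obtain ⟨hZ, hC⟩ := hC
  have hm := (hasDerivAt_G1 hN.sa hN.sb hN.sc (t s0) p p).neg.div
    (((hasDerivAt_G0 hN.sa hN.sb hN.sc (t s0) p q).pow 2).const_mul 2) (by simpa using hZ)
  refine mono_GL hN h (m := mV a b c p q) hm ?_ ?_ ?_
  · rw [mV]; field_simp
  · simp only [mV, Pi.pow_apply, Pi.neg_apply]
    push_cast
    field_simp
    ring
  · simp only [mV, Pi.pow_apply, Pi.neg_apply]
    push_cast
    rw [← sub_nonneg]
    have : 0 < G0 a b c (t s0) p q ^ 4 := by positivity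
    refine (div_nonneg (neg_nonneg.2 hC) (mul_pos two_pos this).le).trans_eq ?_
    field_simp
    ring

theorem mono_PZ (hN : Neck a b c mL mR qL qR) (h : Red a b c t t1 τ τ1 ζ p n s0) {q : ℝ × ℝ}
    {m : ℝ → ℝ} (hm : Differentiable ℝ m) (hP : PZ a b c m q (t s0)) :
    Br (fun s => τ s * τ1 s + ζ n s - m (t s) * el (G0 a b c (t s) p q) (τ s) (ζ q s) (t1 s)) s0
      (lamR a b c t τ τ1 ζ n s0) :=
  mono_GL hN h (hm _).hasDerivAt (by rw [hP.2.1]; ring) (hP.2.2 p) hP.1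

theorem mono_zero (hN : Neck a b c mL mR qL qR) (h : Red a b c t t1 τ τ1 ζ 0 n s0) :
    Br (fun s => τ s * τ1 s + ζ n s) s0 (lamR a b c t τ τ1 ζ n s0) := by
  simpa using mono_GL hN h (m := fun _ => 0) (q := 0) (hasDerivAt_const _ _)
    (by simp [G1, bf]) (by simp [G2, bf]) (by simp)

noncomputable def muL (a b c mL : ℝ → ℝ) (p q : ℝ × ℝ) (t : ℝ) : ℝ :=
  if t ≤ -1 / 5 then mL t else if 0 < G1 a b c t p p then mV a b c p q t else 0

noncomputable def muR (a b c mR : ℝ → ℝ) (p q : ℝ × ℝ) (t : ℝ) : ℝ :=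
  if 1 / 5 ≤ t then mR t else if G1 a b c t p p < 0 then mV a b c p q t else 0

theorem Neck.muR_left (hN : Neck a b c mL mR qL qR) {t : ℝ} (ht : t ≤ -1 / 5) (p : ℝ × ℝ) :
    muR a b c mR p qR t = 0 := by
  obtain ⟨h1, h2⟩ := hN.L0 t ht
  rw [muR, if_neg (by linarith), if_neg]
  rw [h2.2.1]
  nlinarith [mul_self_nonneg (G0 a b c t p qL)]

theorem Neck.muL_right (hN : Neck a b c mL mR qL qR) {t : ℝ} (ht : 1 / 5 ≤ t) (p : ℝ × ℝ) :
    muL a b c mL p qL t = 0 := by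
  obtain ⟨h1, h2⟩ := hN.R0 t ht
  rw [muL, if_neg (by linarith), if_neg]
  rw [h2.2.1]
  nlinarith [mul_self_nonneg (G0 a b c t p qR)]

theorem mono_mid {u : ℝ} (h1 : -1 / 5 < u) (h2 : u < 1 / 5) :
    (0 ≤ G1 a b c u p p → muL a b c mL p qL u = mV a b c p qL u ∧ muR a b c mR p qR u = 0) ∧
    (G1 a b c u p p ≤ 0 → muL a b c mL p qL u = 0 ∧ muR a b c mR p qR u = mV a b c p qR u) := by
  rw [muL, muR, if_neg (not_le.2 h1), if_neg (not_le.2 h2)]
  constructor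
  · intro h
    rw [if_neg (not_lt.2 h)]
    split_ifs with h'
    · exact ⟨rfl, rfl⟩
    · simp [mV, le_antisymm (not_lt.1 h') h]
  · intro h
    rw [if_neg (not_lt.2 h)]
    split_ifs with h'
    · exact ⟨rfl, rfl⟩
    · simp [mV, le_antisymm h (not_lt.1 h')]

theorem mono_main (hN : Neck a b c mL mR qL qR) (h : Red a b c t t1 τ τ1 ζ p n s0) :
    LM (fun s => τ s * τ1 s + ζ n s
      - muL a b c mL p qL (t s) * el (G0 a b c (t s) p qL) (τ s) (ζ qL s) (t1 s)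
      - muR a b c mR p qR (t s) * el (G0 a b c (t s) p qR) (τ s) (ζ qR s) (t1 s)) s0
      (lamR a b c t τ τ1 ζ n s0) := by
  have ct := h.h1.continuousAt
  have cV : ContinuousAt (fun s => G1 a b c (t s) p p) s0 :=
    ((hasDerivAt_G1 hN.sa hN.sb hN.sc (t s0) p p).comp s0 h.h1).continuousAt
  have G10 : ∀ u, G1 a b c u 0 0 = 0 := fun u => by simp [G1, bf]
  rcases lt_trichotomy (t s0) (-1 / 5) with c1 | c1 | c1
  · refine mono_one (mono_PZ hN h hN.dL (hN.L0 _ c1.le).2) ?_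
    filter_upwards [ct.eventually_lt continuousAt_const c1] with s hs
    rw [hN.muR_left hs.le, muL, if_pos hs.le, zero_mul, sub_zero]
  · have hP := hN.L0 _ c1.le
    have b1 := mono_PZ hN h hN.dL hP.2
    have k1 : ∀ s, t s ≤ t s0 → τ s * τ1 s + ζ n s
        - muL a b c mL p qL (t s) * el (G0 a b c (t s) p qL) (τ s) (ζ qL s) (t1 s)
        - muR a b c mR p qR (t s) * el (G0 a b c (t s) p qR) (τ s) (ζ qR s) (t1 s)
        = τ s * τ1 s + ζ n s - mL (t s) * el (G0 a b c (t s) p qL) (τ s) (ζ qL s) (t1 s) :=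
      fun s hs => by rw [hN.muR_left (c1 ▸ hs), muL, if_pos (c1 ▸ hs), zero_mul, sub_zero]
    have k2 := ct.eventually_lt continuousAt_const (show t s0 < 1 / 5 by linarith)
    by_cases hV : G1 a b c (t s0) p p = 0
    · obtain ⟨z1, z2⟩ := hN.L2 p (c1 ▸ hV)
      rw [← c1] at z1 z2
      have hκ : 0 ≤ -mL (t s0) * ζ qL s0 ^ 2 := mul_nonneg (neg_nonneg.2 hP.1) (sq_nonneg _)
      by_cases hp : p = 0
      · subst hp
        refine mono_jump b1 (mono_zero hN h) h.h1 hκ (by simp only [z1, el]; ring) ?_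
        filter_upwards [k2] with s hs
        refine ⟨k1 s, fun h' => ?_⟩
        obtain ⟨y1, y2⟩ := (mono_mid (mL := mL) (mR := mR) (qL := qL) (qR := qR)
          (c1 ▸ h') hs).2 (G10 _).le
        simp [y1, y2, mV, G10]
      · refine mono_jump b1 (mono_CC hN h (hN.R1 _ ⟨c1.ge, by linarith⟩ p hp hV.le
          (Or.inl (by linarith)))) h.h1 hκ (by simp only [z1, el, mV, hV]; ring) ?_
        filter_upwards [k2, ct.eventually z2] with s hs hs'
        refine ⟨k1 s, fun h' => ?_⟩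
        obtain ⟨y1, y2⟩ := (mono_mid (mL := mL) (mR := mR) (qL := qL) (qR := qR)
          (c1 ▸ h') hs).2 hs'
        rw [y1, y2, zero_mul, sub_zero]
    · have hV' : 0 < G1 a b c (t s0) p p := lt_of_le_of_ne (by
        rw [hP.2.2.1]; nlinarith [mul_self_nonneg (G0 a b c (t s0) p qL), hP.1]) (Ne.symm hV)
      have hp : p ≠ 0 := fun hp => hV (hp ▸ G10 _)
      have hC := hN.L1 _ ⟨c1.ge, by linarith⟩ p hp hV'.le (Or.inr hV)
      have e : mV a b c p qL (t s0) = mL (t s0) := by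
        have := hC.1
        rw [mV, hP.2.2.1]
        field_simp
      refine mono_jump b1 (mono_CC hN h hC) h.h1 le_rfl (by simp only [e]; ring) ?_
      filter_upwards [k2, continuousAt_const.eventually_lt cV hV'] with s hs hs'
      refine ⟨k1 s, fun h' => ?_⟩
      obtain ⟨y1, y2⟩ := (mono_mid (mL := mL) (mR := mR) (qL := qL) (qR := qR)
        (c1 ▸ h') hs).1 hs'.le
      rw [y1, y2, zero_mul, sub_zero]
  have k3 := continuousAt_const.eventually_lt ct c1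
  rcases lt_trichotomy (t s0) (1 / 5) with c2 | c2 | c2
  · have k2 := ct.eventually_lt continuousAt_const c2
    have M := fun s (hs : -1 / 5 < t s) (hs' : t s < 1 / 5) =>
      mono_mid (a := a) (b := b) (c := c) (p := p) (mL := mL) (mR := mR) (qL := qL) (qR := qR) hs hs'
    by_cases hp : p = 0
    · subst hp
      refine mono_one (mono_zero hN h) ?_
      filter_upwards [k2, k3] with s hs hs'
      obtain ⟨y1, y2⟩ := (M s hs' hs).2 (G10 _).le
      simp [y1, y2, mV, G10]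
    rcases lt_trichotomy (G1 a b c (t s0) p p) 0 with hV | hV | hV
    · refine mono_one (mono_CC hN h (hN.R1 _ ⟨c1.le, c2.le⟩ p hp hV.le (Or.inl c2.ne))) ?_
      filter_upwards [k2, k3, cV.eventually_lt continuousAt_const hV] with s hs hs' hs''
      obtain ⟨y1, y2⟩ := (M s hs' hs).2 hs''.le
      rw [y1, y2, zero_mul, sub_zero]
    · obtain ⟨y1, y2⟩ := (M s0 c1 c2).1 hV.ge
      refine mono_two (mono_CC hN h (hN.L1 _ ⟨c1.le, c2.le⟩ p hp hV.ge (Or.inl c1.ne')))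
        (mono_CC hN h (hN.R1 _ ⟨c1.le, c2.le⟩ p hp hV.le (Or.inl c2.ne)))
        (by simp only [y1, y2, zero_mul, sub_zero]) (by simp [mV, hV]) ?_
      filter_upwards [k2, k3] with s hs hs'
      rcases le_total 0 (G1 a b c (t s) p p) with y | y
      · obtain ⟨y1, y2⟩ := (M s hs' hs).1 y
        left; rw [y1, y2, zero_mul, sub_zero]
      · obtain ⟨y1, y2⟩ := (M s hs' hs).2 y
        right; rw [y1, y2, zero_mul, sub_zero]
    · refine mono_one (mono_CC hN h (hN.L1 _ ⟨c1.le, c2.le⟩ p hp hV.le (Or.inl c1.ne'))) ?_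
      filter_upwards [k2, k3, continuousAt_const.eventually_lt cV hV] with s hs hs' hs''
      obtain ⟨y1, y2⟩ := (M s hs' hs).1 hs''.le
      rw [y1, y2, zero_mul, sub_zero]
  · have hP := hN.R0 _ c2.ge
    have b1 := mono_PZ hN h hN.dR hP.2
    have k1 : ∀ s, (-t) s ≤ (-t) s0 → τ s * τ1 s + ζ n s
        - muL a b c mL p qL (t s) * el (G0 a b c (t s) p qL) (τ s) (ζ qL s) (t1 s)
        - muR a b c mR p qR (t s) * el (G0 a b c (t s) p qR) (τ s) (ζ qR s) (t1 s)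
        = τ s * τ1 s + ζ n s - mR (t s) * el (G0 a b c (t s) p qR) (τ s) (ζ qR s) (t1 s) :=
      fun s hs => by
        have : 1 / 5 ≤ t s := c2 ▸ neg_le_neg_iff.1 hs
        rw [hN.muL_right this, muR, if_pos this, zero_mul, sub_zero]
    have k4 : ∀ s, (-t) s0 < (-t) s → t s < 1 / 5 := fun s hs => c2 ▸ neg_lt_neg_iff.1 hs
    by_cases hV : G1 a b c (t s0) p p = 0
    · obtain ⟨z1, z2⟩ := hN.R2 p (c2 ▸ hV)
      rw [← c2] at z1 z2
      have hκ : 0 ≤ mR (t s0) * ζ qR s0 ^ 2 := mul_nonneg hP.1 (sq_nonneg _)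
      by_cases hp : p = 0
      · subst hp
        refine mono_jump b1 (mono_zero hN h) h.h1.neg hκ (by simp only [z1, el]; ring) ?_
        filter_upwards [k3] with s hs
        refine ⟨k1 s, fun h' => ?_⟩
        obtain ⟨y1, y2⟩ := (mono_mid (mL := mL) (mR := mR) (qL := qL) (qR := qR)
          hs (k4 s h')).2 (G10 _).le
        simp [y1, y2, mV, G10]
      · refine mono_jump b1 (mono_CC hN h (hN.L1 _ ⟨c1.le, c2.le⟩ p hp hV.ge
          (Or.inl c1.ne'))) h.h1.neg hκ (by simp only [z1, el, mV, hV]; ring) ?_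
        filter_upwards [k3, ct.eventually z2] with s hs hs'
        refine ⟨k1 s, fun h' => ?_⟩
        obtain ⟨y1, y2⟩ := (mono_mid (mL := mL) (mR := mR) (qL := qL) (qR := qR)
          hs (k4 s h')).1 hs'
        rw [y1, y2, zero_mul, sub_zero]
    · have hV' : G1 a b c (t s0) p p < 0 := lt_of_le_of_ne (by
        rw [hP.2.2.1]; nlinarith [mul_self_nonneg (G0 a b c (t s0) p qR), hP.1]) hV
      have hp : p ≠ 0 := fun hp => hV (hp ▸ G10 _)
      have hC := hN.R1 _ ⟨c1.le, c2.le⟩ p hp hV'.le (Or.inr hV)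
      have e : mV a b c p qR (t s0) = mR (t s0) := by
        have := hC.1
        rw [mV, hP.2.2.1]
        field_simp
      refine mono_jump b1 (mono_CC hN h hC) h.h1.neg le_rfl (by simp only [e]; ring) ?_
      filter_upwards [k3, cV.eventually_lt continuousAt_const hV'] with s hs hs'
      refine ⟨k1 s, fun h' => ?_⟩
      obtain ⟨y1, y2⟩ := (mono_mid (mL := mL) (mR := mR) (qL := qL) (qR := qR)
        hs (k4 s h')).2 hs'.le
      rw [y1, y2, zero_mul, sub_zero]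
  · refine mono_one (mono_PZ hN h hN.dR (hN.R0 _ c2.le).2) ?_
    filter_upwards [continuousAt_const.eventually_lt ct c2] with s hs
    rw [hN.muL_right hs.le, muR, if_pos hs.le, zero_mul, sub_zero]

theorem lyap_exists {α β γ a b c mL mR : ℝ → ℝ} {qL qR : ℝ × ℝ} (hα : ContDiff ℝ ∞ α)
    (hβ : ContDiff ℝ ∞ β) (hγ : ContDiff ℝ ∞ γ) (hN : Neck a b c mL mR qL qR)
    (hi : InvM α β γ a b c) (hg : IsMetric (gm α β γ)) :
    ∃ S : ℝ → V3 → V3 → ℝ, (∀ t v J, 1 / 5 ≤ |t| → S t v J = 0) ∧ (∀ t v, S t v 0 = 0) ∧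
      Lyap (gm α β γ) fun z => S z.1 := by
  refine ⟨fun t v J => cor α β γ t v J
    + muL a b c mL (mom α β γ t v) qL t * el (G0 a b c t (mom α β γ t v) qL) J.1 (pr qL J) v.1
    + muR a b c mR (mom α β γ t v) qR t * el (G0 a b c t (mom α β γ t v) qR) J.1 (pr qR J) v.1,
    fun t v J ht => ?_, fun t v => by simp [cor, el, pr, G1, bf], fun x v J w s0 h => ?_⟩
  · rcases le_abs.1 ht with h | h
    · simp only [cor_prod hα hβ hγ hN.sa hN.sb hN.sc hi (hN.R0 t h).2.2.1, hN.muL_right h, muR,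
        if_pos h, el]
      ring
    · have h' : t ≤ -1 / 5 := by linarith
      simp only [cor_prod hα hβ hγ hN.sa hN.sb hN.sc hi (hN.L0 t h').2.2.1, hN.muR_left h', muL,
        if_pos h', el]
      ring
  obtain ⟨p, n, h0, h1⟩ := ham hα hβ hγ hN.sa hN.sb hN.sc hi hg h
  obtain ⟨-, r1, r2, r3, r4, r5, -⟩ := h1.self_of_nhds
  have R : Red a b c (fun s => (x s).1) (fun s => (v s).1) (fun s => (J s).1) (fun s => (w s).1)
    (fun q s => pr q (J s)) p n s0 := ⟨r1, r2, r3, r4, r5⟩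
  refine ⟨_, ?_, fun hJ hw => ?_, (mono_main hN R).congr ?_⟩
  · unfold lamR
    split_ifs
    · have := hN.nonneg (x s0).1 n
      positivity
    · exact le_rfl
  · unfold lamR
    rw [if_pos (by simp [hJ, pr])]
    rcases h0 hJ hw with h | h
    · have := hN.nonneg (x s0).1 n
      positivity
    · have := hN.pos (x s0).1 n h
      positivity
  · filter_upwards [h1] with s hs
    rw [hs.2.2.2.2.2.2, hs.1]
    ring

end Vale.Agent.P255
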