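import Vale.Agent.P255.Mod

set_option maxSynthPendingDepth 3
set_option linter.deprecated false

namespace Vale.Agent.P255

open scoped ContDiff Topology
open Set Filter

variable {α β γ a b c : ℝ → ℝ}

theorem ham_d {f : ℝ → ℝ} (hf : ContDiff ℝ ∞ f) (t : ℝ) : HasDerivAt f (deriv f t) t :=
  (hf.differentiable (by simp) t).hasDerivAt

theorem ham_sd {f : ℝ → ℝ} (hf : ContDiff ℝ ∞ f) : ContDiff ℝ ∞ (deriv f) :=
  (contDiff_infty_iff_deriv.1 hf).2

theorem hasDerivAt_G0 (ha : ContDiff ℝ ∞ a) (hb : ContDiff ℝ ∞ b) (hc : ContDiff ℝ ∞ c)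
    (t : ℝ) (p q : ℝ × ℝ) : HasDerivAt (fun t => G0 a b c t p q) (G1 a b c t p q) t :=
  (((ham_d ha t).mul_const _).add ((ham_d hb t).mul_const _)).add ((ham_d hc t).mul_const _)

theorem hasDerivAt_G1 (ha : ContDiff ℝ ∞ a) (hb : ContDiff ℝ ∞ b) (hc : ContDiff ℝ ∞ c)
    (t : ℝ) (p q : ℝ × ℝ) : HasDerivAt (fun t => G1 a b c t p q) (G2 a b c t p q) t :=
  hasDerivAt_G0 (ham_sd ha) (ham_sd hb) (ham_sd hc) t p q

theorem ham_fst {f : ℝ → ℝ} {f' : ℝ} {z : V3} (h : HasDerivAt f f' z.1) (u : V3) :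
    fderiv ℝ (fun y : V3 => f y.1) z u = u.1 * f' := by
  have := h.hasFDerivAt.comp z (hasFDerivAt_fst (𝕜 := ℝ) (p := z))
  rw [show (fun y : V3 => f y.1) = f ∘ Prod.fst from rfl, this.fderiv]
  simp

theorem ham_fderiv (hα : ContDiff ℝ ∞ α) (hβ : ContDiff ℝ ∞ β) (hγ : ContDiff ℝ ∞ γ)
    (z u v w : V3) : fderiv ℝ (gm α β γ) z u v w = u.1 * G1 α β γ z.1 v.2 w.2 := by
  rw [← hasFDerivAt_apply₂ ((contDiff_gm hα hβ hγ).differentiable (by simp) z)]
  simp only [gm_apply]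
  exact ham_fst ((hasDerivAt_G0 hα hβ hγ z.1 v.2 w.2).const_add _) u

theorem ham_fderiv2 (hα : ContDiff ℝ ∞ α) (hβ : ContDiff ℝ ∞ β) (hγ : ContDiff ℝ ∞ γ)
    (z J u v w : V3) :
    fderiv ℝ (fderiv ℝ (gm α β γ)) z J u v w = J.1 * (u.1 * G2 α β γ z.1 v.2 w.2) := by
  have hd := ((contDiff_gm hα hβ hγ).fderiv_right (m := ∞) (by simp)).differentiable (by simp) z
  have h1 := (((hd.hasFDerivAt.clm_apply (hasFDerivAt_const u z)).clm_apply
    (hasFDerivAt_const v z)).clm_apply (hasFDerivAt_const w z)).fderiv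
  simp only [ham_fderiv hα hβ hγ] at h1
  have h2 := congrArg (fun L => L J) h1
  simp only [ham_fst ((hasDerivAt_G1 hα hβ hγ z.1 v.2 w.2).const_mul u.1) J] at h2
  simpa using h2.symm

theorem ham_const {f : ℝ → ℝ} {s0 : ℝ} (h : ∀ᶠ s in 𝓝 s0, HasDerivAt f 0 s) :
    ∀ᶠ s in 𝓝 s0, f s = f s0 := by
  obtain ⟨ε, hε, h⟩ := Metric.eventually_nhds_iff_ball.1 h
  filter_upwards [Metric.ball_mem_nhds s0 hε] with s hs
  exact Metric.isOpen_ball.is_const_of_deriv_eq_zero (convex_ball s0 ε).isPreconnected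
    (fun y hy => (h y hy).differentiableAt.differentiableWithinAt)
    (fun y hy => (h y hy).deriv) hs (Metric.mem_ball_self hε)

/-- raising an index -/
def up (a b c : ℝ) (p : ℝ × ℝ) : ℝ × ℝ := (a * p.1 + b * p.2, b * p.1 + c * p.2)

theorem ham_K1 (hα : ContDiff ℝ ∞ α) (hβ : ContDiff ℝ ∞ β) (hγ : ContDiff ℝ ∞ γ)
    (ha : ContDiff ℝ ∞ a) (hb : ContDiff ℝ ∞ b) (hc : ContDiff ℝ ∞ c) (hi : InvM α β γ a b c)
    (t : ℝ) (p q : ℝ × ℝ) :
    G1 a b c t p q = -G1 α β γ t (up (a t) (b t) (c t) p) (up (a t) (b t) (c t) q) := by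
  have d : ∀ {f g f' g' : ℝ → ℝ} {k : ℝ}, ContDiff ℝ ∞ f → ContDiff ℝ ∞ g → ContDiff ℝ ∞ f' →
      ContDiff ℝ ∞ g' → (∀ t, f t * g t + f' t * g' t = k) →
      deriv f t * g t + f t * deriv g t + (deriv f' t * g' t + f' t * deriv g' t) = 0 :=
    fun h1 h2 h3 h4 h => (((ham_d h1 t).mul (ham_d h2 t)).add ((ham_d h3 t).mul (ham_d h4 t))).unique
      ((hasDerivAt_const t _).congr_of_eventuallyEq (Eventually.of_forall h))
  have D1 := d hα ha hβ hb fun t => (hi t).1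
  have D2 := d hα hb hβ hc fun t => (hi t).2.1
  have D3 := d hβ ha hγ hb fun t => (hi t).2.2.1
  have D4 := d hβ hb hγ hc fun t => (hi t).2.2.2
  obtain ⟨i1, i2, i3, i4⟩ := hi t
  have e1 : deriv a t = -(deriv α t * a t ^ 2 + 2 * deriv β t * a t * b t + deriv γ t * b t ^ 2) := by
    linear_combination a t * D1 + b t * D3 - deriv a t * i1 - deriv b t * i3
  have e2 : deriv b t = -(deriv α t * a t * b t + deriv β t * (a t * c t + b t ^ 2)
      + deriv γ t * b t * c t) := by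
    linear_combination a t * D2 + b t * D4 - deriv b t * i1 - deriv c t * i3
  have e3 : deriv c t = -(deriv α t * b t ^ 2 + 2 * deriv β t * b t * c t + deriv γ t * c t ^ 2) := by
    linear_combination b t * D2 + c t * D4 - deriv b t * i2 - deriv c t * i4
  simp only [G1, bf, up]
  rw [e1, e2, e3]
  ring

theorem ham_K2 (hα : ContDiff ℝ ∞ α) (hβ : ContDiff ℝ ∞ β) (hγ : ContDiff ℝ ∞ γ)
    (ha : ContDiff ℝ ∞ a) (hb : ContDiff ℝ ∞ b) (hc : ContDiff ℝ ∞ c) (hi : InvM α β γ a b c)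
    (t : ℝ) (p : ℝ × ℝ) :
    G2 a b c t p p = -G2 α β γ t (up (a t) (b t) (c t) p) (up (a t) (b t) (c t) p)
      - 2 * G1 α β γ t (up (a t) (b t) (c t) p) (up (deriv a t) (deriv b t) (deriv c t) p) := by
  have h1 := ((ham_d ha t).mul_const p.1).add ((ham_d hb t).mul_const p.2)
  have h2 := ((ham_d hb t).mul_const p.1).add ((ham_d hc t).mul_const p.2)
  have h3 := ((((ham_d (ham_sd hα) t).mul (h1.mul h1)).add ((ham_d (ham_sd hβ) t).mul
    ((h1.mul h2).add (h2.mul h1)))).add ((ham_d (ham_sd hγ) t).mul (h2.mul h2))).neg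
  rw [(hasDerivAt_G1 ha hb hc t p p).unique (h3.congr_of_eventuallyEq
    (Eventually.of_forall fun t => ham_K1 hα hβ hγ ha hb hc hi t p p))]
  simp only [G1, G2, bf, up, Pi.add_apply, Pi.mul_apply]
  ring

theorem ham_up_mom (hi : InvM α β γ a b c) (t : ℝ) (v : V3) :
    up (a t) (b t) (c t) (mom α β γ t v) = v.2 := by
  obtain ⟨i1, i2, i3, i4⟩ := hi t
  refine Prod.ext ?_ ?_ <;> simp only [up, mom]
  · linear_combination v.2.1 * i1 + v.2.2 * i3
  · linear_combination v.2.1 * i2 + v.2.2 * i4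

theorem ham_G0_up (t : ℝ) (p q : ℝ × ℝ) :
    G0 a b c t p q = q.1 * (up (a t) (b t) (c t) p).1 + q.2 * (up (a t) (b t) (c t) p).2 := by
  simp only [G0, bf, up]; ring

theorem ham (hα : ContDiff ℝ ∞ α) (hβ : ContDiff ℝ ∞ β) (hγ : ContDiff ℝ ∞ γ)
    (ha : ContDiff ℝ ∞ a) (hb : ContDiff ℝ ∞ b) (hc : ContDiff ℝ ∞ c) (hi : InvM α β γ a b c)
    (hg : IsMetric (gm α β γ)) {x v J w : ℝ → V3} {s0 : ℝ}
    (h : ∀ᶠ s in 𝓝 s0, Sys (gm α β γ) x v J w s) :
    ∃ p n : ℝ × ℝ, (J s0 = 0 → w s0 ≠ 0 → (w s0).1 ≠ 0 ∨ n ≠ 0) ∧ ∀ᶠ s in 𝓝 s0,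
      mom α β γ (x s).1 (v s) = p ∧
      HasDerivAt (fun s => (x s).1) (v s).1 s ∧
      HasDerivAt (fun s => (v s).1) (-G1 a b c (x s).1 p p / 2) s ∧
      HasDerivAt (fun s => (J s).1) (w s).1 s ∧
      HasDerivAt (fun s => (w s).1)
        (-G2 a b c (x s).1 p p * (J s).1 / 2 - G1 a b c (x s).1 p n) s ∧
      (∀ q, HasDerivAt (fun s => pr q (J s))
        (G1 a b c (x s).1 p q * (J s).1 + G0 a b c (x s).1 n q) s) ∧
      Qlc (gm α β γ) (x s) (v s) (J s) (w s)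
        = (J s).1 * (w s).1 + pr n (J s) + cor α β γ (x s).1 (v s) (J s) := by
  let N : ℝ → ℝ × ℝ := fun s => mom α β γ (x s).1 (w s) +
    (J s).1 • up (deriv α (x s).1) (deriv β (x s).1) (deriv γ (x s).1) (v s).2
  have E := fun u : V3 => h.mono fun s hs => hs.euler hg u
  simp only [ham_fderiv hα hβ hγ, ham_fderiv2 hα hβ hγ, gm_apply] at E
  have c1 := ham_const ((E (0, 1, 0)).mono fun s hs => hs.1.congr_deriv (by simp))
  have c2 := ham_const ((E (0, 0, 1)).mono fun s hs => hs.1.congr_deriv (by simp))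
  have c3 := ham_const ((E (0, 1, 0)).mono fun s hs => hs.2.congr_deriv (by simp))
  have c4 := ham_const ((E (0, 0, 1)).mono fun s hs => hs.2.congr_deriv (by simp))
  refine ⟨mom α β γ (x s0).1 (v s0), N s0, fun hJ hw => ?_, ?_⟩
  · by_contra hc'
    push Not at hc'
    have := ham_up_mom hi (x s0).1 (w s0)
    have e : mom α β γ (x s0).1 (w s0) = 0 := by simpa [N, hJ] using hc'.2
    rw [e] at this
    exact hw (Prod.ext hc'.1 (by rw [← this]; simp [up]))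
  filter_upwards [h, E (1, 0, 0), c1, c2, c3, c4] with s hs e1 c1 c2 c3 c4
  have hp : mom α β γ (x s).1 (v s) = mom α β γ (x s0).1 (v s0) := by
    refine Prod.ext ?_ ?_
    · simpa [mom, bf] using c1
    · simpa [mom, bf] using c2
  have hn : N s = N s0 := by
    refine Prod.ext ?_ ?_
    · simpa [N, mom, bf, G1, up] using c3
    · simpa [N, mom, bf, G1, up] using c4
  rw [← hp, ← hn]
  have K1 := ham_K1 hα hβ hγ ha hb hc hi (x s).1
  have K2 := ham_K2 hα hβ hγ ha hb hc hi (x s).1 (mom α β γ (x s).1 (v s))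
  have hv := ham_up_mom hi (x s).1 (v s)
  have hw := ham_up_mom hi (x s).1 (w s)
  set t := (x s).1
  set p := mom α β γ t (v s)
  have k1 := K1 p (1, 0)
  have k2 := K1 p (0, 1)
  have hN : up (a t) (b t) (c t) (N s)
      = (w s).2 - (J s).1 • up (deriv a t) (deriv b t) (deriv c t) p := by
    rw [hv] at k1 k2
    rw [← hw]
    refine Prod.ext ?_ ?_
    · simp only [N, up, G1, bf, Prod.fst_add, Prod.snd_add, Prod.smul_fst, Prod.smul_snd,
        smul_eq_mul, Prod.fst_sub] at k1 ⊢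
      linear_combination (J s).1 * k1
    · simp only [N, up, G1, bf, Prod.fst_add, Prod.snd_add, Prod.smul_fst, Prod.smul_snd,
        smul_eq_mul, Prod.snd_sub] at k2 ⊢
      linear_combination (J s).1 * k2
  have j2 : HasDerivAt (fun s => (J s).2.1) (w s).2.1 s :=
    e2.hasFDerivAt.comp_hasDerivAt s hs.2.2.1
  have j3 : HasDerivAt (fun s => (J s).2.2) (w s).2.2 s :=
    e3.hasFDerivAt.comp_hasDerivAt s hs.2.2.1
  refine ⟨rfl, (ContinuousLinearMap.fst ℝ ℝ (ℝ × ℝ)).hasFDerivAt.comp_hasDerivAt s hs.1, ?_,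
    (ContinuousLinearMap.fst ℝ ℝ (ℝ × ℝ)).hasFDerivAt.comp_hasDerivAt s hs.2.2.1, ?_,
    fun q => ?_, ?_⟩
  · refine (e1.1.congr_of_eventuallyEq (Eventually.of_forall fun s => by simp [bf])).congr_deriv ?_
    rw [K1, hv]
    ring
  · refine (e1.2.congr_of_eventuallyEq
      (Eventually.of_forall fun s => by simp [bf, G1])).congr_deriv ?_
    rw [K1, K2, hv, hN]
    simp only [G1, bf, Prod.fst_sub, Prod.snd_sub, Prod.smul_fst, Prod.smul_snd, smul_eq_mul]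
    ring
  · refine ((j2.const_mul q.1).add (j3.const_mul q.2)).congr_deriv ?_
    rw [ham_G0_up, hN]
    simp only [G1, bf, up, Prod.fst_sub, Prod.snd_sub, Prod.smul_fst, Prod.smul_snd, smul_eq_mul]
    ring
  · rw [Qlc, ham_fderiv hα hβ hγ, gm_apply]
    simp only [N, cor, pr, G1, bf, up, mom, Prod.fst_add, Prod.snd_add, Prod.smul_fst,
      Prod.smul_snd, smul_eq_mul]
    ring

theorem cor_prod (hα : ContDiff ℝ ∞ α) (hβ : ContDiff ℝ ∞ β) (hγ : ContDiff ℝ ∞ γ)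
    (ha : ContDiff ℝ ∞ a) (hb : ContDiff ℝ ∞ b) (hc : ContDiff ℝ ∞ c) (hi : InvM α β γ a b c)
    {t m : ℝ} {n : ℝ × ℝ}
    (h : ∀ p q, G1 a b c t p q = -2 * m * G0 a b c t p n * G0 a b c t q n) (v J : V3) :
    cor α β γ t v J =
      -(m * (2 * G0 a b c t (mom α β γ t v) n * J.1 * pr n J - v.1 * pr n J ^ 2)) := by
  have k : ∀ X Y : V3, G1 α β γ t X.2 Y.2 = 2 * m * pr n X * pr n Y := fun X Y => by
    have := ham_K1 hα hβ hγ ha hb hc hi t (mom α β γ t X) (mom α β γ t Y)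
    rw [h, ham_G0_up, ham_G0_up, ham_up_mom hi, ham_up_mom hi] at this
    simp only [pr]
    linarith
  rw [cor, k, k, ham_G0_up, ham_up_mom hi]
  simp only [pr]
  ring

end Vale.Agent.P255
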