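import Vale.Agent.P255.Prof
import Vale.Agent.P255.Ham

set_option maxSynthPendingDepth 3
set_option linter.deprecated false

namespace Vale.Agent.P255

open scoped ContDiff Topology
open Set Filter

theorem neck_Iic {f : ℝ → ℝ} (hf : ContDiff ℝ ∞ f) {t0 k : ℝ} (h : ∀ t ≤ t0, f t = k) :
    ∀ t ≤ t0, deriv f t = 0 := fun t ht =>
  (uniqueDiffOn_Iic t0 t ht).eq_deriv _ (ham_d hf t).hasDerivWithinAt
    ((hasDerivWithinAt_const t _ k).congr h (h t ht))

theorem neck_Ici {f : ℝ → ℝ} (hf : ContDiff ℝ ∞ f) {t0 k : ℝ} (h : ∀ t ≥ t0, f t = k) :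
    ∀ t ≥ t0, deriv f t = 0 := fun t ht =>
  (uniqueDiffOn_Ici t0 t ht).eq_deriv _ (ham_d hf t).hasDerivWithinAt
    ((hasDerivWithinAt_const t _ k).congr h (h t ht))

theorem neck_am {c d x y : ℝ} (hc : 0 ≤ c) (hd : 0 ≤ d) (h : y ^ 2 ≤ c * d) :
    -2 * x * y ≤ c * x ^ 2 + d :=
  (abs_le_of_sq_le_sq' (by nlinarith [sq_nonneg (c * x ^ 2 - d), sq_nonneg x])
    (by positivity)).2

/-- the quartic form of the convexity condition -/
noncomputable def EE (V1 V2 Z w u : ℝ) : ℝ := V2 * Z ^ 2 - 2 * V1 * Z * w + V1 ^ 2 * u / 2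

theorem neck_dl1 {A A1 A2 B B1 B2 P R e : ℝ} (hB : 0 < B) (hA1 : A1 ≤ 0) (hB1 : 0 ≤ B1)
    (hA2 : A2 ≤ 0) (hB2 : B2 ≤ 0) (hV : 0 ≤ A1 * P ^ 2 + B1 * R ^ 2) (hR : R ≠ 0)
    (c1 : 16 * e ^ 2 * A ^ 2 * P ^ 2 ≤ B ^ 2 * R ^ 2) (c2 : e ^ 2 * A ≤ B)
    (c3 : 2 * e ^ 2 * A1 ^ 2 ≤ -A2 * B) :
    A * P * e + B * R ≠ 0 ∧ EE (A1 * P ^ 2 + B1 * R ^ 2) (A2 * P ^ 2 + B2 * R ^ 2)
      (A * P * e + B * R) (A1 * P * e + B1 * R) (A * e ^ 2 + B) ≤ 0 := by
  have r2 : 0 < R ^ 2 := by positivity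
  have h0 : -(B * R ^ 2) ≤ 4 * (e * A * P * R) :=
    (abs_le_of_sq_le_sq' (by nlinarith) (by positivity)).1
  have h1 : 3 / 4 * B * R ^ 2 ≤ (A * P * e + B * R) * R := by nlinarith
  refine ⟨fun h => ?_, ?_⟩
  · rw [h] at h1
    nlinarith [mul_pos hB r2]
  set V := A1 * P ^ 2 + B1 * R ^ 2 with hVd
  set Z := A * P * e + B * R
  have h2 : V ≤ B1 * R ^ 2 := by nlinarith [sq_nonneg P]
  have h3 : 3 / 4 * B * V ^ 2 ≤ V * B1 * (Z * R) := by
    have a1 := mul_le_mul_of_nonneg_left h1 (mul_nonneg hV hB1)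
    have a2 := mul_le_mul_of_nonneg_left h2 (mul_nonneg hB.le hV)
    nlinarith
  have h4 := neck_am (x := P * Z) (y := V * e * A1) (d := V ^ 2 * B / 2) (neg_nonneg.2 hA2)
    (by positivity) (by nlinarith [sq_nonneg V])
  have h5 : B2 * (R * Z) ^ 2 ≤ 0 := mul_nonpos_of_nonpos_of_nonneg hB2 (sq_nonneg _)
  have h6 := mul_le_mul_of_nonneg_left c2 (sq_nonneg V)
  unfold EE
  nlinarith

theorem neck_dl2 {A A1 A2 B1 B2 P R : ℝ} (hA : 0 < A) (hA1 : A1 ≤ 0) (hB1 : 0 ≤ B1)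
    (hA2 : A2 ≤ 0) (hB2 : B2 ≤ 0) (hV : A1 * P ^ 2 + B1 * R ^ 2 ≤ 0) (hP : P ≠ 0) :
    A * P ≠ 0 ∧ EE (A1 * P ^ 2 + B1 * R ^ 2) (A2 * P ^ 2 + B2 * R ^ 2) (A * P) (A1 * P) A ≤ 0 := by
  have := neck_dl1 (A := 0) (A1 := -B1) (B1 := -A1) (P := R) (e := 0) hA (by linarith)
    (by linarith) hB2 hA2 (by linarith) hP (by simp; positivity) (by simpa using hA.le)
    (by nlinarith)
  refine ⟨by simpa using this.1, this.2.trans_eq' ?_⟩
  unfold EE
  ring

variable {κ : ℝ} {A B χ : ℝ → ℝ}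

theorem Prof.sB (h : Prof κ A B χ) : ContDiff ℝ ∞ B :=
  (funext h.refl : B = fun t => A (-t)) ▸ h.sA.comp contDiff_neg

theorem Prof.posB (h : Prof κ A B χ) (t : ℝ) : 0 < B t := h.refl t ▸ h.pos _

theorem Prof.dB (h : Prof κ A B χ) (t : ℝ) : deriv B t = -deriv A (-t) := by
  rw [(funext h.refl : B = fun t => A (-t)), deriv_comp_neg]

theorem Prof.ddB (h : Prof κ A B χ) (t : ℝ) : deriv (deriv B) t = deriv (deriv A) (-t) := by
  rw [(funext h.dB : deriv B = fun t => -deriv A (-t)), deriv.fun_neg, deriv_comp_neg, neg_neg]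

noncomputable def nb (A χ : ℝ → ℝ) (ε t : ℝ) : ℝ := ε * χ t * A t
noncomputable def nc (A B χ : ℝ → ℝ) (ε t : ℝ) : ℝ := (ε * χ t) ^ 2 * A t + B t

theorem neck_G0 (ε t : ℝ) (p q : ℝ × ℝ) : G0 A (nb A χ ε) (nc A B χ ε) t p q
    = A t * (p.1 + ε * χ t * p.2) * (q.1 + ε * χ t * q.2) + B t * p.2 * q.2 := by
  simp only [G0, bf, nb, nc]; ring

theorem Prof.sb (h : Prof κ A B χ) (ε : ℝ) : ContDiff ℝ ∞ (nb A χ ε) :=
  (contDiff_const.mul h.sχ).mul h.sA

theorem Prof.sc (h : Prof κ A B χ) (ε : ℝ) : ContDiff ℝ ∞ (nc A B χ ε) :=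
  (((contDiff_const.mul h.sχ).pow 2).mul h.sA).add h.sB

theorem Prof.G1_eq (h : Prof κ A B χ) (ε t : ℝ) (p q : ℝ × ℝ) :
    G1 A (nb A χ ε) (nc A B χ ε) t p q
    = deriv A t * (p.1 + ε * χ t * p.2) * (q.1 + ε * χ t * q.2)
      + A t * (ε * deriv χ t) * (p.2 * (q.1 + ε * χ t * q.2) + (p.1 + ε * χ t * p.2) * q.2)
      + deriv B t * p.2 * q.2 := by
  have k := (ham_d h.sχ t).const_mul ε
  have h1 := (((ham_d h.sA t).mul ((k.mul_const p.2).const_add p.1)).mul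
    ((k.mul_const q.2).const_add q.1)).add (((ham_d h.sB t).mul_const p.2).mul_const q.2)
  rw [(hasDerivAt_G0 h.sA (h.sb ε) (h.sc ε) t p q).unique (h1.congr_of_eventuallyEq
    (Eventually.of_forall fun t => neck_G0 ε t p q))]
  simp only [Pi.mul_apply]
  ring

theorem Prof.G2_eq (h : Prof κ A B χ) (ε t : ℝ) (p : ℝ × ℝ) :
    G2 A (nb A χ ε) (nc A B χ ε) t p p
    = deriv (deriv A) t * (p.1 + ε * χ t * p.2) ^ 2
      + 4 * deriv A t * (ε * deriv χ t) * p.2 * (p.1 + ε * χ t * p.2)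
      + 2 * A t * (ε * deriv χ t * p.2) ^ 2
      + 2 * A t * (ε * deriv (deriv χ) t) * p.2 * (p.1 + ε * χ t * p.2)
      + deriv (deriv B) t * p.2 ^ 2 := by
  have k := (((ham_d h.sχ t).const_mul ε).mul_const p.2).const_add p.1
  have h1 := ((((ham_d (ham_sd h.sA) t).mul k).mul k).add (((ham_d h.sA t).mul
    ((ham_d (ham_sd h.sχ) t).const_mul ε)).mul ((k.const_mul p.2).add (k.mul_const p.2)))).add
    (((ham_d (ham_sd h.sB) t).mul_const p.2).mul_const p.2)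
  rw [(hasDerivAt_G1 h.sA (h.sb ε) (h.sc ε) t p p).unique (h1.congr_of_eventuallyEq
    (Eventually.of_forall fun t => h.G1_eq ε t p p))]
  simp only [Pi.mul_apply, Pi.add_apply]
  ring

theorem Prof.G0_pos (h : Prof κ A B χ) (ε t : ℝ) (p : ℝ × ℝ) (hp : p ≠ 0) :
    0 < G0 A (nb A χ ε) (nc A B χ ε) t p p := by
  have a1 := h.pos t
  have a2 := h.posB t
  rw [neck_G0, mul_assoc, mul_assoc (B t), ← sq, ← sq]
  by_cases h2 : p.2 = 0
  · have : p.1 ≠ 0 := fun h' => hp (Prod.ext h' h2)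
    simp only [h2, mul_zero, add_zero]
    positivity
  · positivity

/-- the quartic form for the neck -/
noncomputable def EN (A B χ : ℝ → ℝ) (ε t : ℝ) (p n : ℝ × ℝ) : ℝ :=
  EE (G1 A (nb A χ ε) (nc A B χ ε) t p p) (G2 A (nb A χ ε) (nc A B χ ε) t p p)
    (G0 A (nb A χ ε) (nc A B χ ε) t p n) (G1 A (nb A χ ε) (nc A B χ ε) t p n)
    (G0 A (nb A χ ε) (nc A B χ ε) t n n)

theorem Prof.CC_of (h : Prof κ A B χ) {ε t : ℝ} {p n : ℝ × ℝ} (hn : n ≠ 0)
    (hE : EN A B χ ε t p n < 0) : CC A (nb A χ ε) (nc A B χ ε) t p n := by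
  refine ⟨fun hZ => ?_, hE.le⟩
  have := h.G0_pos ε t n hn
  rw [EN, EE, hZ] at hE
  nlinarith [sq_nonneg (G1 A (nb A χ ε) (nc A B χ ε) t p p)]

theorem neck_scale (ε t r : ℝ) (p n : ℝ × ℝ) :
    G1 A (nb A χ ε) (nc A B χ ε) t (r • p) (r • p) = r ^ 2 * G1 A (nb A χ ε) (nc A B χ ε) t p p ∧
      EN A B χ ε t (r • p) n = r ^ 4 * EN A B χ ε t p n := by
  simp only [EN, EE, G0, G1, G2, bf, Prod.smul_fst, Prod.smul_snd, smul_eq_mul]
  constructor <;> ring

theorem Prof.mid (h : Prof κ A B χ) : ∀ᶠ ε in 𝓝 (0 : ℝ), ∀ t ∈ Icc (-1 / 10 : ℝ) (1 / 10),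
    ∀ p, p ≠ 0 → (G1 A (nb A χ ε) (nc A B χ ε) t p p < 0 ∨ EN A B χ ε t p (-ε, 1) < 0) ∧
      (0 < G1 A (nb A χ ε) (nc A B χ ε) t p p ∨ EN A B χ ε t p (1, 0) < 0) := by
  have c0 := h.sA.continuous
  have c1 := (ham_sd h.sA).continuous
  have c2 := (ham_sd (ham_sd h.sA)).continuous
  have c3 := h.sB.continuous
  have c4 := (ham_sd h.sB).continuous
  have c5 := (ham_sd (ham_sd h.sB)).continuous
  have c6 := h.sχ.continuous
  have c7 := (ham_sd h.sχ).continuous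
  have c8 := (ham_sd (ham_sd h.sχ)).continuous
  have k1 : Continuous fun z : ℝ × ℝ × ℝ × ℝ =>
      G1 A (nb A χ z.1) (nc A B χ z.1) z.2.1 z.2.2 z.2.2 := by
    simp only [h.G1_eq]; fun_prop
  have k2 : Continuous fun z : ℝ × ℝ × ℝ × ℝ => EN A B χ z.1 z.2.1 z.2.2 (-z.1, 1) := by
    simp only [EN, EE, h.G1_eq, h.G2_eq, neck_G0]; fun_prop
  have k3 : Continuous fun z : ℝ × ℝ × ℝ × ℝ => EN A B χ z.1 z.2.1 z.2.2 (1, 0) := by
    simp only [EN, EE, h.G1_eq, h.G2_eq, neck_G0]; fun_prop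
  have := ((isCompact_Icc (a := (-1 / 10 : ℝ)) (b := 1 / 10)).prod
    (isCompact_sphere (0 : ℝ × ℝ) 1)).eventually_forall_of_forall_eventually (x₀ := (0 : ℝ))
    (P := fun ε y => (G1 A (nb A χ ε) (nc A B χ ε) y.1 y.2 y.2 < 0 ∨
      EN A B χ ε y.1 y.2 (-ε, 1) < 0) ∧ (0 < G1 A (nb A χ ε) (nc A B χ ε) y.1 y.2 y.2 ∨
      EN A B χ ε y.1 y.2 (1, 0) < 0)) ?_
  · filter_upwards [this] with ε hε t ht p hp
    have hn := norm_pos_iff.2 hp
    have e : p = ‖p‖ • (‖p‖⁻¹ • p) := by rw [smul_smul, mul_inv_cancel₀ hn.ne', one_smul]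
    have := hε (t, ‖p‖⁻¹ • p) ⟨ht, by simp [norm_smul, hn.ne']⟩
    rw [e, (neck_scale ε t _ _ 0).1, (neck_scale ε t ‖p‖ _ _).2, (neck_scale ε t ‖p‖ _ _).2]
    exact ⟨this.1.imp (mul_neg_of_pos_of_neg (by positivity))
      (mul_neg_of_pos_of_neg (by positivity)), this.2.imp (mul_pos (by positivity))
      (mul_neg_of_pos_of_neg (by positivity))⟩
  rintro ⟨t, P, R⟩ ⟨ht, hp⟩
  refine (((isOpen_lt k1 continuous_const).union (isOpen_lt k2 continuous_const)).inter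
    ((isOpen_lt continuous_const k1).union (isOpen_lt k3 continuous_const))).mem_nhds ?_
  have a1 := h.d1 t (by linarith [ht.1])
  have a2 := h.d2' t ⟨ht.1, by linarith [ht.2]⟩
  have a3 : 0 < deriv B t := by rw [h.dB]; linarith [h.d1 (-t) (by linarith [ht.2])]
  have a4 : deriv (deriv B) t < 0 := by
    rw [h.ddB]; exact h.d2' _ ⟨by linarith [ht.2], by linarith [ht.1]⟩
  have a5 := h.pos t
  have a6 := h.posB t
  have hp' : P ≠ 0 ∨ R ≠ 0 := by
    by_contra hc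
    push Not at hc
    simp [hc.1, hc.2, ← Prod.zero_eq_mk] at hp
  simp only [mem_inter_iff, mem_union, mem_setOf_eq, EN, EE, h.G1_eq, h.G2_eq, neck_G0, zero_mul,
    mul_zero, add_zero, neg_zero, mul_one, zero_add, ne_eq, OfNat.ofNat_ne_zero, not_false_eq_true,
    zero_pow]
  set A1 := deriv A t
  set B1 := deriv B t
  constructor
  · by_contra hc
    push Not at hc
    have hR : R ≠ 0 := fun hR => by
      have := mul_self_pos.2 (hp'.resolve_right (not_not.2 hR))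
      have := hc.1
      rw [hR] at this
      nlinarith
    have b1 : 0 < (B t * R) ^ 2 := by positivity
    have b2 : deriv (deriv A) t * P ^ 2 + deriv (deriv B) t * R ^ 2 < 0 := by
      nlinarith [sq_nonneg P, mul_self_pos.2 hR]
    have b3 : A1 * P * P + B1 * R * R ≤ B1 * R * R := by nlinarith [mul_self_nonneg P]
    have b4 := mul_le_mul_of_nonneg_left b3 (mul_nonneg hc.1 a6.le)
    nlinarith [mul_neg_of_neg_of_pos b2 b1, mul_nonneg (mul_nonneg hc.1 a6.le) (hc.1.trans b3)]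
  · by_contra hc
    push Not at hc
    have hP : P ≠ 0 := fun hP => by
      have := mul_self_pos.2 (hp'.resolve_left (not_not.2 hP))
      have := hc.1
      rw [hP] at this
      nlinarith
    have b1 : 0 < (A t * P) ^ 2 := by positivity
    have b2 : deriv (deriv A) t * P ^ 2 + deriv (deriv B) t * R ^ 2 < 0 := by
      nlinarith [sq_nonneg R, mul_self_pos.2 hP]
    have b3 : A1 * P * P ≤ A1 * P * P + B1 * R * R := by nlinarith [mul_self_nonneg R]
    have b4 := mul_le_mul_of_nonneg_left b3 (mul_nonneg (neg_nonneg.2 hc.1) a5.le)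
    nlinarith [mul_neg_of_neg_of_pos b2 b1,
      mul_nonneg (mul_nonneg (neg_nonneg.2 hc.1) a5.le) (neg_nonneg.2 (b3.trans hc.1))]

theorem Prof.tilt (h : Prof κ A B χ) : ∀ᶠ ε in 𝓝 (0 : ℝ), ∀ t ∈ Icc (1 / 10 : ℝ) (1 / 5),
    16 * ε ^ 2 * A t ^ 2 * deriv B t < -deriv A t * B t ^ 2 ∧ ε ^ 2 * A t < B t ∧
      2 * ε ^ 2 * deriv A t ^ 2 < -deriv (deriv A) t * B t := by
  have c0 := h.sA.continuous
  have c1 := (ham_sd h.sA).continuous
  have c2 := (ham_sd (ham_sd h.sA)).continuous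
  have c3 := h.sB.continuous
  have c4 := (ham_sd h.sB).continuous
  refine isCompact_Icc.eventually_forall_of_forall_eventually fun t ht => ?_
  have a1 := h.d1 t (by linarith [ht.1])
  have a2 := h.d2' t ⟨by linarith [ht.1], ht.2⟩
  have a6 := h.posB t
  refine (ContinuousAt.eventually_lt (by fun_prop) (by fun_prop) ?_).and
    ((ContinuousAt.eventually_lt (by fun_prop) (by fun_prop) ?_).and
    (ContinuousAt.eventually_lt (by fun_prop) (by fun_prop) ?_))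
  · simpa using mul_neg_of_neg_of_pos a1 (pow_pos a6 2)
  · simpa using a6
  · simpa using mul_neg_of_neg_of_pos a2 a6

theorem neck_exists {κ : ℝ} {A B χ : ℝ → ℝ} (h : Prof κ A B χ) :
    ∃ ε, 0 < ε ∧ ε ≤ 2 ∧ Neck A (fun t => ε * χ t * A t) (fun t => (ε * χ t) ^ 2 * A t + B t)
      (fun t => -deriv B t / (2 * B t ^ 2)) (fun t => -deriv A t / (2 * A t ^ 2))
      (-ε, 1) (1, 0) := by
  obtain ⟨ε, ⟨⟨hm, ht⟩, h2⟩, h0⟩ := ((((h.mid.and h.tilt).and
    (eventually_le_nhds (show (0 : ℝ) < 2 by norm_num))).filter_mono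
    (nhdsWithin_le_nhds (s := Ioi (0 : ℝ)))).and self_mem_nhdsWithin).exists
  refine ⟨ε, h0, h2, ?_⟩
  change Neck A (nb A χ ε) (nc A B χ ε) _ _ _ _
  have A1 := neck_Iic h.sA h.left
  have A2 := neck_Iic (ham_sd h.sA) A1
  have B1 : ∀ t ≥ 1 / 5, deriv B t = 0 := fun t ht => by rw [h.dB, A1 _ (by linarith), neg_zero]
  have B2 : ∀ t ≥ 1 / 5, deriv (deriv B) t = 0 := fun t ht => by rw [h.ddB, A2 _ (by linarith)]
  have x1 := neck_Iic h.sχ h.χ1
  have x2 := neck_Iic (ham_sd h.sχ) x1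
  have y1 := neck_Ici h.sχ h.χ0
  have y2 := neck_Ici (ham_sd h.sχ) y1
  have dA : ∀ t, deriv A t ≤ 0 := fun t => (le_or_gt t (-1 / 5)).elim (fun c => (A1 t c).le)
    fun c => (h.d1 t c).le
  have dB : ∀ t, 0 ≤ deriv B t := fun t => by rw [h.dB]; linarith [dA (-t)]
  have dB' : ∀ t < 1 / 5, 0 < deriv B t := fun t ht => by
    rw [h.dB]; linarith [h.d1 (-t) (by linarith)]
  have ddB : ∀ t ∈ Icc (-1 / 5 : ℝ) (1 / 5), deriv (deriv B) t ≤ 0 := fun t ht => by
    rw [h.ddB]; exact h.d2 _ ⟨by linarith [ht.2], by linarith [ht.1]⟩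
  have dm : ∀ {f : ℝ → ℝ}, ContDiff ℝ ∞ f → (∀ t, 0 < f t) → ∀ t,
      HasDerivAt (fun t => -deriv f t / (2 * f t ^ 2))
        (-deriv (deriv f) t / (2 * f t ^ 2) + deriv f t ^ 2 / f t ^ 3) t := fun hf hp t => by
    have := (hp t).ne'
    refine ((ham_d (ham_sd hf) t).neg.div (((ham_d hf t).pow 2).const_mul 2)
      (by simpa using this)).congr_deriv ?_
    simp only [Pi.pow_apply, Pi.neg_apply]
    push_cast
    field_simp
    ring
  have HL : ∀ t ≤ -1 / 10, ∀ p : ℝ × ℝ, ∀ q : ℝ × ℝ, G1 A (nb A χ ε) (nc A B χ ε) t p q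
      = deriv A t * (p.1 + ε * p.2) * (q.1 + ε * q.2) + deriv B t * p.2 * q.2 ∧
      G2 A (nb A χ ε) (nc A B χ ε) t p p
      = deriv (deriv A) t * (p.1 + ε * p.2) ^ 2 + deriv (deriv B) t * p.2 ^ 2 ∧
      G0 A (nb A χ ε) (nc A B χ ε) t p q
      = A t * (p.1 + ε * p.2) * (q.1 + ε * q.2) + B t * p.2 * q.2 := fun t ht p q => by
    simp [h.G1_eq, h.G2_eq, neck_G0, x1 t ht, x2 t ht, h.χ1 t ht]
  have GR : ∀ t ≥ 1 / 10, ∀ p : ℝ × ℝ, ∀ q : ℝ × ℝ, G1 A (nb A χ ε) (nc A B χ ε) t p q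
      = deriv A t * p.1 * q.1 + deriv B t * p.2 * q.2 ∧
      G2 A (nb A χ ε) (nc A B χ ε) t p p
      = deriv (deriv A) t * p.1 ^ 2 + deriv (deriv B) t * p.2 ^ 2 ∧
      G0 A (nb A χ ε) (nc A B χ ε) t p q = A t * p.1 * q.1 + B t * p.2 * q.2 := fun t ht p q => by
    simp [h.G1_eq, h.G2_eq, neck_G0, y1 t ht, y2 t ht, h.χ0 t ht]
  refine ⟨h.sA, h.sb ε, h.sc ε, h.G0_pos ε, fun t => (dm h.sB h.posB t).differentiableAt,
    fun t => (dm h.sA h.pos t).differentiableAt, fun t ht => ?_, fun t ht => ?_,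
    fun t ht' p hp hV hx => ?_, fun t ht' p hp hV hx => ?_, fun p hp => ?_, fun p hp => ?_⟩
  · have a1 := h.posB t
    have a2 := dB t
    have G := HL t (by linarith)
    have c := h.conv (-t) (by linarith)
    rw [← h.refl, ← h.ddB, ← neg_sq, ← h.dB] at c
    refine ⟨div_nonpos_of_nonpos_of_nonneg (by linarith) (by positivity), ?_, fun p q => ?_,
      fun p => ?_⟩
    · rw [(dm h.sB h.posB t).deriv, (G _ _).2.2, ← sub_nonneg]
      refine (div_nonneg (sub_nonneg.2 c) (show 0 ≤ 4 * B t ^ 3 by positivity)).trans_eq ?_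
      field_simp
      ring
    · rw [(G _ _).1, (G _ _).2.2, (G _ _).2.2, A1 t ht]
      field_simp
      ring
    · rw [(dm h.sB h.posB t).deriv, (G _ p).2.1, (G _ _).1, (G _ _).2.2, A1 t ht, A2 t ht]
      field_simp
      ring
  · have a1 := h.pos t
    have a2 := dA t
    have G := GR t (by linarith)
    have c := h.conv t ht
    refine ⟨div_nonneg (by linarith) (by positivity), ?_, fun p q => ?_, fun p => ?_⟩
    · rw [(dm h.sA h.pos t).deriv, (G _ _).2.2, ← sub_nonneg]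
      refine (div_nonneg (sub_nonneg.2 c) (show 0 ≤ 4 * A t ^ 3 by positivity)).trans_eq ?_
      field_simp
      ring
    · rw [(G _ _).1, (G _ _).2.2, (G _ _).2.2, B1 t ht]
      field_simp
      ring
    · rw [(dm h.sA h.pos t).deriv, (G _ p).2.1, (G _ _).1, (G _ _).2.2, B1 t ht, B2 t ht]
      field_simp
      ring
  · rcases le_total t (-1 / 10) with c | c
    · have G := HL t c
      rw [(G _ _).1] at hV hx
      have hR : p.2 ≠ 0 := fun hR => by
        have hP := mul_self_pos.2 fun h' => hp (Prod.ext h' hR)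
        rw [hR] at hV hx
        rcases ht'.1.eq_or_lt with e | e
        · simp [← e, A1] at hx
        · nlinarith [h.d1 t e]
      have := neck_dl1 (A := A t) (P := p.1 + ε * p.2) (e := 0) (h.posB t) (dA t) (dB t)
        (h.d2 t ht') (ddB t ht') (by linarith) hR (by simp; positivity) (by simpa using (h.posB t).le)
        (by nlinarith [h.d2 t ht', h.posB t])
      rw [CC, (G _ _).1, (G _ _).1, (G _ p).2.1, (G _ _).2.2, (G _ _).2.2]
      refine ⟨by simpa using this.1, this.2.trans_eq' ?_⟩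
      unfold EE
      ring
    rcases le_total t (1 / 10) with c' | c'
    · exact h.CC_of (by simp) ((hm t ⟨c, c'⟩ p hp).1.resolve_left (not_lt.2 hV))
    · have G := GR t c'
      obtain ⟨t1, t2, t3⟩ := ht t ⟨c', ht'.2⟩
      have a1 := h.d1 t (by linarith)
      rw [(G _ _).1] at hV
      have hR : p.2 ≠ 0 := fun hR => by
        have hP := mul_self_pos.2 fun h' => hp (Prod.ext h' hR)
        rw [hR] at hV
        nlinarith
      have := neck_dl1 (A := A t) (P := p.1) (e := -ε) (h.posB t) (dA t) (dB t)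
        (h.d2 t ht') (ddB t ht') (by linarith) hR (by
          refine le_of_mul_le_mul_left ?_ (neg_pos.2 a1)
          have b1 := mul_le_mul_of_nonneg_right t1.le (sq_nonneg p.2)
          have b2 := mul_nonneg (show 0 ≤ 16 * ε ^ 2 * A t ^ 2 by positivity) hV
          nlinarith) (by linarith) (by linarith)
      rw [CC, (G _ _).1, (G _ _).1, (G _ p).2.1, (G _ _).2.2, (G _ _).2.2]
      refine ⟨by simpa using this.1, this.2.trans_eq' ?_⟩
      unfold EE
      ring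
  · rcases le_total t (-1 / 10) with c | c
    · have G := HL t c
      rw [(G _ _).1] at hV
      have hP : p.1 + ε * p.2 ≠ 0 := fun hP => by
        have hR := mul_self_pos.2 fun h' : p.2 = 0 => hp (Prod.ext (by simpa [h'] using hP) h')
        rw [hP] at hV
        nlinarith [dB' t (by linarith)]
      have := neck_dl2 (R := p.2) (h.pos t) (dA t) (dB t) (h.d2 t ht') (ddB t ht') (by linarith) hP
      rw [CC, (G _ _).1, (G _ _).1, (G _ p).2.1, (G _ _).2.2, (G _ _).2.2]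
      refine ⟨by simpa using this.1, this.2.trans_eq' ?_⟩
      unfold EE
      ring
    rcases le_total t (1 / 10) with c' | c'
    · exact h.CC_of (by simp) ((hm t ⟨c, c'⟩ p hp).2.resolve_left (not_lt.2 hV))
    · have G := GR t c'
      rw [(G _ _).1] at hV hx
      have hP : p.1 ≠ 0 := fun hP => by
        have hR := mul_self_pos.2 fun h' => hp (Prod.ext hP h')
        rw [hP] at hV hx
        rcases ht'.2.eq_or_lt with e | e
        · rw [B1 t e.ge] at hx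
          exact hx.elim (· e) (by simp)
        · nlinarith [dB' t e]
      have := neck_dl2 (R := p.2) (h.pos t) (dA t) (dB t) (h.d2 t ht') (ddB t ht') (by linarith) hP
      rw [CC, (G _ _).1, (G _ _).1, (G _ p).2.1, (G _ _).2.2, (G _ _).2.2]
      refine ⟨by simpa using this.1, this.2.trans_eq' ?_⟩
      unfold EE
      ring
  · rw [(HL _ (by norm_num) _ _).1, A1 _ le_rfl] at hp
    have hR : p.2 = 0 := by
      by_contra hR
      nlinarith [mul_self_pos.2 hR, dB' (-1 / 5) (by norm_num)]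
    refine ⟨by rw [(HL _ (by norm_num) _ _).2.2]; simp [hR], Eventually.of_forall fun t => ?_⟩
    rw [h.G1_eq, hR]
    nlinarith [dA t, mul_self_nonneg p.1]
  · rw [(GR _ (by norm_num) _ _).1, B1 _ le_rfl] at hp
    have hP : p.1 = 0 := by
      by_contra hP
      nlinarith [mul_self_pos.2 hP, h.d1 (1 / 5) (by norm_num)]
    refine ⟨by rw [(GR _ (by norm_num) _ _).2.2]; simp [hP], ?_⟩
    filter_upwards [eventually_ge_nhds (show (1 / 10 : ℝ) < 1 / 5 by norm_num)] with t ht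
    rw [(GR t ht _ _).1, hP]
    nlinarith [dB t, mul_self_nonneg p.2]

end Vale.Agent.P255
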