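import Vale.Agent.P255.Cat
import Vale.Agent.P255.Deck
import Vale.Agent.P255.NeckE
import Vale.Agent.P255.Mono
import Vale.Agent.P255.Glue

set_option maxSynthPendingDepth 3
set_option linter.deprecated false

namespace Vale.Agent.P255

open scoped ContDiff Topology
open Set Filter

theorem final : ∃ Γ : Subgroup (Equiv.Perm (ℝ × ℝ × ℝ)), IsDeck Γ ∧
    (∃ g, IsMetric g ∧ Invariant Γ g ∧ NoConj g) ∧
    ¬∃ g, IsMetric g ∧ Invariant Γ g ∧ NonposCurv g := by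
  obtain ⟨κ, A, B, χ, hP⟩ := prof_exists
  obtain ⟨ε, h0, h2, hN⟩ := neck_exists hP
  obtain ⟨Γ, Ω, x1, y1, x2, y2, hD, hΩ, hcov, htr, m1, m2, m3, m4, r1, r2, r3, r4, n1, n2⟩ :=
    deck_exists h0 h2
  refine ⟨Γ, hD, ?_, fun ⟨g, hg, hi, hK⟩ => ?_⟩
  swap
  · obtain ⟨d, hd⟩ := cat_exists hD hg hi hK
    exact alg_obstruction hd hD.free m1 m2 m3 m4 r1 r2 r3 r4 n1 n2
  have hB : B = fun t => A (-t) := funext hP.refl
  have pB : ∀ t, 0 < B t := fun t => by rw [hP.refl]; exact hP.pos _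
  have sB : ContDiff ℝ ∞ B := hB ▸ hP.sA.comp contDiff_neg
  have sk : ContDiff ℝ ∞ fun t => ε * χ t := contDiff_const.mul hP.sχ
  have iB : ContDiff ℝ ∞ fun t => (B t)⁻¹ := sB.inv fun t => (pB t).ne'
  set α : ℝ → ℝ := fun t => (A t)⁻¹ + (ε * χ t) ^ 2 * (B t)⁻¹ with hα
  set β : ℝ → ℝ := fun t => -(ε * χ t) * (B t)⁻¹ with hβ
  set γ : ℝ → ℝ := fun t => (B t)⁻¹ with hγ
  have sα : ContDiff ℝ ∞ α := (hP.sA.inv fun t => (hP.pos t).ne').add ((sk.pow 2).mul iB)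
  have sβ : ContDiff ℝ ∞ β := sk.neg.mul iB
  have hg : IsMetric (gm α β γ) := by
    refine isMetric_gm sα sβ iB fun t p hp => ?_
    have e : bf (α t) (β t) (γ t) p p
        = (A t)⁻¹ * p.1 ^ 2 + (B t)⁻¹ * (p.2 - ε * χ t * p.1) ^ 2 := by
      simp only [bf, hα, hβ, hγ]; ring
    have a1 := inv_pos.2 (hP.pos t)
    have a2 := inv_pos.2 (pB t)
    rw [e]
    by_cases h : p.1 = 0
    · have : p.2 ≠ 0 := fun h' => hp (Prod.ext h h')
      simp only [h, mul_zero, sub_zero]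
      positivity
    · positivity
  have hi : InvM α β γ A (fun t => ε * χ t * A t) fun t => (ε * χ t) ^ 2 * A t + B t := fun t => by
    have a1 := (hP.pos t).ne'
    have a2 := (pB t).ne'
    simp only [hα, hβ, hγ]
    refine ⟨?_, ?_, ?_, ?_⟩ <;> field_simp <;> ring
  obtain ⟨S, hS1, hS2, hS3⟩ := lyap_exists sα sβ iB hN hi hg
  have eR : ∀ z : V3, 1 / 4 < z.1 → gm α β γ z = gR κ z := fun z hz => by
    simp only [gm, gR, hα, hβ, hγ, hP.right z.1 (by linarith), hP.χ0 z.1 (by linarith), hP.refl,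
      hP.left (-z.1) (by linarith)]
    simp
  have eL : ∀ z : V3, z.1 < -1 / 4 → gm α β γ z = gL ε κ z := fun z hz => by
    simp only [gm, gL, hα, hβ, hγ, hP.left z.1 (by linarith), hP.χ1 z.1 (by linarith), hP.refl,
      hP.right (-z.1) (by linarith), show -z.1 + 1 / 4 = 1 / 4 - z.1 by ring]
    simp
  refine glue hD.smooth hΩ hcov hg (fun z v => hS2 _ _) (fun φ hφ z hz hz' => ?_) hS3
  rcases htr φ hφ z hz hz' with ⟨a, b, h⟩ | ⟨a1, a2, h⟩ | ⟨a1, a2, h⟩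
  · have e : fderiv ℝ φ z = ContinuousLinearMap.id ℝ V3 := by
      rw [show (φ : V3 → V3) = fun y => y + (0, a, b) from funext h]
      simp
    have e' : (φ z).1 = z.1 := by simp [h]
    refine ⟨fun u v => ?_, fun u v => ?_⟩
    · simp only [e, gm_apply, e', ContinuousLinearMap.id_apply]
    · simp only [e, e', ContinuousLinearMap.id_apply]
  · refine ⟨fun u v => ?_, fun u v => ?_⟩
    · rw [eR _ a1, eR _ a2]
      exact h κ u v
    · rw [hS1 _ _ _ (le_abs.2 (Or.inl (by linarith))), hS1 _ _ _ (le_abs.2 (Or.inl (by linarith)))]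
  · refine ⟨fun u v => ?_, fun u v => ?_⟩
    · rw [eL _ a1, eL _ a2]
      exact h κ u v
    · rw [hS1 _ _ _ (le_abs.2 (Or.inr (by linarith))), hS1 _ _ _ (le_abs.2 (Or.inr (by linarith)))]

end Vale.Agent.P255
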