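import Vale.Agent.P255.Mod

set_option maxSynthPendingDepth 3
set_option linter.deprecated false

namespace Vale.Agent.P255

open scoped ContDiff Topology
open Set Filter

theorem hyp_contDiff_uu : ContDiff ℝ ∞ uu := by unfold uu; fun_prop
theorem hyp_contDiff_vv : ContDiff ℝ ∞ vv := by unfold vv; fun_prop
theorem hyp_contDiff_ss : ContDiff ℝ ∞ ss := by unfold ss; fun_prop

theorem contDiff_hyp (γ : SG) : ContDiff ℝ ∞ (hyp γ) := by
  have h1 := hyp_contDiff_uu
  have h2 := hyp_contDiff_vv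
  have h3 := hyp_contDiff_ss
  have a1 : ContDiff ℝ ∞ (uM γ) := by unfold uM; fun_prop
  have a2 : ContDiff ℝ ∞ (vM γ) := by unfold vM; fun_prop
  have a3 : ContDiff ℝ ∞ (sM γ) := by unfold sM; fun_prop
  refine a3.arsinh.prodMk (ContDiff.prodMk (ContDiff.div_const ?_ _) (by fun_prop))
  exact (a1.div a2 fun z => (vM_pos γ z).ne').log fun z => (div_pos (uM_pos γ z) (vM_pos γ z)).ne'

theorem hyp_duu (z : V3) : HasFDerivAt uu ((Real.sinh z.1 * Real.exp z.2.1) • e1 +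
    (Real.cosh z.1 * Real.exp z.2.1) • e2) z := by
  have h := (e1.hasFDerivAt (x := z)).cosh.mul (e2.hasFDerivAt (x := z)).exp
  refine h.congr_fderiv ?_
  ext <;> simp [e1, e2] <;> ring

theorem hyp_dvv (z : V3) : HasFDerivAt vv ((Real.sinh z.1 * Real.exp (-z.2.1)) • e1 -
    (Real.cosh z.1 * Real.exp (-z.2.1)) • e2) z := by
  have h := (e1.hasFDerivAt (x := z)).cosh.mul (e2.hasFDerivAt (x := z)).neg.exp
  refine h.congr_fderiv ?_
  ext <;> simp [e1, e2] <;> ring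

theorem hyp_dss (z : V3) : HasFDerivAt ss (Real.cosh z.1 • e1) z :=
  (e1.hasFDerivAt (x := z)).sinh

theorem hyp_iso (γ : SG) (κ : ℝ) (z : V3) : IsoAt (gH κ) (gH κ) (hyp γ) z := by
  have hd : HasFDerivAt (hyp γ) (fderiv ℝ (hyp γ) z) z :=
    ((contDiff_hyp γ).differentiable (by simp) z).hasFDerivAt
  have u1 := (hyp_duu (hyp γ z)).comp z hd
  have v1 := (hyp_dvv (hyp γ z)).comp z hd
  have s1 := (hyp_dss (hyp γ z)).comp z hd
  have w1 := (e3.hasFDerivAt (x := hyp γ z)).comp z hd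
  have u2 := u1.unique ((((hyp_duu z).const_mul (γ.1 0 0 ^ 2)).add
    ((hyp_dss z).const_mul (2 * γ.1 0 0 * γ.1 0 1))).add ((hyp_dvv z).const_mul (γ.1 0 1 ^ 2))
    |>.congr_of_eventuallyEq (Eventually.of_forall fun y => uu_hyp γ y))
  have v2 := v1.unique ((((hyp_duu z).const_mul (γ.1 1 0 ^ 2)).add
    ((hyp_dss z).const_mul (2 * γ.1 1 0 * γ.1 1 1))).add ((hyp_dvv z).const_mul (γ.1 1 1 ^ 2))
    |>.congr_of_eventuallyEq (Eventually.of_forall fun y => vv_hyp γ y))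
  have s2 := s1.unique ((((hyp_duu z).const_mul (γ.1 0 0 * γ.1 1 0)).add
    ((hyp_dss z).const_mul (γ.1 0 0 * γ.1 1 1 + γ.1 0 1 * γ.1 1 0))).add
    ((hyp_dvv z).const_mul (γ.1 0 1 * γ.1 1 1))
    |>.congr_of_eventuallyEq (Eventually.of_forall fun y => ss_hyp γ y))
  have w2 := w1.unique (((e3.hasFDerivAt (x := z)).add_const γ.2.toAdd).congr_of_eventuallyEq
    (Eventually.of_forall fun y => rfl))
  have key : ∀ (z : V3) (a b : V3), a.1 * b.1 + Real.cosh z.1 ^ 2 * (a.2.1 * b.2.1) =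
      (Real.cosh z.1 * a.1) * (Real.cosh z.1 * b.1) -
      ((Real.sinh z.1 * Real.exp z.2.1 * a.1 + Real.cosh z.1 * Real.exp z.2.1 * a.2.1) *
        (Real.sinh z.1 * Real.exp (-z.2.1) * b.1 - Real.cosh z.1 * Real.exp (-z.2.1) * b.2.1) +
      (Real.sinh z.1 * Real.exp z.2.1 * b.1 + Real.cosh z.1 * Real.exp z.2.1 * b.2.1) *
        (Real.sinh z.1 * Real.exp (-z.2.1) * a.1 - Real.cosh z.1 * Real.exp (-z.2.1) * a.2.1)) / 2 := by
    intro z a b
    have h1 := Real.cosh_sq' z.1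
    have h2 : Real.exp z.2.1 * Real.exp (-z.2.1) = 1 := by rw [← Real.exp_add]; simp
    linear_combination (-(a.1 * b.1)) * h1 + (Real.sinh z.1 ^ 2 * (a.1 * b.1) -
      Real.cosh z.1 ^ 2 * (a.2.1 * b.2.1)) * h2
  intro a b
  have ua := congrArg (fun L => L a) u2
  have ub := congrArg (fun L => L b) u2
  have va := congrArg (fun L => L a) v2
  have vb := congrArg (fun L => L b) v2
  have sa := congrArg (fun L => L a) s2
  have sb := congrArg (fun L => L b) s2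
  have wa := congrArg (fun L => L a) w2
  have wb := congrArg (fun L => L b) w2
  simp only [ContinuousLinearMap.comp_apply, ContinuousLinearMap.add_apply,
    ContinuousLinearMap.sub_apply, ContinuousLinearMap.smul_apply, smul_eq_mul, e1, e2, e3,
    ContinuousLinearMap.coe_fst', ContinuousLinearMap.coe_snd'] at ua ub va vb sa sb wa wb
  simp only [gH, gm_apply, bf, zero_mul, add_zero, ← add_assoc]
  rw [key (hyp γ z), key z, ua, ub, va, vb, sa, sb, wa, wb]
  have hdet := γ.det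
  generalize Real.sinh z.1 * Real.exp z.2.1 * a.1 + Real.cosh z.1 * Real.exp z.2.1 * a.2.1 = p1
  generalize Real.sinh z.1 * Real.exp z.2.1 * b.1 + Real.cosh z.1 * Real.exp z.2.1 * b.2.1 = p2
  generalize Real.sinh z.1 * Real.exp (-z.2.1) * a.1 - Real.cosh z.1 * Real.exp (-z.2.1) * a.2.1 = q1
  generalize Real.sinh z.1 * Real.exp (-z.2.1) * b.1 - Real.cosh z.1 * Real.exp (-z.2.1) * b.2.1 = q2
  generalize Real.cosh z.1 * a.1 = r1
  generalize Real.cosh z.1 * b.1 = r2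
  linear_combination (γ.1 0 0 * γ.1 1 1 - γ.1 0 1 * γ.1 1 0 + 1) *
    (r1 * r2 - (p1 * q2 + p2 * q1) / 2) * hdet

theorem hyp_mh (r c : ℝ) (z : V3) : hyp (mh r c) z = z + (0, 2 * Real.log r, -c) := by
  refine V3.ext' ?_ ?_ ?_
  · rw [uu_hyp]
    simp only [uM, mh, uu, Matrix.SpecialLinearGroup.coe_mk, Matrix.of_apply, Matrix.cons_val',
      Matrix.cons_val_zero, Matrix.cons_val_one, Prod.fst_add, Prod.snd_add, add_zero,
      Real.exp_add, two_mul (Real.log r)]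
    ring
  · rw [ss_hyp]
    simp only [sM, mh, ss, Matrix.SpecialLinearGroup.coe_mk, Matrix.of_apply, Matrix.cons_val',
      Matrix.cons_val_zero, Matrix.cons_val_one, Prod.fst_add, add_zero, ← Real.exp_add,
      Matrix.cons_val_fin_one]
    simp
  · simp [hyp, mh]

theorem hyp_mul_apply (γ δ : SG) (i j : Fin 2) :
    (γ * δ).1 i j = γ.1 i 0 * δ.1 0 j + γ.1 i 1 * δ.1 1 j := by
  simp [Matrix.mul_apply, Fin.sum_univ_two]

theorem hyp_xh_sq_val (r c : ℝ) : xh r c ^ 2 = (-1, Multiplicative.ofAdd (6 * c)) := by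
  have := kp_sq r
  refine Prod.ext ?_ ?_
  · ext i j
    rw [sq, hyp_mul_apply]
    fin_cases i <;> fin_cases j <;> simp [xh] <;> nlinarith
  · simp only [xh, Prod.pow_snd, ← ofAdd_nsmul]
    congr 1
    simp only [nsmul_eq_mul]
    push_cast
    ring

theorem hyp_xh_sq (r c : ℝ) (z : V3) : hyp (xh r c ^ 2) z = z + (0, 0, 6 * c) := by
  rw [hyp_xh_sq_val]
  refine V3.ext' ?_ ?_ ?_
  · rw [uu_hyp]; simp [uM, uu]
  · rw [ss_hyp]; simp [sM, ss]
  · simp [hyp]

theorem hyp_sg {r : ℝ} (hr : 1 < r) : sg r * (r - r⁻¹) = 1 :=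
  inv_mul_cancel₀ (sub_pos.2 ((inv_lt_one_of_one_lt₀ hr).trans hr)).ne'

theorem hyp_sg_pos {r : ℝ} (hr : 1 < r) : 0 < sg r :=
  inv_pos.2 (sub_pos.2 ((inv_lt_one_of_one_lt₀ hr).trans hr))

theorem hyp_kp_pos (r : ℝ) : 0 < kp r := Real.sqrt_pos.2 (by positivity)

theorem hyp_yh_val {r : ℝ} (hr : 1 < r) (c : ℝ) :
    (yh r c).1 0 0 = r * sg r ∧ (yh r c).1 0 1 = -(r * kp r) ∧ (yh r c).1 1 0 = r⁻¹ * kp r ∧
      (yh r c).1 1 1 = -(r⁻¹ * sg r) ∧ (yh r c).2.toAdd = 2 * c := by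
  have h0 : 0 < r := by linarith
  simp only [yh, hyp_mul_apply]
  simp [mh, xh, Real.exp_neg, Real.exp_log h0]
  ring

theorem xh_sq_eq {r : ℝ} (hr : 1 < r) (c : ℝ) : xh r c ^ 2 = yh r c ^ 3 := by
  obtain ⟨a1, a2, a3, a4, a5⟩ := hyp_yh_val hr c
  have h1 := hyp_sg hr
  have h2 := (yh r c).det
  have h3 : (yh r c).1 0 0 + (yh r c).1 1 1 = 1 := by rw [a1, a4]; linear_combination h1
  rw [hyp_xh_sq_val]
  refine Prod.ext ?_ ?_
  · have h4 : (yh r c).1 1 1 = 1 - (yh r c).1 0 0 := by linarith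
    rw [h4] at h2
    ext i j
    rw [pow_three, hyp_mul_apply, hyp_mul_apply, hyp_mul_apply]
    fin_cases i <;> fin_cases j <;> simp [h4]
    · linear_combination ((yh r c).1 0 0 + 1) * h2
    · linear_combination (yh r c).1 0 1 * h2
    · linear_combination (yh r c).1 1 0 * h2
    · linear_combination (2 - (yh r c).1 0 0) * h2
  · apply Multiplicative.toAdd.injective
    simp [a5]
    ring

theorem xh_sq_central (r c : ℝ) (γ : SG) : xh r c ^ 2 * γ = γ * xh r c ^ 2 := by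
  rw [hyp_xh_sq_val]
  refine Prod.ext ?_ (mul_comm _ _)
  simp

theorem hyp_mh_mem (r c : ℝ) : mh r c ∈ GH r c := by
  have : mh r c = yh r c * (xh r c)⁻¹ := by rw [yh, mul_inv_cancel_right]
  rw [this]
  exact mul_mem (Subgroup.subset_closure (by simp)) (inv_mem (Subgroup.subset_closure (by simp)))

theorem hyp_mh_zpow (r c : ℝ) (k : ℤ) (z : V3) :
    mh r c ^ k • z = z + (0, k * (2 * Real.log r), k * -c) := by
  induction k using Int.induction_on generalizing z with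
  | zero => simp [Prod.ext_iff]
  | succ k ih =>
    rw [zpow_add_one, mul_smul, ih, smul_eq_hyp, hyp_mh]
    simp [Prod.ext_iff]
    constructor <;> ring
  | pred k ih =>
    have : (mh r c)⁻¹ • z = z + (0, -(2 * Real.log r), c) := by
      rw [inv_smul_eq_iff, smul_eq_hyp, hyp_mh]
      simp [Prod.ext_iff]
    rw [zpow_sub_one, mul_smul, ih, this]
    simp [Prod.ext_iff]
    constructor <;> ring

theorem hyp_ineq {M l0 l t S : ℝ} (hM : 0 < M) (h9 : l0 < l) (h10 : 0 < l) (h11 : l < 1)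
    (ht0 : 0 ≤ t) (ht1 : 2 * M + l⁻¹ - l0 ≤ t * (l - l0)) (hS : S ≤ M * Real.cosh t) :
    S - (M - l0) * Real.sinh t ≤ Real.sinh (t - -Real.log l) := by
  have hE := Real.add_one_le_exp t
  have hE0 := Real.exp_pos (-t)
  have hE1 : Real.exp (-t) ≤ 1 := Real.exp_le_one_iff.2 (by linarith)
  have e2 : Real.sinh (t - -Real.log l) = (l * Real.exp t - l⁻¹ * Real.exp (-t)) / 2 := by
    rw [Real.sinh_eq, sub_neg_eq_add, neg_add, Real.exp_add, Real.exp_add,
      Real.exp_neg (Real.log l), Real.exp_log h10]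
    ring
  have b1 : 1 < l⁻¹ := (one_lt_inv₀ h10).2 h11
  have b2 : 0 ≤ 2 * M + l⁻¹ - l0 := by linarith
  have b3 : (2 * M + l⁻¹ - l0) * Real.exp (-t) ≤ 2 * M + l⁻¹ - l0 :=
    mul_le_of_le_one_right b2 hE1
  have b4 : t * (l - l0) ≤ Real.exp t * (l - l0) :=
    mul_le_mul_of_nonneg_right (by linarith) (by linarith)
  rw [e2, Real.sinh_eq]
  rw [Real.cosh_eq] at hS
  linarith

theorem wall_desc {r : ℝ} (hr : 1 < r) (c : ℝ) : Desc (GH r c) fun z : V3 => z.1 := by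
  have h0 : 0 < r := by linarith
  have hl : 0 < Real.log r := Real.log_pos hr
  have h1 := hyp_sg hr
  have h2 := hyp_sg_pos hr
  have h3 := hyp_kp_pos r
  have h4 := kp_sq r
  have h5 : r * r⁻¹ = 1 := mul_inv_cancel₀ h0.ne'
  have h6 : 0 < r⁻¹ := inv_pos.2 h0
  obtain ⟨M, hM⟩ : ∃ M, M = sg r * kp r * (r + r⁻¹) := ⟨_, rfl⟩
  have hM0 : 0 < M := by rw [hM]; positivity
  have h7 : sg r * (r + r⁻¹) < 2 * kp r := by
    refine lt_of_pow_lt_pow_left₀ 2 (by positivity) ?_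
    have : (sg r * (r + r⁻¹)) ^ 2 = 1 + 4 * sg r ^ 2 := by
      linear_combination (sg r * (r - r⁻¹) + 1) * h1 + 4 * sg r ^ 2 * h5
    rw [this, mul_pow, h4]; linarith
  obtain ⟨l0, hl0⟩ : ∃ l0, l0 = M - sg r ^ 2 - kp r ^ 2 := ⟨_, rfl⟩
  have h8 : l0 < 1 := by
    have := mul_lt_mul_of_pos_left h7 h3
    rw [hl0, hM]; linarith
  obtain ⟨l, hl'⟩ : ∃ l, l = (1 + max l0 0) / 2 := ⟨_, rfl⟩
  have h9 : l0 < l := by have := le_max_left l0 0; linarith
  have h10 : 0 < l := by have := le_max_right l0 0; linarith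
  have h11 : l < 1 := by have := max_lt h8 one_pos; linarith
  refine ⟨max 0 ((2 * M + l⁻¹ - l0) / (l - l0)), -Real.log l, neg_pos.2 (Real.log_neg h10 h11),
    fun z hz => ?_⟩
  obtain ⟨k, hk⟩ : ∃ k : ℤ, |z.2.1 + k * (2 * Real.log r)| ≤ Real.log r := by
    refine ⟨-round (z.2.1 / (2 * Real.log r)), ?_⟩
    have := abs_sub_round (z.2.1 / (2 * Real.log r))
    rw [show z.2.1 + ((-round (z.2.1 / (2 * Real.log r)) : ℤ) : ℝ) * (2 * Real.log r) =
      (z.2.1 / (2 * Real.log r) - round (z.2.1 / (2 * Real.log r))) * (2 * Real.log r) by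
        push_cast; field_simp; ring, abs_mul, abs_of_pos (by positivity : 0 < 2 * Real.log r)]
    nlinarith
  refine ⟨xh r c * mh r c ^ k, mul_mem (Subgroup.subset_closure (by simp))
    (zpow_mem (hyp_mh_mem r c) k), ?_⟩
  rw [mul_smul, hyp_mh_zpow, smul_eq_hyp]
  have hx := Real.cosh_le_cosh.2 (hk.trans (le_abs_self _))
  rw [Real.cosh_eq, Real.cosh_eq, Real.exp_neg (Real.log r), Real.exp_log h0] at hx
  have e : sM (xh r c) (z + (0, k * (2 * Real.log r), k * -c)) =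
      sg r * kp r * (Real.cosh z.1 * (Real.exp (z.2.1 + k * (2 * Real.log r)) +
        Real.exp (-(z.2.1 + k * (2 * Real.log r))))) - (M - l0) * Real.sinh z.1 := by
    rw [hl0]
    simp [sM, xh, uu, vv, ss]
    ring
  refine Real.sinh_le_sinh.1 ((ss_hyp _ _).le.trans (e.le.trans ?_))
  refine hyp_ineq hM0 h9 h10 h11 ((le_max_left _ _).trans hz)
    ((div_le_iff₀ (sub_pos.2 h9)).1 ((le_max_right _ _).trans hz)) ?_
  have := mul_le_mul_of_nonneg_left hx (mul_pos (mul_pos h2 h3) (Real.cosh_pos z.1)).le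
  rw [hM]; linarith

end Vale.Agent.P255
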