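import Vale.Agent.P255.Defs

/-! Curvature, geodesics and Jacobi fields of a smooth Riemannian metric on a manifold modelled on
a normed space `V`, read in the charts of the atlas. -/

namespace Vale.Agent.P255

open scoped ContDiff Manifold

/-- smooth Riemannian metrics on the manifold `M` -/
abbrev RMetric (V : Type) [NormedAddCommGroup V] [NormedSpace ℝ V] (M : Type) [TopologicalSpace M]
    [ChartedSpace V M] [IsManifold 𝓘(ℝ, V) ∞ M] : Type :=
  Bundle.ContMDiffRiemannianMetric 𝓘(ℝ, V) ∞ V (fun x : M => TangentSpace 𝓘(ℝ, V) x)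

variable {V : Type} [NormedAddCommGroup V] [NormedSpace ℝ V] {M : Type} [TopologicalSpace M]
  [ChartedSpace V M] [IsManifold 𝓘(ℝ, V) ∞ M]

/-- the metric `g` in the coordinates of the chart `φ` -/
noncomputable def loc (g : RMetric V M) (φ : OpenPartialHomeomorph M V) (y : V) :
    V →L[ℝ] V →L[ℝ] ℝ :=
  ContinuousLinearMap.bilinearComp (E := V) (F := V) (E' := V) (F' := V) (g.inner (φ.symm y))
    (mfderiv 𝓘(ℝ, V) 𝓘(ℝ, V) φ.symm y) (mfderiv 𝓘(ℝ, V) 𝓘(ℝ, V) φ.symm y)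

/-- a vector field along `c` in the coordinates of the chart `φ` -/
noncomputable def locVF (φ : OpenPartialHomeomorph M V) (c : ℝ → M)
    (J : ∀ s, TangentSpace 𝓘(ℝ, V) (c s)) (s : ℝ) : V :=
  mfderiv 𝓘(ℝ, V) 𝓘(ℝ, V) φ (c s) (J s)

/-- nonpositive sectional curvature -/
def MNonposCurv (g : RMetric V M) : Prop :=
  ∀ φ ∈ atlas V M, ∀ y ∈ φ.target, ∀ X Y, loc g φ y (curv (loc g φ) y X Y Y) X ≤ 0

def MIsGeodesic (g : RMetric V M) (c : ℝ → M) : Prop :=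
  Continuous c ∧ ∀ φ ∈ atlas V M, ∀ s, c s ∈ φ.source →
    ContDiffAt ℝ 2 (φ ∘ c) s ∧ cov (loc g φ) (φ ∘ c) (deriv (φ ∘ c)) s = 0

def MIsJacobi (g : RMetric V M) (c : ℝ → M) (J : ∀ s, TangentSpace 𝓘(ℝ, V) (c s)) : Prop :=
  ∀ φ ∈ atlas V M, ∀ s, c s ∈ φ.source → ContDiffAt ℝ 2 (locVF φ c J) s ∧
    cov (loc g φ) (φ ∘ c) (cov (loc g φ) (φ ∘ c) (locVF φ c J)) s
      + curv (loc g φ) (φ (c s)) (locVF φ c J s) (deriv (φ ∘ c) s) (deriv (φ ∘ c) s) = 0

/-- no nonzero Jacobi field along a geodesic vanishes at two distinct times -/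
def MNoConj (g : RMetric V M) : Prop :=
  ∀ c J, MIsGeodesic g c → MIsJacobi g c J → ∀ a b, a ≠ b → J a = 0 → J b = 0 → ∀ s, J s = 0

end Vale.Agent.P255
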