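import Vale.Agent.P255.MDefs
import Vale.Agent.P255.Lift

/-! From invariant metrics on `V` to metrics on the quotient manifold. -/

set_option maxSynthPendingDepth 3
set_option linter.deprecated false
set_option backward.isDefEq.respectTransparency false

namespace Vale.Agent.P255

open scoped ContDiff Topology Manifold
open Set Filter Bundle

variable {V : Type} [NormedAddCommGroup V] [NormedSpace ℝ V] {M : Type} [TopologicalSpace M]
  [ChartedSpace V M] {Γ : Subgroup (Equiv.Perm V)} {pr : V → M}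

structure MCov (Γ : Subgroup (Equiv.Perm V)) (pr : V → M) : Prop where
  sm : ∀ γ ∈ Γ, ContDiff ℝ ∞ γ
  cov : IsCoveringMap pr
  orb : ∀ y y', pr y = pr y' ↔ ∃ γ ∈ Γ, γ y = y'
  atl : ∀ φ ∈ atlas V M, ⇑φ.symm = pr
  all : ∀ y, ∃ φ ∈ atlas V M, y ∈ φ.target

theorem MCov.right (h : MCov Γ pr) {φ : OpenPartialHomeomorph M V} (hφ : φ ∈ atlas V M) {x : M}
    (hx : x ∈ φ.source) : pr (φ x) = x := by
  rw [← h.atl φ hφ]; exact φ.left_inv hx

theorem MCov.left (h : MCov Γ pr) {φ : OpenPartialHomeomorph M V} (hφ : φ ∈ atlas V M) {y : V}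
    (hy : y ∈ φ.target) : pr y ∈ φ.source ∧ φ (pr y) = y := by
  rw [← h.atl φ hφ]; exact ⟨φ.map_target hy, φ.right_inv hy⟩

theorem MCov.germ (h : MCov Γ pr) {φ : OpenPartialHomeomorph M V} (hφ : φ ∈ atlas V M) {y : V}
    (hy : pr y ∈ φ.source) : ∃ γ ∈ Γ, φ ∘ pr =ᶠ[𝓝 y] γ := by
  obtain ⟨γ, hγ, e⟩ := (h.orb _ _).1 (h.right hφ hy).symm
  refine ⟨γ, hγ, ?_⟩
  filter_upwards [(h.sm γ hγ).continuous.continuousAt.eventually
    (φ.open_target.mem_nhds (e ▸ φ.map_source hy))] with z hz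
  rw [Function.comp_apply, (h.orb z _).2 ⟨γ, hγ, rfl⟩, (h.left hφ hz).2]

theorem MCov.isManifold (h : MCov Γ pr) : IsManifold 𝓘(ℝ, V) ∞ M := by
  refine isManifold_of_contDiffOn _ _ _ fun e e' he he' y hy => ?_
  have hy' : y ∈ e.target ∧ e.symm y ∈ e'.source := by simpa using hy
  obtain ⟨γ, hγ, H⟩ := h.germ he' (h.atl e he ▸ hy'.2)
  refine ((h.sm γ hγ).contDiffAt.congr_of_eventuallyEq (EventuallyEq.trans ?_ H)).contDiffWithinAt
  rw [← h.atl e he]
  rfl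

variable [IsManifold 𝓘(ℝ, V) ∞ M]

theorem MCov.smooth (h : MCov Γ pr) : ContMDiff 𝓘(ℝ, V) 𝓘(ℝ, V) ∞ pr := fun y => by
  obtain ⟨φ, hφ, hy⟩ := h.all y
  rw [← h.atl φ hφ]
  exact contMDiffAt_symm_of_mem_maximalAtlas (IsManifold.subset_maximalAtlas hφ) hy

theorem MCov.md (h : MCov Γ pr) (y : V) : MDifferentiableAt 𝓘(ℝ, V) 𝓘(ℝ, V) pr y :=
  (h.smooth y).mdifferentiableAt (by simp)

/-- pull-back of a field of bilinear forms -/
noncomputable def pull (b : M → V →L[ℝ] V →L[ℝ] ℝ) (pr : V → M) (y : V) :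
    V →L[ℝ] V →L[ℝ] ℝ :=
  ContinuousLinearMap.bilinearComp (E := V) (F := V) (E' := V) (F' := V) (b (pr y))
    (mfderiv 𝓘(ℝ, V) 𝓘(ℝ, V) pr y) (mfderiv 𝓘(ℝ, V) 𝓘(ℝ, V) pr y)

theorem MCov.loc_eq (h : MCov Γ pr) (g : RMetric V M) {φ : OpenPartialHomeomorph M V}
    (hφ : φ ∈ atlas V M) : loc g φ = pull g.inner pr := by
  obtain rfl := h.atl φ hφ
  rfl

theorem MCov.dinj (h : MCov Γ pr) (y : V) :
    Function.Injective (mfderiv 𝓘(ℝ, V) 𝓘(ℝ, V) pr y) := by
  obtain ⟨φ, hφ, hy⟩ := h.all y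
  rw [← h.atl φ hφ]
  exact (mdifferentiable_of_mem_atlas (I := 𝓘(ℝ, V)) hφ).symm.mfderiv_injective hy

theorem MCov.isMetric [FiniteDimensional ℝ V] (h : MCov Γ pr) (g : RMetric V M) :
    IsMetric (pull g.inner pr) := by
  refine ⟨contDiff_clm_apply_iff.2 fun v => contDiff_clm_apply_iff.2 fun w => ?_,
    fun y v w => ?_, fun y v hv => ?_⟩
  · have T : ∀ v : V, ContMDiff 𝓘(ℝ, V) (𝓘(ℝ, V).prod 𝓘(ℝ, V)) ∞ fun y => TotalSpace.mk' V
        (E := fun x : M => TangentSpace 𝓘(ℝ, V) x) (pr y) (mfderiv 𝓘(ℝ, V) 𝓘(ℝ, V) pr y v) :=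
      fun v => (h.smooth.contMDiff_tangentMap (m := ∞) (by simp)).comp
        (contMDiff_vectorSpace_iff_contDiff.2 (contDiff_const (c := v)))
    have := ContMDiff.clm_bundle_apply₂ (F₁ := V) (F₂ := V) (F₃ := ℝ) (E₃ := Bundle.Trivial M ℝ)
      (g.contMDiff.comp h.smooth) (T v) (T w)
    exact contMDiff_iff_contDiff.1 fun y => (contMDiffAt_totalSpace.1 (this y)).2
  · exact g.symm (pr y) (mfderiv 𝓘(ℝ, V) 𝓘(ℝ, V) pr y v) (mfderiv 𝓘(ℝ, V) 𝓘(ℝ, V) pr y w)
  · exact g.pos (pr y) (mfderiv 𝓘(ℝ, V) 𝓘(ℝ, V) pr y v)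
      fun e => hv (h.dinj y (e.trans (map_zero _).symm))

theorem MCov.invariant (h : MCov Γ pr) (b : M → V →L[ℝ] V →L[ℝ] ℝ) :
    Invariant Γ (pull b pr) := fun γ hγ y v w => by
  have e : pr ∘ γ = pr := funext fun z => ((h.orb z _).2 ⟨γ, hγ, rfl⟩).symm
  have d := mfderiv_comp y (h.md (γ y))
    (((h.sm γ hγ).differentiable (by simp) y).mdifferentiableAt)
  rw [mfderiv_eq_fderiv] at d
  have : pull b (pr ∘ γ) y v w = pull b pr y v w := by rw [e]
  rw [← this]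
  simp only [pull, ContinuousLinearMap.bilinearComp_apply, d]
  rfl

theorem MCov.nonpos (h : MCov Γ pr) {g : RMetric V M} (hg : MNonposCurv g) :
    NonposCurv (pull g.inner pr) := fun y X Y => by
  obtain ⟨φ, hφ, hy⟩ := h.all y
  simpa only [h.loc_eq g hφ] using hg φ hφ y hy X Y

theorem MCov.pull_eq (h : MCov Γ pr) {g : V → V →L[ℝ] V →L[ℝ] ℝ} (hg : Invariant Γ g) :
    pull (fun x => g (chartAt V x x)) pr = g := by
  ext y v w
  obtain ⟨γ, hγ, H⟩ := h.germ (chart_mem_atlas V (pr y)) (mem_chart_source V (pr y))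
  have d : mfderiv 𝓘(ℝ, V) 𝓘(ℝ, V) pr y = fderiv ℝ γ y := by
    rw [(h.md y).mfderiv, ← H.fderiv_eq]
    simp [writtenInExtChartAt]
  have e : chartAt V (pr y) (pr y) = γ y := H.self_of_nhds
  simp only [pull, ContinuousLinearMap.bilinearComp_apply, d, e]
  exact hg γ hγ y v w

theorem MCov.exists_metric [FiniteDimensional ℝ V] (h : MCov Γ pr)
    {g : V → V →L[ℝ] V →L[ℝ] ℝ} (hg : IsMetric g) (hi : Invariant Γ g) :
    ∃ g' : RMetric V M, pull g'.inner pr = g := by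
  refine ⟨⟨fun x => g (chartAt V x x), fun x v w => hg.symm _ _ _, fun x v hv => hg.pos _ _ hv,
    fun x => ?_, fun x => ?_⟩, h.pull_eq hi⟩
  · obtain ⟨m, hm, H⟩ := lift_coercive hg (chartAt V x x)
    change Bornology.IsVonNBounded ℝ {v : V | g (chartAt V x x) v v < 1}
    refine (NormedSpace.isVonNBounded_ball ℝ V (1 / m + 1)).subset fun v hv => ?_
    have h1 : m * ‖v‖ ^ 2 < 1 := (H v).trans_lt hv
    rw [mem_ball_zero_iff, div_add_one hm.ne', lt_div_iff₀ hm]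
    nlinarith [sq_nonneg (‖v‖ - 1), norm_nonneg v]
  · rw [contMDiffAt_section]
    have c : ContMDiffAt 𝓘(ℝ, V) 𝓘(ℝ, V →L[ℝ] V →L[ℝ] ℝ) ∞ (fun z => g (chartAt V x z)) x :=
      hg.smooth.contMDiff.contMDiffAt.comp x
        (contMDiffAt_of_mem_maximalAtlas (IsManifold.chart_mem_maximalAtlas x)
          (mem_chart_source V x))
    refine c.congr_of_eventuallyEq ?_
    filter_upwards [chart_source_mem_nhds V x] with z hz
    ext v w
    have d := TangentBundle.symmL_trivializationAt (I := 𝓘(ℝ, V)) hz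
    have e := h.right (chart_mem_atlas V x) hz
    rw [hom_trivializationAt_apply, inCoordinates_apply_eq₂ (by simpa using hz) (by simpa using hz)
      (mem_univ _)]
    have d' : ∀ u : V, (trivializationAt V (TangentSpace 𝓘(ℝ, V)) x).symm z u
        = mfderiv 𝓘(ℝ, V) 𝓘(ℝ, V) pr (chartAt V x z) u := fun u => by
      have := congrArg (fun L => L u) d
      rw [← h.atl _ (chart_mem_atlas V x), ← Trivialization.symmL_apply (R := ℝ) _
        (by simpa using hz)]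
      simp [mfderivWithin_univ, -Trivialization.symmL_apply] at this
      exact this
    conv_rhs => rw [← h.pull_eq hi]
    simp [pull, d', e]
    rfl

theorem cov_congr (g : V → V →L[ℝ] V →L[ℝ] ℝ) {c c' W W' : ℝ → V} {s : ℝ} (hc : c =ᶠ[𝓝 s] c')
    (hW : W =ᶠ[𝓝 s] W') : cov g c W =ᶠ[𝓝 s] cov g c' W' := by
  filter_upwards [hc, hW, hc.deriv, hW.deriv] with t a1 a2 a3 a4
  simp only [cov, a1, a2, a3, a4]

theorem MCov.noConj (h : MCov Γ pr) {g : RMetric V M} (hg : NoConj (pull g.inner pr)) :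
    MNoConj g := fun c J hc hJ a b hab ha hb => by
  obtain ⟨y0, hy0⟩ : ∃ y, pr y = c 0 :=
    ⟨_, h.right (chart_mem_atlas V (c 0)) (mem_chart_source V _)⟩
  obtain ⟨F, ⟨-, hF⟩, -⟩ := h.cov.existsUnique_continuousMap_lifts ⟨c, hc.1⟩ 0 y0 hy0
  have hF : ∀ s, pr (F s) = c s := congrFun hF
  choose φ hφ hy using fun s => h.all (F s)
  have hs : ∀ s t, F t ∈ (φ s).target → c t ∈ (φ s).source ∧ φ s (c t) = F t := fun s t ht =>
    hF t ▸ h.left (hφ s) ht
  have ev : ∀ s, ∀ᶠ t in 𝓝 s, F t ∈ (φ s).target := fun s =>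
    F.continuous.continuousAt.eventually ((φ s).open_target.mem_nhds (hy s))
  have inv : ∀ s t, F t ∈ (φ s).target →
      mfderiv 𝓘(ℝ, V) 𝓘(ℝ, V) pr (F t) (locVF (V := V) (φ s) c J t) = J t := fun s t ht => by
    have := congrArg (fun L => L (J t))
      ((mdifferentiable_of_mem_atlas (I := 𝓘(ℝ, V)) (hφ s)).symm_comp_deriv (hs s t ht).1)
    rw [h.atl _ (hφ s), (hs s t ht).2] at this
    exact this
  let W : ℝ → V := fun s => locVF (φ s) c J s
  have e1 : ∀ s, (F : ℝ → V) =ᶠ[𝓝 s] φ s ∘ c := fun s => (ev s).mono fun t ht => (hs s t ht).2.symm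
  have e2 : ∀ s, W =ᶠ[𝓝 s] locVF (φ s) c J := fun s => (ev s).mono fun t ht =>
    h.dinj (F t) ((inv t t (hy t)).trans (inv s t ht).symm)
  have G := fun s => hc.2 _ (hφ s) s (hs s s (hy s)).1
  have K := fun s => hJ _ (hφ s) s (hs s s (hy s)).1
  have := hg F W ⟨contDiff_iff_contDiffAt.2 fun s => (G s).1.congr_of_eventuallyEq (e1 s),
    fun s => ?_⟩ ⟨contDiff_iff_contDiffAt.2 fun s => (K s).1.congr_of_eventuallyEq (e2 s),
    fun s => ?_⟩ a b hab (by simp [W, locVF, ha]) (by simp [W, locVF, hb])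
  · intro s
    rw [← inv s s (hy s)]
    exact (congrArg _ (congrFun this s)).trans (map_zero _)
  · rw [(cov_congr _ (e1 s) (e1 s).deriv).self_of_nhds, ← h.loc_eq g (hφ s)]
    exact (G s).2
  · rw [(cov_congr _ (e1 s) (cov_congr _ (e1 s) (e2 s))).self_of_nhds, (e1 s).deriv_eq,
      ← (hs s s (hy s)).2, ← h.loc_eq g (hφ s)]
    exact (K s).2

theorem exists_mcov [FiniteDimensional ℝ V] (h : IsDeck Γ) :
    ∃ (M : Type) (_ : TopologicalSpace M) (_ : ChartedSpace V M) (pr : V → M),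
      T2Space M ∧ CompactSpace M ∧ ConnectedSpace M ∧ MCov Γ pr := by
  have : ProperSpace V := FiniteDimensional.proper_real V
  have : ContinuousConstSMul Γ V := ⟨fun γ => (h.smooth γ γ.2).continuous⟩
  have : ProperlyDiscontinuousSMul Γ V := ⟨fun {K L} hK hL => by
    refine ((h.proper _ (hK.union hL)).preimage Subtype.val_injective.injOn).subset ?_
    rintro γ ⟨_, ⟨x, hx, rfl⟩, hx'⟩
    exact ⟨γ.2, x, Or.inl hx, Or.inr hx'⟩⟩
  have : IsCancelSMul Γ V := isCancelSMul_iff_eq_one_of_smul_eq.2 fun γ x e =>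
    Subtype.ext (h.free γ γ.2 x e)
  have q := isQuotientCoveringMap_quotientMk_of_properlyDiscontinuousSMul (G := Γ) (E := V)
  generalize Quotient.mk (MulAction.orbitRel Γ V) = pr at q
  have orb : ∀ y y', pr y = pr y' ↔ ∃ γ ∈ Γ, γ y = y' := fun y y' => by
    rw [eq_comm, q.apply_eq_iff_mem_orbit]
    exact ⟨fun ⟨γ, e⟩ => ⟨γ, γ.2, e⟩, fun ⟨γ, hγ, e⟩ => ⟨⟨γ, hγ⟩, e⟩⟩
  choose e he he' using q.isCoveringMap.isLocalHomeomorph
  choose r hr using q.surjective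
  have hm : ∀ x, x ∈ (e (r x)).symm.source := fun x => by
    have := (e (r x)).map_source (he (r x))
    rwa [← he', hr] at this
  let cs : ChartedSpace V (Quotient (MulAction.orbitRel Γ V)) :=
    { atlas := range fun y => (e y).symm
      chartAt x := (e (r x)).symm
      mem_chart_source := hm
      chart_mem_atlas x := ⟨r x, rfl⟩ }
  refine ⟨Quotient (MulAction.orbitRel Γ V), inferInstance, cs, pr, inferInstance, ?_,
    q.surjective.connectedSpace q.isCoveringMap.continuous,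
    ⟨h.smooth, q.isCoveringMap, orb, ?_, fun y => ⟨_, ⟨y, rfl⟩, he y⟩⟩⟩
  · obtain ⟨K, hK, H⟩ := h.cocompact
    refine ⟨(hK.image q.isCoveringMap.continuous).of_isClosed_subset isClosed_univ fun x _ => ?_⟩
    obtain ⟨γ, hγ, hx⟩ := H (r x)
    exact ⟨_, hx, ((orb _ _).2 ⟨γ, hγ, rfl⟩).symm.trans (hr x)⟩
  · rintro _ ⟨y, rfl⟩
    exact (he' y).symm

end Vale.Agent.P255
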