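import Vale.Agent.P255.Chr

/-! Definitions for the model: metrics `dt^2 + g_t` on `ℝ × ℝ × ℝ`, the action of
`SL(2, ℝ) × ℝ`, ping-pong data. -/

set_option maxSynthPendingDepth 3
set_option linter.deprecated false

namespace Vale.Agent.P255

open scoped ContDiff Topology
open Set Filter Real

abbrev V3 : Type := ℝ × ℝ × ℝ

noncomputable def e1 : V3 →L[ℝ] ℝ := ContinuousLinearMap.fst ℝ ℝ (ℝ × ℝ)
noncomputable def e2 : V3 →L[ℝ] ℝ :=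
  (ContinuousLinearMap.fst ℝ ℝ ℝ).comp (ContinuousLinearMap.snd ℝ ℝ (ℝ × ℝ))
noncomputable def e3 : V3 →L[ℝ] ℝ :=
  (ContinuousLinearMap.snd ℝ ℝ ℝ).comp (ContinuousLinearMap.snd ℝ ℝ (ℝ × ℝ))

/-- the symmetric bilinear form with matrix `[[a, b], [b, c]]` -/
def bf (a b c : ℝ) (p q : ℝ × ℝ) : ℝ :=
  a * (p.1 * q.1) + b * (p.1 * q.2 + p.2 * q.1) + c * (p.2 * q.2)

/-- the metric `dt^2 + α dx^2 + 2 β dx dy + γ dy^2` with coefficients depending on `t` -/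
noncomputable def gm (α β γ : ℝ → ℝ) (z : V3) : V3 →L[ℝ] V3 →L[ℝ] ℝ :=
  e1.smulRight e1 + α z.1 • e2.smulRight e2 + β z.1 • (e2.smulRight e3 + e3.smulRight e2)
    + γ z.1 • e3.smulRight e3

theorem gm_apply (α β γ : ℝ → ℝ) (z v w : V3) :
    gm α β γ z v w = v.1 * w.1 + bf (α z.1) (β z.1) (γ z.1) v.2 w.2 := by
  simp [gm, bf, e1, e2, e3]
  ring

theorem contDiff_gm {α β γ : ℝ → ℝ} (hα : ContDiff ℝ ∞ α) (hβ : ContDiff ℝ ∞ β)
    (hγ : ContDiff ℝ ∞ γ) : ContDiff ℝ ∞ (gm α β γ) :=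
  ((contDiff_const.add ((hα.comp contDiff_fst).smul contDiff_const)).add
    ((hβ.comp contDiff_fst).smul contDiff_const)).add ((hγ.comp contDiff_fst).smul contDiff_const)

theorem isMetric_gm {α β γ : ℝ → ℝ} (hα : ContDiff ℝ ∞ α) (hβ : ContDiff ℝ ∞ β)
    (hγ : ContDiff ℝ ∞ γ) (hp : ∀ t p, p ≠ 0 → 0 < bf (α t) (β t) (γ t) p p) :
    IsMetric (gm α β γ) := by
  refine ⟨contDiff_gm hα hβ hγ, fun x v w => by simp only [gm_apply, bf]; ring, fun x v hv => ?_⟩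
  rw [gm_apply]
  by_cases h : v.2 = 0
  · have : v.1 ≠ 0 := fun h' => hv (Prod.ext h' h)
    have := mul_self_pos.2 this
    simpa [h, bf] using this
  · linarith [hp x.1 _ h, mul_self_nonneg v.1]

/-- `φ` is an isometry at `z` from `g` to `g'` -/
def IsoAt {V : Type} [NormedAddCommGroup V] [NormedSpace ℝ V] (g g' : V → V →L[ℝ] V →L[ℝ] ℝ)
    (φ : V → V) (z : V) : Prop :=
  ∀ a b, g' (φ z) (fderiv ℝ φ z a) (fderiv ℝ φ z b) = g z a b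

/-- local monotonicity at `s0`: right lower derivative at least `lam`, no downward jump from
the left -/
def LM (Q : ℝ → ℝ) (s0 lam : ℝ) : Prop :=
  (∀ ε > 0, ∀ᶠ s in 𝓝[>] s0, Q s0 + (lam - ε) * (s - s0) ≤ Q s) ∧
    ∀ ε > 0, ∀ᶠ s in 𝓝[<] s0, Q s ≤ Q s0 + ε

/-- the local Lyapunov property of `g (J, D J) - S` -/
def Lyap {V : Type} [NormedAddCommGroup V] [NormedSpace ℝ V] (g : V → V →L[ℝ] V →L[ℝ] ℝ)
    (S : V → V → V → ℝ) : Prop :=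
  ∀ (x v J w : ℝ → V) (s0 : ℝ), (∀ᶠ s in 𝓝 s0, Sys g x v J w s) →
    ∃ lam, 0 ≤ lam ∧ (J s0 = 0 → w s0 ≠ 0 → 0 < lam) ∧
      LM (fun s => Qlc g (x s) (v s) (J s) (w s) - S (x s) (v s) (J s)) s0 lam

def G0 (a b c : ℝ → ℝ) (t : ℝ) : ℝ × ℝ → ℝ × ℝ → ℝ := bf (a t) (b t) (c t)
noncomputable def G1 (a b c : ℝ → ℝ) (t : ℝ) : ℝ × ℝ → ℝ × ℝ → ℝ :=
  bf (deriv a t) (deriv b t) (deriv c t)
noncomputable def G2 (a b c : ℝ → ℝ) (t : ℝ) : ℝ × ℝ → ℝ × ℝ → ℝ :=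
  bf (deriv (deriv a) t) (deriv (deriv b) t) (deriv (deriv c) t)

/-- the convexity condition in direction `n` -/
def CC (a b c : ℝ → ℝ) (t : ℝ) (p n : ℝ × ℝ) : Prop :=
  G0 a b c t p n ≠ 0 ∧ G2 a b c t p p * G0 a b c t p n ^ 2
    - 2 * G1 a b c t p p * G0 a b c t p n * G1 a b c t p n
    + G1 a b c t p p ^ 2 * G0 a b c t n n / 2 ≤ 0

/-- product structure at `t` -/
def PZ (a b c m : ℝ → ℝ) (n : ℝ × ℝ) (t : ℝ) : Prop :=
  G0 a b c t n n * m t ^ 2 ≤ deriv m t ∧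
    (∀ p q, G1 a b c t p q = -2 * m t * G0 a b c t p n * G0 a b c t q n) ∧
    ∀ p, G2 a b c t p p =
      -2 * deriv m t * G0 a b c t p n ^ 2 - 4 * m t * G0 a b c t p n * G1 a b c t p n

/-- the properties of the inverse metric `[[a, b], [b, c]]` in the neck -/
structure Neck (a b c mL mR : ℝ → ℝ) (qL qR : ℝ × ℝ) : Prop where
  sa : ContDiff ℝ ∞ a
  sb : ContDiff ℝ ∞ b
  sc : ContDiff ℝ ∞ c
  pos : ∀ t p, p ≠ 0 → 0 < G0 a b c t p p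
  dL : Differentiable ℝ mL
  dR : Differentiable ℝ mR
  L0 : ∀ t ≤ -1 / 5, mL t ≤ 0 ∧ PZ a b c mL qL t
  R0 : ∀ t ≥ 1 / 5, 0 ≤ mR t ∧ PZ a b c mR qR t
  L1 : ∀ t ∈ Icc (-1 / 5 : ℝ) (1 / 5), ∀ p, p ≠ 0 → 0 ≤ G1 a b c t p p →
    (t ≠ -1 / 5 ∨ G1 a b c t p p ≠ 0) → CC a b c t p qL
  R1 : ∀ t ∈ Icc (-1 / 5 : ℝ) (1 / 5), ∀ p, p ≠ 0 → G1 a b c t p p ≤ 0 →
    (t ≠ 1 / 5 ∨ G1 a b c t p p ≠ 0) → CC a b c t p qR
  L2 : ∀ p, G1 a b c (-1 / 5) p p = 0 →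
    G0 a b c (-1 / 5) p qL = 0 ∧ ∀ᶠ t in 𝓝 (-1 / 5 : ℝ), G1 a b c t p p ≤ 0
  R2 : ∀ p, G1 a b c (1 / 5) p p = 0 →
    G0 a b c (1 / 5) p qR = 0 ∧ ∀ᶠ t in 𝓝 (1 / 5 : ℝ), 0 ≤ G1 a b c t p p

/-- `[[α, β], [β, γ]]` and `[[a, b], [b, c]]` are inverse matrices -/
def InvM (α β γ a b c : ℝ → ℝ) : Prop :=
  ∀ t, α t * a t + β t * b t = 1 ∧ α t * b t + β t * c t = 0 ∧
    β t * a t + γ t * b t = 0 ∧ β t * b t + γ t * c t = 1

/-- momentum -/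
def mom (α β γ : ℝ → ℝ) (t : ℝ) (v : V3) : ℝ × ℝ :=
  (α t * v.2.1 + β t * v.2.2, β t * v.2.1 + γ t * v.2.2)

/-- the pairing of a covector with the horizontal part of a vector -/
def pr (q : ℝ × ℝ) (J : V3) : ℝ := q.1 * J.2.1 + q.2 * J.2.2

/-- difference between `g (J, D J)` and the canonical form -/
noncomputable def cor (α β γ : ℝ → ℝ) (t : ℝ) (v J : V3) : ℝ :=
  -(J.1 * G1 α β γ t J.2 v.2) + 1 / 2 * v.1 * G1 α β γ t J.2 J.2

/-- ping-pong data -/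
structure PPD {G X : Type} [Group G] [MulAction G X] (A B C : Subgroup G) (θ : X → ℝ) (δ : ℝ) :
    Prop where
  CA : C ≤ A
  CB : C ≤ B
  up : ∀ a ∈ A, a ∉ C → ∀ z, δ ≤ θ (a • z) + θ z
  down : ∀ b ∈ B, b ∉ C → ∀ z, θ (b • z) + θ z ≤ -δ
  inv : ∀ c ∈ C, ∀ z, θ (c • z) = θ z

/-- the core of the ping-pong table -/
def Om {G X : Type} [Group G] [MulAction G X] (A B C : Subgroup G) (θ : X → ℝ) (η : ℝ) : Set X :=
  {z | (∀ a ∈ A, a ∉ C → η < θ (a • z)) ∧ ∀ b ∈ B, b ∉ C → θ (b • z) < -η}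

/-- local finiteness of the cosets of `C` in `A` -/
def LF {G X : Type} [Group G] [MulAction G X] [TopologicalSpace X] (A C : Subgroup G)
    (θ : X → ℝ) : Prop :=
  ∀ K : Set X, IsCompact K → ∀ T : ℝ, ∃ F : Set G, F.Finite ∧ F ⊆ A ∧
    ∀ a ∈ A, (∃ z ∈ K, θ (a • z) ≤ T) → ∃ f ∈ F, a * f⁻¹ ∈ C

/-- definite descent -/
def Desc {G X : Type} [Group G] [MulAction G X] (A : Subgroup G) (θ : X → ℝ) : Prop :=
  ∃ T δ : ℝ, 0 < δ ∧ ∀ z, T ≤ θ z → ∃ a ∈ A, θ (a • z) ≤ θ z - δ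

abbrev SG : Type := Matrix.SpecialLinearGroup (Fin 2) ℝ × Multiplicative ℝ

noncomputable def uu (z : V3) : ℝ := cosh z.1 * exp z.2.1
noncomputable def vv (z : V3) : ℝ := cosh z.1 * exp (-z.2.1)
noncomputable def ss (z : V3) : ℝ := sinh z.1

noncomputable def uM (γ : SG) (z : V3) : ℝ :=
  γ.1 0 0 ^ 2 * uu z + 2 * γ.1 0 0 * γ.1 0 1 * ss z + γ.1 0 1 ^ 2 * vv z
noncomputable def vM (γ : SG) (z : V3) : ℝ :=
  γ.1 1 0 ^ 2 * uu z + 2 * γ.1 1 0 * γ.1 1 1 * ss z + γ.1 1 1 ^ 2 * vv z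
noncomputable def sM (γ : SG) (z : V3) : ℝ :=
  γ.1 0 0 * γ.1 1 0 * uu z + (γ.1 0 0 * γ.1 1 1 + γ.1 0 1 * γ.1 1 0) * ss z
    + γ.1 0 1 * γ.1 1 1 * vv z

/-- the action of `SL(2, ℝ) × ℝ` on `H^2 × ℝ` in Fermi coordinates -/
noncomputable def hyp (γ : SG) (z : V3) : V3 :=
  (arsinh (sM γ z), log (uM γ z / vM γ z) / 2, z.2.2 + γ.2.toAdd)

theorem uu_pos (z : V3) : 0 < uu z := mul_pos (cosh_pos _) (exp_pos _)
theorem vv_pos (z : V3) : 0 < vv z := mul_pos (cosh_pos _) (exp_pos _)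

theorem uu_mul_vv (z : V3) : uu z * vv z = 1 + ss z ^ 2 := by
  rw [uu, vv, ss, mul_mul_mul_comm, ← exp_add, add_neg_cancel, exp_zero, ← cosh_sq']
  ring

theorem SG.det (γ : SG) : γ.1 0 0 * γ.1 1 1 - γ.1 0 1 * γ.1 1 0 = 1 := by
  have := γ.1.det_coe
  rwa [Matrix.det_fin_two] at this

theorem quad_pos (z : V3) {a b : ℝ} (h : a ≠ 0 ∨ b ≠ 0) :
    0 < a ^ 2 * uu z + 2 * a * b * ss z + b ^ 2 * vv z := by
  have h1 := uu_pos z
  have h2 := uu_mul_vv z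
  have : uu z * (a ^ 2 * uu z + 2 * a * b * ss z + b ^ 2 * vv z)
      = (a * uu z + b * ss z) ^ 2 + b ^ 2 := by linear_combination b ^ 2 * h2
  refine pos_of_mul_pos_of_pos_left' ?_ h1
  rw [this]
  by_cases hb : b = 0
  · have ha : a ≠ 0 := h.resolve_right (not_not.2 hb)
    have := mul_pos (pow_pos (abs_pos.2 ha) 2) (pow_pos h1 2)
    rw [sq_abs] at this
    rw [hb]
    nlinarith
  · positivity
where
  pos_of_mul_pos_of_pos_left' {x y : ℝ} (h : 0 < x * y) (hx : 0 < x) : 0 < y :=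
    (pos_iff_pos_of_mul_pos h).1 hx

theorem uM_pos (γ : SG) (z : V3) : 0 < uM γ z := quad_pos z (by
  by_contra h
  push Not at h
  simpa [h.1, h.2] using γ.det)

theorem vM_pos (γ : SG) (z : V3) : 0 < vM γ z := quad_pos z (by
  by_contra h
  push Not at h
  simpa [h.1, h.2] using γ.det)

theorem uM_mul_vM (γ : SG) (z : V3) : uM γ z * vM γ z = 1 + sM γ z ^ 2 := by
  have h1 := γ.det
  have h2 := uu_mul_vv z
  rw [uM, vM, sM]
  linear_combination (γ.1 0 0 * γ.1 1 1 - γ.1 0 1 * γ.1 1 0) ^ 2 * h2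
    + (γ.1 0 0 * γ.1 1 1 - γ.1 0 1 * γ.1 1 0 + 1) * h1

theorem ss_hyp (γ : SG) (z : V3) : ss (hyp γ z) = sM γ z := sinh_arsinh _

theorem uu_hyp (γ : SG) (z : V3) : uu (hyp γ z) = uM γ z := by
  have h1 := uM_pos γ z
  have h2 := vM_pos γ z
  refine (sq_eq_sq₀ (uu_pos _).le h1.le).1 ?_
  rw [uu, mul_pow, ← exp_nat_mul, cosh_sq', hyp, sinh_arsinh, ← uM_mul_vM]
  push_cast
  rw [mul_div_cancel₀ _ two_ne_zero, exp_log (div_pos h1 h2)]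
  field_simp

theorem vv_hyp (γ : SG) (z : V3) : vv (hyp γ z) = vM γ z := by
  refine mul_left_cancel₀ (uM_pos γ z).ne' ?_
  rw [uM_mul_vM, ← uu_hyp, uu_mul_vv, ss_hyp]

theorem V3.ext' {z z' : V3} (h1 : uu z = uu z') (h2 : ss z = ss z') (h3 : z.2.2 = z'.2.2) :
    z = z' := by
  have a1 : z.1 = z'.1 := sinh_injective h2
  rw [uu, uu, a1] at h1
  exact Prod.ext a1 (Prod.ext (exp_injective (mul_left_cancel₀ (cosh_pos _).ne' h1)) h3)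

noncomputable instance : MulAction SG V3 where
  smul := hyp
  one_smul z := V3.ext' (by erw [uu_hyp]; simp [uM]) (by erw [ss_hyp]; simp [sM])
    (by change z.2.2 + _ = _; simp)
  mul_smul γ δ z := by
    change hyp (γ * δ) z = hyp γ (hyp δ z)
    refine V3.ext' ?_ ?_ ?_
    · rw [uu_hyp, uu_hyp, uM, uM, uu_hyp, vv_hyp, ss_hyp, uM, vM, sM]
      simp [Matrix.mul_apply, Fin.sum_univ_two]
      ring
    · rw [ss_hyp, ss_hyp, sM, sM, uu_hyp, vv_hyp, ss_hyp, uM, vM, sM]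
      simp [Matrix.mul_apply, Fin.sum_univ_two]
      ring
    · simp [hyp]
      ring

theorem smul_eq_hyp (γ : SG) (z : V3) : γ • z = hyp γ z := rfl

noncomputable def sg (r : ℝ) : ℝ := (r - r⁻¹)⁻¹
noncomputable def kp (r : ℝ) : ℝ := √(1 + sg r ^ 2)

theorem kp_sq (r : ℝ) : kp r ^ 2 = 1 + sg r ^ 2 := sq_sqrt (by positivity)

/-- the elliptic element of order two, with translation `3 c` -/
noncomputable def xh (r c : ℝ) : SG :=
  (⟨!![sg r, -kp r; kp r, -sg r], by rw [Matrix.det_fin_two_of]; linear_combination kp_sq r⟩,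
    Multiplicative.ofAdd (3 * c))

/-- the translation along the wall, for `r > 0` -/
noncomputable def mh (r c : ℝ) : SG :=
  (⟨!![exp (log r), 0; 0, exp (-log r)], by
    rw [Matrix.det_fin_two_of, ← exp_add]; simp⟩, Multiplicative.ofAdd (-c))

/-- the elliptic element of order three, with translation `2 c` -/
noncomputable def yh (r c : ℝ) : SG := mh r c * xh r c

noncomputable def GH (r c : ℝ) : Subgroup SG := Subgroup.closure {xh r c, yh r c}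
noncomputable def LH (r c : ℝ) : Subgroup SG := Subgroup.closure {mh r c, xh r c ^ 2}

/-- the product metric on `H^2 × ℝ` -/
noncomputable def gH (κ : ℝ) : V3 → V3 →L[ℝ] V3 →L[ℝ] ℝ :=
  gm (fun t => cosh t ^ 2) (fun _ => 0) fun _ => κ

/-- the metric of the right block -/
noncomputable def gR (κ : ℝ) : V3 → V3 →L[ℝ] V3 →L[ℝ] ℝ :=
  gm (fun t => cosh (t + 1 / 4) ^ 2) (fun _ => 0) fun _ => κ

/-- the metric of the left block -/
noncomputable def gL (ε κ : ℝ) : V3 → V3 →L[ℝ] V3 →L[ℝ] ℝ :=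
  gm (fun t => κ + ε ^ 2 * cosh (1 / 4 - t) ^ 2) (fun t => -ε * cosh (1 / 4 - t) ^ 2)
    fun t => cosh (1 / 4 - t) ^ 2

end Vale.Agent.P255
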