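import Vale.Agent.P255.Mod

set_option maxSynthPendingDepth 3
set_option linter.deprecated false

namespace Vale.Agent.P255

open scoped ContDiff Topology
open Set Filter

/-- the profile functions `A`, `B t = A (-t)` and the cutoff `χ` -/
structure Prof (κ : ℝ) (A B χ : ℝ → ℝ) : Prop where
  sA : ContDiff ℝ ∞ A
  sχ : ContDiff ℝ ∞ χ
  refl : ∀ t, B t = A (-t)
  pos : ∀ t, 0 < A t
  right : ∀ t ≥ -1 / 10, A t = (Real.cosh (t + 1 / 4) ^ 2)⁻¹
  left : ∀ t ≤ -1 / 5, A t = κ⁻¹
  d1 : ∀ t > -1 / 5, deriv A t < 0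
  d2 : ∀ t ∈ Icc (-1 / 5 : ℝ) (1 / 5), deriv (deriv A) t ≤ 0
  d2' : ∀ t ∈ Icc (-1 / 10 : ℝ) (1 / 5), deriv (deriv A) t < 0
  conv : ∀ t ≥ 1 / 5, 2 * A t * deriv (deriv A) t ≤ 3 * deriv A t ^ 2
  χ1 : ∀ t ≤ -1 / 10, χ t = 1
  χ0 : ∀ t ≥ 1 / 10, χ t = 0

noncomputable def profH (t : ℝ) : ℝ := (Real.cosh (t + 1 / 4) ^ 2)⁻¹
noncomputable def profH1 (t : ℝ) : ℝ := -2 * Real.sinh (t + 1 / 4) / Real.cosh (t + 1 / 4) ^ 3
noncomputable def profP (t : ℝ) : ℝ := Real.smoothTransition (10 * t + 2)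

theorem profH_pos (t : ℝ) : 0 < profH t := inv_pos.2 (pow_pos (Real.cosh_pos _) 2)

theorem profH_deriv (t : ℝ) : HasDerivAt profH (profH1 t) t := by
  have h0 := (Real.cosh_pos (t + 1 / 4)).ne'
  refine (((((hasDerivAt_id t).add_const (1 / 4)).cosh).pow 2).inv
    (pow_ne_zero 2 h0)).congr_deriv ?_
  simp only [profH1, id, Pi.pow_apply]
  field_simp
  norm_num
  ring

theorem profH1_deriv (t : ℝ) : HasDerivAt profH1 (4 * profH t - 6 * profH t ^ 2) t := by
  have h0 := (Real.cosh_pos (t + 1 / 4)).ne'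
  have h1 := Real.cosh_sq' (t + 1 / 4)
  refine ((((hasDerivAt_id t).add_const (1 / 4)).sinh.const_mul (-2)).div
    ((((hasDerivAt_id t).add_const (1 / 4)).cosh).pow 3) (pow_ne_zero 3 h0)).congr_deriv ?_
  simp only [profH, id, Pi.pow_apply]
  field_simp
  push_cast
  linear_combination (-6 * Real.cosh ((t * 4 + 1) / 4) ^ 2) * Real.cosh_sq' ((t * 4 + 1) / 4)

theorem profH1_smooth : ContDiff ℝ ∞ profH1 :=
  ContDiff.div (by fun_prop) (by fun_prop) fun _ => pow_ne_zero 3 (Real.cosh_pos _).ne'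

theorem profP_smooth : ContDiff ℝ ∞ profP :=
  Real.smoothTransition.contDiff.comp (by fun_prop)

theorem profH1_neg {t : ℝ} (ht : -1 / 5 ≤ t) : profH1 t < 0 := by
  have : 0 < Real.sinh (t + 1 / 4) := Real.sinh_pos_iff.2 (by linarith)
  exact div_neg_of_neg_of_pos (by linarith) (pow_pos (Real.cosh_pos _) 3)

theorem profH_big {t : ℝ} (ht : t ∈ Icc (-1 / 5 : ℝ) (1 / 5)) :
    4 * profH t - 6 * profH t ^ 2 < 0 := by
  have h1 := Real.cosh_le_exp_half_sq (t + 1 / 4)
  have h2 : (t + 1 / 4) ^ 2 / 2 ≤ 1 / 8 := by nlinarith [ht.1, ht.2]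
  have h3 := Real.exp_bound_div_one_sub_of_interval (x := 1 / 8) (by norm_num) (by norm_num)
  have h4 : Real.cosh (t + 1 / 4) ≤ 8 / 7 := by
    have := Real.exp_le_exp.2 h2
    norm_num at h3 ⊢
    linarith
  have h5 := Real.cosh_pos (t + 1 / 4)
  have h6 : 2 / 3 < profH t := by
    rw [profH, lt_inv_comm₀ (by norm_num) (by positivity)]
    nlinarith
  nlinarith

theorem profH1_sq (t : ℝ) : profH1 t ^ 2 = 4 * profH t ^ 2 - 4 * profH t ^ 3 := by
  have h0 := (Real.cosh_pos (t + 1 / 4)).ne'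
  have h1 := Real.cosh_sq' (t + 1 / 4)
  simp only [profH, profH1]
  generalize Real.cosh (t + 1 / 4) = C at *
  generalize Real.sinh (t + 1 / 4) = S at *
  field_simp
  linear_combination (-4) * h1

theorem prof_exists : ∃ (κ : ℝ) (A B χ : ℝ → ℝ), Prof κ A B χ := by
  let A : ℝ → ℝ := fun t => profH 0 + ∫ s in (0 : ℝ)..t, profP s * profH1 s
  have hf : ContDiff ℝ ∞ fun s => profP s * profH1 s := profP_smooth.mul profH1_smooth
  have hA : ∀ t, HasDerivAt A (profP t * profH1 t) t := fun t =>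
    (hf.continuous.integral_hasStrictDerivAt 0 t).hasDerivAt.const_add _
  have dA : deriv A = fun t => profP t * profH1 t := funext fun t => (hA t).deriv
  have p1 : ∀ t ≥ -1 / 10, profP t = 1 := fun t ht =>
    Real.smoothTransition.one_of_one_le (by linarith)
  have p0 : ∀ t ≤ -1 / 5, profP t = 0 := fun t ht =>
    Real.smoothTransition.zero_of_nonpos (by linarith)
  have pn : ∀ t, 0 ≤ profP t := fun t => Real.smoothTransition.nonneg _
  have pd : ∀ t, 0 ≤ deriv profP t := fun t => Monotone.deriv_nonneg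
    fun a b hab => Real.smoothTransition.monotone (by linarith)
  have d2 : ∀ t, deriv (deriv A) t =
      deriv profP t * profH1 t + profP t * (4 * profH t - 6 * profH t ^ 2) := fun t => by
    rw [dA]
    exact ((profP_smooth.differentiable (by simp) t).hasDerivAt.mul (profH1_deriv t)).deriv
  have right : ∀ t ≥ -1 / 10, A t = profH t := by
    intro t ht
    have e : ∫ s in (0 : ℝ)..t, profP s * profH1 s = ∫ s in (0 : ℝ)..t, profH1 s :=
      intervalIntegral.integral_congr fun s hs => by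
        have : -1 / 10 ≤ s := le_trans (le_min (by norm_num) ht) hs.1
        simp only [p1 s this, one_mul]
    simp only [A]
    rw [e, intervalIntegral.integral_eq_sub_of_hasDerivAt (fun s _ => profH_deriv s)
      (profH1_smooth.continuous.intervalIntegrable _ _)]
    ring
  have anti : Antitone A := antitone_of_deriv_nonpos (fun t => (hA t).differentiableAt) fun t => by
    rw [dA]
    rcases le_total t (-1 / 5) with h | h
    · simp only [p0 t h, zero_mul, le_refl]
    · exact mul_nonpos_of_nonneg_of_nonpos (pn t) (profH1_neg h).le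
  refine ⟨(A (-1 / 5))⁻¹, A, fun t => A (-t), fun t => Real.smoothTransition (5 * (1 / 10 - t)),
    contDiff_infty_iff_deriv.2 ⟨fun t => (hA t).differentiableAt, dA ▸ hf⟩,
    Real.smoothTransition.contDiff.comp (by fun_prop), fun _ => rfl, fun t => ?_, right,
    fun t ht => ?_, fun t ht => ?_, fun t ht => ?_, fun t ht => ?_, fun t ht => ?_,
    fun t ht => Real.smoothTransition.one_of_one_le (by linarith),
    fun t ht => Real.smoothTransition.zero_of_nonpos (by linarith)⟩
  · rcases le_total t 0 with h | h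
    · exact lt_of_lt_of_le (right 0 (by norm_num) ▸ profH_pos 0) (anti h)
    · exact right t (by linarith) ▸ profH_pos t
  · rw [inv_inv]
    have e : ∫ s in (-1 / 5 : ℝ)..t, profP s * profH1 s = ∫ s in (-1 / 5 : ℝ)..t, (0 : ℝ) :=
      intervalIntegral.integral_congr fun s hs => by
        have : s ≤ -1 / 5 := le_trans hs.2 (max_le le_rfl ht)
        simp only [p0 s this, zero_mul]
    simp only [A]
    rw [← intervalIntegral.integral_add_adjacent_intervals (b := -1 / 5)
      (hf.continuous.intervalIntegrable _ _) (hf.continuous.intervalIntegrable _ _), e]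
    simp
  · rw [dA]
    exact mul_neg_of_pos_of_neg (Real.smoothTransition.pos_of_pos (by linarith)) (profH1_neg ht.le)
  · rw [d2]
    exact add_nonpos (mul_nonpos_of_nonneg_of_nonpos (pd t) (profH1_neg ht.1).le)
      (mul_nonpos_of_nonneg_of_nonpos (pn t) (profH_big ht).le)
  · have ht' : t ∈ Icc (-1 / 5 : ℝ) (1 / 5) := ⟨by linarith [ht.1], ht.2⟩
    rw [d2, p1 t ht.1, one_mul]
    exact add_neg_of_nonpos_of_neg (mul_nonpos_of_nonneg_of_nonpos (pd t) (profH1_neg ht'.1).le)
      (profH_big ht')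
  · have h1 := mul_nonpos_of_nonneg_of_nonpos (pd t) (profH1_neg (t := t) (by linarith)).le
    have h2 := profH_pos t
    rw [d2, dA, right t (by linarith)]
    simp only [p1 t (by linarith), one_mul, profH1_sq]
    nlinarith [mul_nonpos_of_nonneg_of_nonpos h2.le h1]

end Vale.Agent.P255
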