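import Vale.Agent.P255.Hyp

set_option maxSynthPendingDepth 3
set_option linter.deprecated false

namespace Vale.Agent.P255

open scoped ContDiff Topology
open Set Filter

theorem wall_mul (γ δ : SG) (i j : Fin 2) :
    (γ * δ).1 i j = γ.1 i 0 * δ.1 0 j + γ.1 i 1 * δ.1 1 j := by
  simp [Matrix.mul_apply, Fin.sum_univ_two]

theorem wall_x0 (r c : ℝ) (γ : SG) (j : Fin 2) :
    (xh r c * γ).1 0 j = sg r * γ.1 0 j - kp r * γ.1 1 j := by
  rw [wall_mul]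
  simp [xh]
  ring

theorem wall_x1 (r c : ℝ) (γ : SG) (j : Fin 2) :
    (xh r c * γ).1 1 j = kp r * γ.1 0 j - sg r * γ.1 1 j := by
  rw [wall_mul]
  simp [xh]
  ring

theorem wall_m0 {r : ℝ} (hr : 1 < r) (c : ℝ) (γ : SG) (j : Fin 2) :
    (mh r c * γ).1 0 j = r * γ.1 0 j := by
  rw [wall_mul]
  simp [mh, Real.exp_log (zero_lt_one.trans hr)]

theorem wall_m1 {r : ℝ} (hr : 1 < r) (c : ℝ) (γ : SG) (j : Fin 2) :
    (mh r c * γ).1 1 j = r⁻¹ * γ.1 1 j := by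
  rw [wall_mul]
  simp [mh, Real.exp_neg, Real.exp_log (zero_lt_one.trans hr)]

theorem wall_n0 {r : ℝ} (hr : 1 < r) (c : ℝ) (γ : SG) (j : Fin 2) :
    ((mh r c)⁻¹ * γ).1 0 j = r⁻¹ * γ.1 0 j := by
  have := wall_m0 hr c ((mh r c)⁻¹ * γ) j
  rw [mul_inv_cancel_left] at this
  rw [this, inv_mul_cancel_left₀ (zero_lt_one.trans hr).ne']

theorem wall_n1 {r : ℝ} (hr : 1 < r) (c : ℝ) (γ : SG) (j : Fin 2) :
    ((mh r c)⁻¹ * γ).1 1 j = r * γ.1 1 j := by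
  have := wall_m1 hr c ((mh r c)⁻¹ * γ) j
  rw [mul_inv_cancel_left] at this
  rw [this, mul_inv_cancel_left₀ (zero_lt_one.trans hr).ne']

theorem wall_xx (r c : ℝ) (γ : SG) (i j : Fin 2) :
    (xh r c * (xh r c * γ)).1 i j = -γ.1 i j := by
  have := kp_sq r
  fin_cases i
  · show (xh r c * (xh r c * γ)).1 0 j = -γ.1 0 j
    rw [wall_x0, wall_x0, wall_x1]; linear_combination (-γ.1 0 j) * this
  · show (xh r c * (xh r c * γ)).1 1 j = -γ.1 1 j
    rw [wall_x1, wall_x0, wall_x1]; linear_combination (-γ.1 1 j) * this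

theorem wall_sg {r : ℝ} (hr : 1 < r) : sg r * (r - r⁻¹) = 1 :=
  inv_mul_cancel₀ (sub_pos.2 ((inv_lt_one_of_one_lt₀ hr).trans hr)).ne'

theorem wall_sg_ge {r : ℝ} (hr : 1 < r) (hr' : r ≤ 3 / 2) : 1 ≤ sg r := by
  have h0 : 0 < r - r⁻¹ := sub_pos.2 ((inv_lt_one_of_one_lt₀ hr).trans hr)
  have h1 : r * r⁻¹ = 1 := mul_inv_cancel₀ (zero_lt_one.trans hr).ne'
  have h2 : 0 < r⁻¹ := inv_pos.2 (zero_lt_one.trans hr)
  refine (one_le_inv₀ h0).2 ?_
  nlinarith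

theorem wall_kp_pos (r : ℝ) : 0 < kp r := Real.sqrt_pos.2 (by positivity)

theorem wall_diag {r : ℝ} (hr : 1 < r) (c : ℝ) {l : SG} (hl : l ∈ LH r c) :
    l.1 0 1 = 0 ∧ l.1 1 0 = 0 := by
  have f1 : ∀ (γ : SG) i j, (xh r c ^ 2 * γ).1 i j = -γ.1 i j := fun γ i j => by
    rw [pow_two, mul_assoc, wall_xx]
  induction hl using Subgroup.closure_induction_left with
  | one => simp
  | mul_left x hx y _ ih =>
    rcases hx with rfl | rfl
    · rw [wall_m0 hr, wall_m1 hr, ih.1, ih.2]; simp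
    · rw [f1, f1, ih.1, ih.2]; simp
  | inv_mul_cancel x hx y _ ih =>
    rcases hx with rfl | rfl
    · rw [wall_n0 hr, wall_n1 hr, ih.1, ih.2]; simp
    · have e : ∀ i j, ((xh r c ^ 2)⁻¹ * y).1 i j = -y.1 i j := fun i j => by
        have := f1 ((xh r c ^ 2)⁻¹ * y) i j
        rw [mul_inv_cancel_left] at this
        rw [this, neg_neg]
      rw [e, e, ih.1, ih.2]; simp

theorem wall_yy {r : ℝ} (hr : 1 < r) (c : ℝ) : yh r c * yh r c = xh r c * (mh r c)⁻¹ := by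
  have h := xh_sq_eq hr c
  have e : yh r c ^ 3 = yh r c * yh r c * mh r c * xh r c := by
    rw [mul_assoc (yh r c * yh r c), ← yh, pow_succ, pow_two]
  rw [e, pow_two] at h
  rw [mul_right_cancel h, mul_inv_cancel_right]

theorem wall_xy {r : ℝ} (hr : 1 < r) (c : ℝ) :
    xh r c * yh r c = (mh r c)⁻¹ * (xh r c * (mh r c)⁻¹) := by
  rw [← wall_yy hr, eq_inv_mul_iff_mul_eq, ← mul_assoc, ← yh]

/-- normal forms -/
inductive WIn (r c : ℝ) : Bool → SG → Prop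
  | base {l : SG} : l ∈ LH r c → WIn r c true (yh r c * l)
  | y1 {γ : SG} : WIn r c false γ → WIn r c true (yh r c * γ)
  | y2 {γ : SG} : WIn r c false γ → WIn r c true (yh r c * yh r c * γ)
  | x1 {γ : SG} : WIn r c true γ → WIn r c false (xh r c * γ)

theorem WIn.right {r c : ℝ} {b : Bool} {γ l : SG} (h : WIn r c b γ) (hl : l ∈ LH r c) :
    WIn r c b (γ * l) := by
  induction h with
  | base h => rw [mul_assoc]; exact .base (mul_mem h hl)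
  | y1 _ ih => rw [mul_assoc]; exact .y1 ih
  | y2 _ ih => rw [mul_assoc]; exact .y2 ih
  | x1 _ ih => rw [mul_assoc]; exact .x1 ih

/-- the set of all normal forms -/
def WAll (r c : ℝ) (γ : SG) : Prop :=
  γ ∈ LH r c ∨ (∃ l ∈ LH r c, γ = xh r c * l) ∨ ∃ b, WIn r c b γ

theorem wall_f_mem (r c : ℝ) : xh r c ^ 2 ∈ LH r c := Subgroup.subset_closure (Or.inr rfl)

theorem wall_m_mem (r c : ℝ) : mh r c ∈ LH r c := Subgroup.subset_closure (Or.inl rfl)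

theorem WAll.right {r c : ℝ} {γ l : SG} (h : WAll r c γ) (hl : l ∈ LH r c) : WAll r c (γ * l) := by
  rcases h with h | ⟨l', h, rfl⟩ | ⟨b, h⟩
  · exact Or.inl (mul_mem h hl)
  · exact Or.inr (Or.inl ⟨_, mul_mem h hl, mul_assoc _ _ _⟩)
  · exact Or.inr (Or.inr ⟨b, h.right hl⟩)

theorem WAll.x {r c : ℝ} {γ : SG} (h : WAll r c γ) : WAll r c (xh r c * γ) := by
  rcases h with h | ⟨l, h, rfl⟩ | ⟨b, h⟩
  · exact Or.inr (Or.inl ⟨_, h, rfl⟩)
  · rw [← mul_assoc, ← pow_two]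
    exact Or.inl (mul_mem (wall_f_mem r c) h)
  · cases h with
    | base h => exact Or.inr (Or.inr ⟨_, .x1 (.base h)⟩)
    | y1 h => exact Or.inr (Or.inr ⟨_, .x1 (.y1 h)⟩)
    | y2 h => exact Or.inr (Or.inr ⟨_, .x1 (.y2 h)⟩)
    | x1 h =>
      rw [← mul_assoc, ← pow_two, xh_sq_central]
      exact Or.inr (Or.inr ⟨_, h.right (wall_f_mem r c)⟩)

theorem WAll.y {r c : ℝ} (hr : 1 < r) {γ : SG} (h : WAll r c γ) : WAll r c (yh r c * γ) := by
  rcases h with h | ⟨l, h, rfl⟩ | ⟨b, h⟩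
  · exact Or.inr (Or.inr ⟨_, .base h⟩)
  · rw [yh, mul_assoc, ← mul_assoc (xh r c), ← pow_two]
    exact Or.inl (mul_mem (wall_m_mem r c) (mul_mem (wall_f_mem r c) h))
  · cases h with
    | base h =>
      rw [← mul_assoc, wall_yy hr, mul_assoc]
      exact Or.inr (Or.inl ⟨_, mul_mem (inv_mem (wall_m_mem r c)) h, rfl⟩)
    | y1 h => rw [← mul_assoc]; exact Or.inr (Or.inr ⟨_, .y2 h⟩)
    | y2 h =>
      rw [← mul_assoc, ← mul_assoc, ← pow_three', ← xh_sq_eq hr, xh_sq_central]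
      exact Or.inr (Or.inr ⟨_, h.right (wall_f_mem r c)⟩)
    | x1 h => exact Or.inr (Or.inr ⟨_, .y1 (.x1 h)⟩)

theorem wall_all {r : ℝ} (hr : 1 < r) (c : ℝ) {γ : SG} (h : γ ∈ GH r c) : WAll r c γ := by
  have cen : ∀ g : SG, g * (xh r c ^ 2)⁻¹ = (xh r c ^ 2)⁻¹ * g := fun g => by
    rw [eq_inv_mul_iff_mul_eq, ← mul_assoc, xh_sq_central, mul_inv_cancel_right]
  induction h using Subgroup.closure_induction_left with
  | one => exact Or.inl (one_mem _)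
  | mul_left x hx y _ ih =>
    rcases hx with rfl | rfl
    · exact ih.x
    · exact ih.y hr
  | inv_mul_cancel x hx y _ ih =>
    have ih' := ih.right (inv_mem (wall_f_mem r c))
    rw [cen] at ih'
    rcases hx with rfl | rfl
    · have := ih'.x
      rwa [← mul_assoc, show xh r c * (xh r c ^ 2)⁻¹ = (xh r c)⁻¹ by group] at this
    · have := (ih'.y hr).y hr
      rwa [xh_sq_eq hr, ← mul_assoc, ← mul_assoc,
        show yh r c * yh r c * (yh r c ^ 3)⁻¹ = (yh r c)⁻¹ by group] at this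

theorem wall_new_pos {σ κ r s a b c d : ℝ} (hσ : 1 ≤ σ) (hκ0 : 0 < κ) (hκ : κ ^ 2 = 1 + σ ^ 2)
    (hs0 : 0 < s) (hs : σ * (r - s) = 1) (h1 : κ * a ^ 2 ≤ σ * (a * c))
    (h2 : κ * b ^ 2 ≤ σ * (b * d)) (had : a * d ≤ -1) (det : a * d - b * c = 1) (ha : 0 < a) :
    (σ * (s * a) - κ * (r * c)) * (κ * (s * b) - σ * (r * d)) ≤ -1 := by
  have hd : d < 0 := by
    by_contra h
    have := mul_nonneg ha.le (not_lt.1 h)
    linarith
  have e1 : κ * a ≤ σ * c := le_of_mul_le_mul_left (by linarith) ha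
  have hc : 0 < c := pos_of_mul_pos_of_pos_left' (x := σ) (by linarith [mul_pos hκ0 ha])
    (by linarith)
  have hb : b < 0 := by
    by_contra h
    have := mul_nonneg (not_lt.1 h) hc.le
    linarith
  have e2 : σ * d ≤ κ * b := le_of_mul_le_mul_left (a := -b) (by linarith) (by linarith)
  have hσκ : σ ≤ κ := by
    by_contra h
    nlinarith
  have f1 : -d ≤ κ * (s * b) - σ * (r * d) := by
    have := mul_le_mul_of_nonneg_left e2 hs0.le
    linear_combination this + d * hs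
  have e3 : σ * a ≤ κ * c := by
    have := mul_le_mul_of_nonneg_right hσκ ha.le
    have := mul_le_mul_of_nonneg_right hσκ hc.le
    linarith
  have f2 : κ * c ≤ σ * (κ * (r * c) - σ * (s * a)) := by
    have := mul_le_mul_of_nonneg_left e3 (mul_nonneg (by linarith : 0 ≤ σ) hs0.le)
    linear_combination this - (κ * c) * hs
  have f3 : 0 < κ * (r * c) - σ * (s * a) :=
    pos_of_mul_pos_of_pos_left' ((mul_pos hκ0 hc).trans_le f2) (by linarith)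
  have f4 := mul_le_mul_of_nonneg_left f1 f3.le
  have f5 := mul_le_mul_of_nonneg_right f2 (neg_nonneg.2 hd.le)
  have f6 := mul_le_mul_of_nonneg_left e2 hc.le
  have f7 : σ * 1 ≤ σ * ((κ * (r * c) - σ * (s * a)) * -d) := by
    have g1 : σ * (κ * 1) ≤ σ * (σ * ((κ * (r * c) - σ * (s * a)) * -d)) → σ * 1 ≤
        σ * ((κ * (r * c) - σ * (s * a)) * -d) := fun g => by
      have := le_of_mul_le_mul_left g (by linarith)
      linarith
    apply g1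
    have g2 : κ * (κ * 1) ≤ κ * (κ * -(b * c)) :=
      mul_le_mul_of_nonneg_left (mul_le_mul_of_nonneg_left (by linarith) hκ0.le) hκ0.le
    have g3 := mul_le_mul_of_nonneg_left f5 (by linarith : 0 ≤ σ)
    have g4 := mul_le_mul_of_nonneg_left f6 hκ0.le
    have g5 := mul_le_mul_of_nonneg_right hσκ hκ0.le
    linarith
  have f8 := le_of_mul_le_mul_left f7 (by linarith)
  linarith
where
  pos_of_mul_pos_of_pos_left' {x y : ℝ} (h : 0 < x * y) (hx : 0 < x) : 0 < y :=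
    (pos_iff_pos_of_mul_pos h).1 hx

theorem wall_new {σ κ r s a b c d : ℝ} (hσ : 1 ≤ σ) (hκ0 : 0 < κ) (hκ : κ ^ 2 = 1 + σ ^ 2)
    (hs0 : 0 < s) (hs : σ * (r - s) = 1) (h1 : κ * a ^ 2 ≤ σ * (a * c))
    (h2 : κ * b ^ 2 ≤ σ * (b * d)) (had : a * d ≤ -1) (det : a * d - b * c = 1) :
    (σ * (s * a) - κ * (r * c)) * (κ * (s * b) - σ * (r * d)) ≤ -1 := by
  rcases lt_trichotomy a 0 with ha | ha | ha
  · have := wall_new_pos (a := -a) (b := -b) (c := -c) (d := -d) hσ hκ0 hκ hs0 hs (by linarith)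
      (by linarith) (by linarith) (by linarith) (by linarith)
    linarith
  · rw [ha] at had; linarith
  · exact wall_new_pos hσ hκ0 hκ hs0 hs h1 h2 had det ha

/-- the stable cone -/
def WS (r : ℝ) (γ : SG) : Prop := ∀ j, kp r * γ.1 0 j ^ 2 ≤ sg r * (γ.1 0 j * γ.1 1 j)

/-- the unstable cone -/
def WU (r : ℝ) (γ : SG) : Prop := ∀ j, kp r * γ.1 1 j ^ 2 ≤ sg r * (γ.1 0 j * γ.1 1 j)

/-- the bound on the diagonal -/
def WB (γ : SG) : Prop := γ.1 0 0 * γ.1 1 1 ≤ -1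

theorem WS.x {r : ℝ} (c : ℝ) {γ : SG} (h : WS r γ) : WU r (xh r c * γ) := fun j => by
  rw [wall_x0, wall_x1]
  linear_combination h j + (γ.1 0 j * (kp r * γ.1 0 j - sg r * γ.1 1 j)) * kp_sq r

theorem WU.x {r : ℝ} (c : ℝ) {γ : SG} (h : WU r γ) : WS r (xh r c * γ) := fun j => by
  rw [wall_x0, wall_x1]
  linear_combination h j - (γ.1 1 j * (sg r * γ.1 0 j - kp r * γ.1 1 j)) * kp_sq r

theorem wall_scale {r : ℝ} (hr : 1 < r) (p q : ℝ) :
    kp r * (r⁻¹ * p) ^ 2 ≤ kp r * p ^ 2 ∧ r * p * (r⁻¹ * q) = p * q ∧ r⁻¹ * p * (r * q) = p * q := by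
  have h0 := (zero_lt_one.trans hr).ne'
  refine ⟨mul_le_mul_of_nonneg_left ?_ (wall_kp_pos r).le, by field_simp, by field_simp⟩
  rw [mul_pow]
  exact mul_le_of_le_one_left (sq_nonneg _)
    (pow_le_one₀ (inv_nonneg.2 (zero_lt_one.trans hr).le) (inv_le_one_of_one_le₀ hr.le))

theorem WU.m {r : ℝ} (hr : 1 < r) (c : ℝ) {γ : SG} (h : WU r γ) : WU r (mh r c * γ) := fun j => by
  rw [wall_m0 hr, wall_m1 hr, (wall_scale hr _ _).2.1]
  exact (wall_scale hr _ 0).1.trans (h j)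

theorem WS.n {r : ℝ} (hr : 1 < r) (c : ℝ) {γ : SG} (h : WS r γ) : WS r ((mh r c)⁻¹ * γ) :=
  fun j => by
    rw [wall_n0 hr, wall_n1 hr, (wall_scale hr _ _).2.2]
    exact (wall_scale hr _ 0).1.trans (h j)

theorem WB.m {r : ℝ} (hr : 1 < r) (c : ℝ) {γ : SG} (h : WB γ) : WB (mh r c * γ) := by
  unfold WB
  rwa [wall_m0 hr, wall_m1 hr, (wall_scale hr _ _).2.1]

theorem WB.n {r : ℝ} (hr : 1 < r) (c : ℝ) {γ : SG} (h : WB γ) : WB ((mh r c)⁻¹ * γ) := by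
  unfold WB
  rwa [wall_n0 hr, wall_n1 hr, (wall_scale hr _ _).2.2]

theorem WB.xx {r : ℝ} (c : ℝ) {γ : SG} (h : WB γ) : WB (xh r c * (xh r c * γ)) := by
  unfold WB
  rwa [wall_xx, wall_xx, neg_mul_neg]

theorem WB.new {r : ℝ} (hr : 1 < r) (hr' : r ≤ 3 / 2) (c : ℝ) {γ : SG} (h : WB γ) (h' : WS r γ) :
    WB (xh r c * ((mh r c)⁻¹ * γ)) := by
  unfold WB
  rw [wall_x0, wall_x1, wall_n0 hr, wall_n0 hr, wall_n1 hr, wall_n1 hr]
  exact wall_new (wall_sg_ge hr hr') (wall_kp_pos r) (kp_sq r) (inv_pos.2 (zero_lt_one.trans hr))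
    (wall_sg hr) (h' 0) (h' 1) h γ.det

theorem wall_xl {r : ℝ} (hr : 1 < r) (hr' : r ≤ 3 / 2) (c : ℝ) {l : SG} (hl : l ∈ LH r c) :
    WB (xh r c * l) := by
  obtain ⟨h1, h2⟩ := wall_diag hr c hl
  have h3 := l.det
  have h4 := wall_sg_ge hr hr'
  unfold WB
  rw [wall_x0, wall_x1, h1, h2]
  rw [h1, zero_mul, sub_zero] at h3
  have : 1 ≤ sg r ^ 2 := one_le_pow₀ h4
  linear_combination this - sg r ^ 2 * h3

theorem wall_yl {r : ℝ} (hr : 1 < r) (hr' : r ≤ 3 / 2) (c : ℝ) {l : SG} (hl : l ∈ LH r c) :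
    WU r (yh r c * l) := by
  obtain ⟨h1, h2⟩ := wall_diag hr c hl
  have h4 := wall_sg_ge hr hr'
  have h5 := wall_sg hr
  have h6 := wall_kp_pos r
  have h7 : r * r⁻¹ = 1 := mul_inv_cancel₀ (zero_lt_one.trans hr).ne'
  intro j
  rw [yh, mul_assoc, wall_m0 hr, wall_m1 hr, (wall_scale hr _ _).2.1]
  fin_cases j
  · show kp r * (r⁻¹ * (xh r c * l).1 1 0) ^ 2 ≤ sg r * ((xh r c * l).1 0 0 * (xh r c * l).1 1 0)
    rw [wall_x0, wall_x1, h2]
    have e1 : (r⁻¹ * kp r) ^ 2 ≤ sg r ^ 2 := by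
      rw [mul_pow, kp_sq]
      have s0 : 0 < r⁻¹ := inv_pos.2 (zero_lt_one.trans hr)
      have s1 : r⁻¹ < 1 := inv_lt_one_of_one_lt₀ hr
      generalize r⁻¹ = s at *
      have e2 : sg r * (1 - s ^ 2) = s := by linear_combination s * h5 - sg r * h7
      have e3 : s * s ≤ s * sg r := mul_le_mul_of_nonneg_left (by linarith) s0.le
      linear_combination e3 - sg r * e2
    have := mul_le_mul_of_nonneg_left e1 (mul_nonneg h6.le (sq_nonneg (l.1 0 0)))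
    linarith
  · show kp r * (r⁻¹ * (xh r c * l).1 1 1) ^ 2 ≤ sg r * ((xh r c * l).1 0 1 * (xh r c * l).1 1 1)
    refine (wall_scale hr _ 0).1.trans (le_of_eq ?_)
    rw [wall_x0, wall_x1, h1]
    ring

theorem WIn.inv {r : ℝ} (hr : 1 < r) (hr' : r ≤ 3 / 2) {c : ℝ} {b : Bool} {γ : SG}
    (h : WIn r c b γ) :
    (b = true → WU r γ) ∧ (b = false → WS r γ) ∧ WB γ ∧ WB (xh r c * γ) := by
  induction h with
  | base h =>
    refine ⟨fun _ => wall_yl hr hr' c h, fun e => absurd e (by decide), ?_, ?_⟩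
    · rw [yh, mul_assoc]; exact (wall_xl hr hr' c h).m hr c
    · rw [← mul_assoc, wall_xy hr, mul_assoc, mul_assoc]
      exact (wall_xl hr hr' c (mul_mem (inv_mem (wall_m_mem r c)) h)).n hr c
  | y1 _ ih =>
    refine ⟨fun _ => ?_, fun e => absurd e (by decide), ?_, ?_⟩
    · rw [yh, mul_assoc]; exact ((ih.2.1 rfl).x c).m hr c
    · rw [yh, mul_assoc]; exact ih.2.2.2.m hr c
    · rw [← mul_assoc, wall_xy hr, mul_assoc, mul_assoc]
      exact (ih.2.2.1.new hr hr' c (ih.2.1 rfl)).n hr c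
  | y2 _ ih =>
    rw [wall_yy hr, mul_assoc]
    exact ⟨fun _ => ((ih.2.1 rfl).n hr c).x c, fun e => absurd e (by decide),
      ih.2.2.1.new hr hr' c (ih.2.1 rfl), (ih.2.2.1.n hr c).xx c⟩
  | x1 _ ih =>
    exact ⟨fun e => absurd e (by decide), fun _ => (ih.1 rfl).x c, ih.2.2.2, ih.2.2.1.xx c⟩

theorem wall_mat {r : ℝ} (hr : 1 < r) (hr' : r ≤ 3 / 2) (c : ℝ) {γ : SG} (h : γ ∈ GH r c)
    (h' : γ ∉ LH r c) :
    γ.1 0 0 * γ.1 1 1 ≤ -1 ∧ 0 ≤ γ.1 0 0 * γ.1 1 0 ∧ 0 ≤ γ.1 0 1 * γ.1 1 1 := by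
  have h4 := wall_sg_ge hr hr'
  have h6 := wall_kp_pos r
  rcases wall_all hr c h with h | ⟨l, hl, rfl⟩ | ⟨b, h⟩
  · exact absurd h h'
  · obtain ⟨h1, h2⟩ := wall_diag hr c hl
    refine ⟨wall_xl hr hr' c hl, ?_, ?_⟩
    · rw [wall_x0, wall_x1, h2]
      have := mul_nonneg (mul_nonneg h6.le (zero_le_one.trans h4)) (sq_nonneg (l.1 0 0))
      linarith
    · rw [wall_x0, wall_x1, h1]
      have := mul_nonneg (mul_nonneg h6.le (zero_le_one.trans h4)) (sq_nonneg (l.1 1 1))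
      linarith
  · obtain ⟨i1, i2, i3, -⟩ := h.inv hr hr'
    have k : ∀ j, 0 ≤ γ.1 0 j * γ.1 1 j := fun j => by
      refine nonneg_of_mul_nonneg_right (a := sg r) ?_ (by linarith)
      cases b
      · exact (mul_nonneg h6.le (sq_nonneg _)).trans (i2 rfl j)
      · exact (mul_nonneg h6.le (sq_nonneg _)).trans (i1 rfl j)
    exact ⟨i3, k 0, k 1⟩

theorem wall_sM (γ : SG) (z : V3) : sM γ z =
    (γ.1 0 0 * γ.1 1 0 * Real.exp z.2.1 + γ.1 0 1 * γ.1 1 1 * Real.exp (-z.2.1)) * Real.cosh z.1 +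
      (γ.1 0 0 * γ.1 1 1 + γ.1 0 1 * γ.1 1 0) * Real.sinh z.1 := by
  rw [sM, uu, vv, ss]; ring

theorem wall_prod (γ : SG) (x : ℝ) : (γ.1 0 0 * γ.1 1 1 + γ.1 0 1 * γ.1 1 0) ^ 2 =
    1 + 4 * (γ.1 0 0 * γ.1 1 0 * Real.exp x * (γ.1 0 1 * γ.1 1 1 * Real.exp (-x))) := by
  have h1 := γ.det
  have h2 : Real.exp x * Real.exp (-x) = 1 := by rw [← Real.exp_add]; simp
  linear_combination (γ.1 0 0 * γ.1 1 1 - γ.1 0 1 * γ.1 1 0 + 1) * h1 -
    4 * (γ.1 0 0 * γ.1 1 0 * (γ.1 0 1 * γ.1 1 1)) * h2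

theorem wall_sum {r : ℝ} (hr : 1 < r) (hr' : r ≤ 3 / 2) (c : ℝ) {γ : SG} (h : γ ∈ GH r c)
    (h' : γ ∉ LH r c) (z : V3) : 3 / 2 ≤ (hyp γ z).1 + z.1 := by
  obtain ⟨h1, h2, h3⟩ := wall_mat hr hr' c h h'
  have key : Real.sinh (3 / 2 - z.1) ≤ sM γ z := by
    have e1 := wall_prod γ z.2.1
    have e0 := γ.det
    rw [wall_sM]
    have p1 := mul_nonneg h2 (Real.exp_pos z.2.1).le
    have p2 := mul_nonneg h3 (Real.exp_pos (-z.2.1)).le
    have n3 : γ.1 0 0 * γ.1 1 1 + γ.1 0 1 * γ.1 1 0 ≤ -3 := by linarith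
    generalize γ.1 0 0 * γ.1 1 0 * Real.exp z.2.1 = p at *
    generalize γ.1 0 1 * γ.1 1 1 * Real.exp (-z.2.1) = q at *
    generalize γ.1 0 0 * γ.1 1 1 + γ.1 0 1 * γ.1 1 0 = n at *
    have a1 : n ^ 2 ≤ 1 + (p + q) ^ 2 := by nlinarith [sq_nonneg (p - q)]
    have p0 : 0 ≤ p + q := by linarith
    generalize p + q = P at *
    have a2 : 2 ≤ P := by nlinarith
    have a3 : -(1 / 5) ≤ P + n := by
      by_contra hc
      nlinarith
    have b1 : Real.exp (3 / 2) ≤ 5 := by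
      have e2 : Real.exp (3 / 2) ^ 2 = Real.exp 1 ^ 3 := by
        rw [← Real.exp_nat_mul, ← Real.exp_nat_mul]; norm_num
      have e3 : Real.exp 1 ^ 3 ≤ 2.8 ^ 3 :=
        pow_le_pow_left₀ (Real.exp_pos 1).le (by linarith [Real.exp_one_lt_d9]) 3
      nlinarith [Real.exp_pos (3 / 2)]
    have b2 : 1 / 5 ≤ Real.exp (-(3 / 2)) := by
      rw [Real.exp_neg, one_div]
      exact inv_anti₀ (Real.exp_pos _) b1
    rw [Real.sinh_eq, Real.sinh_eq, Real.cosh_eq, neg_sub, sub_eq_add_neg (3 / 2 : ℝ),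
      sub_eq_add_neg z.1, Real.exp_add, Real.exp_add]
    have c1 := mul_le_mul_of_nonneg_right (b1.trans (by linarith : 5 ≤ P - n))
      (Real.exp_pos (-z.1)).le
    have c2 := mul_le_mul_of_nonneg_right (by linarith : -Real.exp (-(3 / 2)) ≤ P + n)
      (Real.exp_pos z.1).le
    linarith
  have := Real.arsinh_le_arsinh.2 key
  rw [Real.arsinh_sinh] at this
  show 3 / 2 ≤ Real.arsinh (sM γ z) + z.1
  linarith

/-- the invariant of the coset -/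
def wallN (γ : SG) : ℝ × ℝ × ℝ :=
  (γ.1 0 0 * γ.1 1 0, γ.1 0 0 * γ.1 1 1 + γ.1 0 1 * γ.1 1 0, γ.1 0 1 * γ.1 1 1)

theorem wall_sep {r : ℝ} (hr : 1 < r) (hr' : r ≤ 3 / 2) (c : ℝ) {γ γ' : SG} (h : γ ∈ GH r c)
    (h' : γ' ∈ GH r c) (hd : dist (wallN γ) (wallN γ') < 1) : γ * γ'⁻¹ ∈ LH r c := by
  by_contra hc
  have h1 := (wall_mat hr hr' c (mul_mem h (inv_mem h')) hc).1
  have e0 : (γ * γ'⁻¹).1 0 0 = γ.1 0 0 * γ'.1 1 1 - γ.1 0 1 * γ'.1 1 0 := by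
    simp [Matrix.mul_apply, Fin.sum_univ_two, Matrix.adjugate_fin_two]; ring
  have e1 : (γ * γ'⁻¹).1 1 1 = γ.1 1 1 * γ'.1 0 0 - γ.1 1 0 * γ'.1 0 1 := by
    simp [Matrix.mul_apply, Fin.sum_univ_two, Matrix.adjugate_fin_two]; ring
  rw [e0, e1] at h1
  have d1 := γ.det
  have d2 := γ'.det
  simp only [wallN, Prod.dist_eq, max_lt_iff, Real.dist_eq] at hd
  obtain ⟨k1, k2, k3⟩ := hd
  generalize γ.1 0 0 = a at *
  generalize γ.1 0 1 = b at *
  generalize γ.1 1 0 = c at *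
  generalize γ.1 1 1 = d at *
  generalize γ'.1 0 0 = a' at *
  generalize γ'.1 0 1 = b' at *
  generalize γ'.1 1 0 = c' at *
  generalize γ'.1 1 1 = d' at *
  have key : (a * d + b * c - (a' * d' + b' * c')) ^ 2 - 4 * ((a * c - a' * c') * (b * d - b' * d'))
      = 4 - 4 * ((a * d' - b * c') * (d * a' - c * b')) := by
    linear_combination (a * d - b * c + 1 + 2 * (a' * d' - b' * c')) * d1 +
      (a' * d' - b' * c' + 3) * d2
  have m1 := (sq_lt_one_iff_abs_lt_one _).2 k2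
  have m2 := neg_abs_le ((a * c - a' * c') * (b * d - b' * d'))
  rw [abs_mul] at m2
  have m3 := mul_le_mul k1.le k3.le (abs_nonneg _) zero_le_one
  linarith

theorem wall_bdd {r : ℝ} (hr : 1 < r) (hr' : r ≤ 3 / 2) (c : ℝ) {K : Set V3} (hK : IsCompact K)
    (T : ℝ) : ∃ M, ∀ γ ∈ GH r c, γ ∉ LH r c → (∃ z ∈ K, (γ • z).1 ≤ T) → ‖wallN γ‖ ≤ M := by
  have kp : ∀ t : ℝ, 0 < Real.cosh t - |Real.sinh t| := fun t => by
    rw [Real.abs_sinh, ← Real.cosh_abs]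
    exact sub_pos.2 (Real.sinh_lt_cosh _)
  have mp : ∀ x : ℝ, 0 < min (Real.exp x) (Real.exp (-x)) := fun x =>
    lt_min (Real.exp_pos _) (Real.exp_pos _)
  have hc : Continuous fun z : V3 => (Real.sinh T + |Real.sinh z.1|) /
      (Real.cosh z.1 - |Real.sinh z.1|) / min (Real.exp z.2.1) (Real.exp (-z.2.1)) :=
    Continuous.div (Continuous.div (by fun_prop) (by fun_prop) fun z => (kp _).ne') (by fun_prop)
      fun z => (mp _).ne'
  obtain ⟨M, hM⟩ := hK.bddAbove_image hc.continuousOn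
  refine ⟨1 + M, fun γ h h' ⟨z, z1, z2⟩ => ?_⟩
  obtain ⟨-, h2, h3⟩ := wall_mat hr hr' c h h'
  have e1 : sM γ z ≤ Real.sinh T := by
    have := Real.sinh_le_sinh.2 z2
    rwa [smul_eq_hyp, hyp, Real.sinh_arsinh] at this
  have e2 := hM ⟨z, z1, rfl⟩
  have gen : ∀ p q n : ℝ, 0 ≤ p → 0 ≤ q → n ^ 2 = 1 + 4 * (p * q) → |n| ≤ 1 + (p + q) := by
    intro p q n hp hq e
    refine abs_le_of_sq_le_sq' ?_ (by linarith) |> abs_le.2
    nlinarith [sq_nonneg (p - q)]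
  have g0 := gen _ _ _ h2 h3 (by simpa using wall_prod γ 0)
  have g1 := gen _ _ _ (mul_nonneg h2 (Real.exp_pos z.2.1).le)
    (mul_nonneg h3 (Real.exp_pos (-z.2.1)).le) (wall_prod γ z.2.1)
  rw [wall_sM] at e1
  have g2 := mul_le_mul_of_nonneg_left (min_le_left (Real.exp z.2.1) (Real.exp (-z.2.1))) h2
  have g3 := mul_le_mul_of_nonneg_left (min_le_right (Real.exp z.2.1) (Real.exp (-z.2.1))) h3
  have g4 := neg_abs_le ((γ.1 0 0 * γ.1 1 1 + γ.1 0 1 * γ.1 1 0) * Real.sinh z.1)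
  rw [abs_mul] at g4
  have g5 := mul_le_mul_of_nonneg_right g1 (abs_nonneg (Real.sinh z.1))
  have g6 : γ.1 0 0 * γ.1 1 0 + γ.1 0 1 * γ.1 1 1 ≤ M := by
    refine le_trans ?_ e2
    rw [le_div_iff₀ (mp _), le_div_iff₀ (kp _)]
    have := mul_le_mul_of_nonneg_right (add_le_add g2 g3) (kp z.1).le
    linarith
  simp only [wallN, Prod.norm_def, max_le_iff, Real.norm_eq_abs]
  exact ⟨by rw [abs_of_nonneg h2]; linarith, by linarith, by rw [abs_of_nonneg h3]; linarith⟩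

theorem wall_lf {r : ℝ} (hr : 1 < r) (hr' : r ≤ 3 / 2) (c : ℝ) :
    LF (GH r c) (LH r c) fun z : V3 => z.1 := by
  intro K hK T
  obtain ⟨M, hM⟩ := wall_bdd hr hr' c hK T
  have tb : TotallyBounded (wallN '' {γ | γ ∈ GH r c ∧ γ ∉ LH r c ∧ ∃ z ∈ K, (γ • z).1 ≤ T}) := by
    refine (isCompact_closedBall (0 : ℝ × ℝ × ℝ) M).totallyBounded.subset ?_
    rintro _ ⟨γ, ⟨h1, h2, h3⟩, rfl⟩
    exact mem_closedBall_zero_iff.2 (hM γ h1 h2 h3)
  obtain ⟨t, t1, t2, t3⟩ := Metric.finite_approx_of_totallyBounded tb 1 one_pos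
  obtain ⟨F, F1, F2, rfl⟩ := t2.exists_subset_finite_image_eq t1
  refine ⟨insert 1 F, F2.insert 1, insert_subset (one_mem _) fun γ hγ => (F1 hγ).1, ?_⟩
  intro a ha hz
  by_cases hL : a ∈ LH r c
  · exact ⟨1, mem_insert _ _, by simpa using hL⟩
  · obtain ⟨_, ⟨f, hf, rfl⟩, hb⟩ := mem_iUnion₂.1 (t3 ⟨a, ⟨ha, hL, hz⟩, rfl⟩)
    exact ⟨f, mem_insert_of_mem _ hf, wall_sep hr hr' c ha (F1 hf).1 hb⟩

end Vale.Agent.P255
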